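import Vale.Agent.Lib.P322.Gradient

/-!
The induction on the dimension: a Bellman inequality for functions with controlled gradient.
-/

namespace Vale.Agent.Lib.P322

open Real

lemma Theta_mono {b w s t : ℝ} (hb : 0 ≤ b) (hw : |w| ≤ 1) (hs : 0 ≤ s) (hst : s ≤ t)
    (ht : b * (1 - w ^ 2 + t) ≤ 1) : Theta b w s ≤ Theta b w t := by
  unfold Theta
  have hw2 : 0 ≤ 1 - w ^ 2 := by
    have := abs_le.mp hw
    nlinarith
  have h0 : 0 ≤ b * (1 - w ^ 2 + s) := mul_nonneg hb (by linarith)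
  have h1 : b * (1 - w ^ 2 + s) ≤ b * (1 - w ^ 2 + t) :=
    mul_le_mul_of_nonneg_left (by linarith) hb
  have := H_mono h0 h1 ht
  linarith

/-- **The Bellman inequality.** -/
theorem bellman {b : ℝ} (hb : 0 ≤ b) {n : ℕ} (w : Cube n → ℝ) (h1 : ∀ x, |w x| ≤ 1)
    (h2 : ∀ x, b * (1 - w x ^ 2 + gradSq n w x) ≤ 1) :
    Theta b (avg w) 0 ≤ avg (fun x => Theta b (w x) (gradSq n w x)) := by
  induction n with
  | zero =>
    have x : Cube 0 := fun i => i.elim0
    rw [avg_zero_dim _ x, avg_zero_dim _ x]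
    simp [gradSq]
  | succ n ih =>
    set a₁ : Cube n → ℝ := fun y => w (ins 0 true y) with ha₁
    set a₂ : Cube n → ℝ := fun y => w (ins 0 false y) with ha₂
    have hev : ev 0 w = fun z => (1 / 2 : ℝ) * a₁ z + (1 / 2 : ℝ) * a₂ z := by
      funext z
      simp only [ev, ha₁, ha₂]
      ring
    have hmain : ∀ y, |a₁ y| ≤ 1 ∧ |a₂ y| ≤ 1 := fun y => ⟨h1 _, h1 _⟩
    have hN₁ : ∀ y, b * (1 - a₁ y ^ 2 + (gradSq n a₁ y + ((a₁ y - a₂ y) / 2) ^ 2)) ≤ 1 := by
      intro y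
      have := h2 (ins 0 true y)
      rw [gradSq_ins] at this
      have e : od 0 w y = (a₁ y - a₂ y) / 2 := rfl
      rw [e] at this
      have e2 : 1 - a₁ y ^ 2 + (gradSq n a₁ y + ((a₁ y - a₂ y) / 2) ^ 2)
          = 1 - w (ins 0 true y) ^ 2 + (((a₁ y - a₂ y) / 2) ^ 2 + gradSq n a₁ y) := by
        simp only [ha₁]
        ring
      rw [e2]
      exact this
    have hN₂ : ∀ y, b * (1 - a₂ y ^ 2 + (gradSq n a₂ y + ((a₁ y - a₂ y) / 2) ^ 2)) ≤ 1 := by
      intro y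
      have := h2 (ins 0 false y)
      rw [gradSq_ins] at this
      have e : od 0 w y = (a₁ y - a₂ y) / 2 := rfl
      rw [e] at this
      have e2 : 1 - a₂ y ^ 2 + (gradSq n a₂ y + ((a₁ y - a₂ y) / 2) ^ 2)
          = 1 - w (ins 0 false y) ^ 2 + (((a₁ y - a₂ y) / 2) ^ 2 + gradSq n a₂ y) := by
        simp only [ha₂]
        ring
      rw [e2]
      exact this
    -- the gradient of the even part
    have hgr : ∀ y, gradSq n (ev 0 w) y
        ≤ ((√(gradSq n a₁ y) + √(gradSq n a₂ y)) / 2) ^ 2 := by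
      intro y
      have h := sqrt_gradSq_add_le a₁ a₂ (α := 1 / 2) (β := 1 / 2) (by norm_num) (by norm_num) y
      rw [← hev] at h
      have h3 := pow_le_pow_left₀ (Real.sqrt_nonneg _) h 2
      rw [Real.sq_sqrt (gradSq_nonneg _ _)] at h3
      have e : (1 / 2 : ℝ) * √(gradSq n a₁ y) + 1 / 2 * √(gradSq n a₂ y)
          = (√(gradSq n a₁ y) + √(gradSq n a₂ y)) / 2 := by ring
      rw [e] at h3
      exact h3
    -- the domain condition
    have hdom : ∀ y, b * (1 - ev 0 w y ^ 2 + ((√(gradSq n a₁ y) + √(gradSq n a₂ y)) / 2) ^ 2) ≤ 1 := by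
      intro y
      have h3 := hN₁ y
      have h4 := hN₂ y
      have hs1 := Real.sq_sqrt (gradSq_nonneg a₁ y)
      have hs2 := Real.sq_sqrt (gradSq_nonneg a₂ y)
      set y₁ := √(gradSq n a₁ y)
      set y₂ := √(gradSq n a₂ y)
      rw [← hs1] at h3
      rw [← hs2] at h4
      have e : ev 0 w y = (a₁ y + a₂ y) / 2 := rfl
      rw [e]
      have e2 : 1 - ((a₁ y + a₂ y) / 2) ^ 2 + ((y₁ + y₂) / 2) ^ 2
          = (1 - a₁ y ^ 2 + (y₁ ^ 2 + ((a₁ y - a₂ y) / 2) ^ 2)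
              + (1 - a₂ y ^ 2 + (y₂ ^ 2 + ((a₁ y - a₂ y) / 2) ^ 2))) / 2
            - ((y₁ - y₂) / 2) ^ 2 := by ring
      rw [e2]
      have h5 : 0 ≤ b * ((y₁ - y₂) / 2) ^ 2 := by positivity
      nlinarith
    have hih := ih (ev 0 w)
      (fun x => by
        have h3 := hmain x
        have e : ev 0 w x = (a₁ x + a₂ x) / 2 := rfl
        rw [e]
        have h4 := abs_le.mp h3.1
        have h5 := abs_le.mp h3.2
        rw [abs_le]
        constructor <;> linarith [h4.1, h4.2, h5.1, h5.2])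
      (fun x => by
        have h3 := hdom x
        have h4 := mul_le_mul_of_nonneg_left (hgr x) hb
        nlinarith)
    rw [avg_ev] at hih
    refine hih.trans ?_
    rw [avg_split' 0 (fun x => Theta b (w x) (gradSq (n + 1) w x))]
    apply avg_mono
    intro y
    simp only [gradSq_ins]
    have hs1 := Real.sq_sqrt (gradSq_nonneg a₁ y)
    have hs2 := Real.sq_sqrt (gradSq_nonneg a₂ y)
    have htp := two_point hb (h1 (ins 0 true y)) (h1 (ins 0 false y))
      (Real.sqrt_nonneg (gradSq n a₁ y)) (Real.sqrt_nonneg (gradSq n a₂ y))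
      (by
        rw [hs1]
        exact hN₁ y)
      (by
        rw [hs2]
        exact hN₂ y)
    rw [hs1, hs2] at htp
    have hmono : Theta b (ev 0 w y) (gradSq n (ev 0 w) y)
        ≤ Theta b (ev 0 w y) (((√(gradSq n a₁ y) + √(gradSq n a₂ y)) / 2) ^ 2) := by
      apply Theta_mono hb _ (gradSq_nonneg _ _) (hgr y) (hdom y)
      have h3 := hmain y
      have e : ev 0 w y = (a₁ y + a₂ y) / 2 := rfl
      rw [e]
      have h4 := abs_le.mp h3.1
      have h5 := abs_le.mp h3.2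
      rw [abs_le]
      constructor <;> linarith [h4.1, h4.2, h5.1, h5.2]
    refine hmono.trans ?_
    have e : ev 0 w y = (a₁ y + a₂ y) / 2 := rfl
    rw [e]
    have e1 : od 0 w y = (a₁ y - a₂ y) / 2 := rfl
    rw [e1]
    have e2 : ∀ A B C : ℝ, A ≤ (B + C) / 2 → ∀ C' B', B' = B → C' = C → A ≤ (B' + C') / 2 := by
      intro A B C h C' B' h1 h2
      rw [h1, h2]; exact h
    refine e2 _ _ _ htp _ _ ?_ ?_
    · exact congrArg (Theta b (a₁ y)) (add_comm _ _)
    · exact congrArg (Theta b (a₂ y)) (add_comm _ _)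

/-- **The low-noise inequality in average form.** -/
theorem thm_L {ρ : ℝ} (hρ : |ρ| ≤ 1) {n : ℕ} {f : Cube n → ℝ} (hf : IsBool f) :
    H ((1 - ρ ^ 2) * (1 - avg f ^ 2)) + (1 - ρ ^ 2) * psi (avg f)
      ≤ avg (fun y => log 2 - phi (T ρ f y) + (1 - ρ ^ 2) * psi (T ρ f y)) := by
  have hρ' := abs_le.mp hρ
  have hb : 0 ≤ 1 - ρ ^ 2 := by nlinarith
  have hw : ∀ y, |T ρ f y| ≤ 1 := abs_T_le hρ (fun x => hf.abs_le x)
  have hsq : ∀ y, T ρ (fun x => f x ^ 2) y = 1 := by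
    intro y
    have : (fun x => f x ^ 2) = fun _ => (1 : ℝ) := funext (fun x => hf.sq x)
    rw [this, T_const]
  have hbN : ∀ y, (1 - ρ ^ 2) * (1 - T ρ f y ^ 2 + gradSq n (T ρ f) y) ≤ 1 - T ρ f y ^ 2 := by
    intro y
    have h := rev_poincare hρ f y
    rw [hsq] at h
    nlinarith
  have hwsq : ∀ y, 0 ≤ 1 - T ρ f y ^ 2 := by
    intro y
    have := abs_le.mp (hw y)
    nlinarith
  have hle1 : ∀ y, (1 - ρ ^ 2) * (1 - T ρ f y ^ 2 + gradSq n (T ρ f) y) ≤ 1 := by
    intro y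
    have := hbN y
    nlinarith [sq_nonneg (T ρ f y)]
  have hB := bellman hb (T ρ f) hw hle1
  rw [avg_T] at hB
  unfold Theta at hB
  simp only [add_zero] at hB
  refine hB.trans ?_
  apply avg_mono
  intro y
  have h1 : 0 ≤ (1 - ρ ^ 2) * (1 - T ρ f y ^ 2 + gradSq n (T ρ f) y) :=
    mul_nonneg hb (add_nonneg (hwsq y) (gradSq_nonneg _ _))
  have h2 := H_mono h1 (hbN y) (by nlinarith [sq_nonneg (T ρ f y)])
  rw [H_one_sub_sq] at h2
  linarith

end Vale.Agent.Lib.P322
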