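import Vale.Agent.Lib.P322.EntropyConc

/-!
The Bellman induction for general profiles.
-/

namespace Vale.Agent.Lib.P322

open Real

/-- Admissible profiles. -/
def IsProfile (G : ℝ → ℝ) : Prop :=
  (∀ x y : ℝ, 0 ≤ x → x ≤ 1 → 0 ≤ y → y ≤ 1 → G ((x + y) / 2) - gap x y / 4 ≤ (G x + G y) / 2) ∧
  (∀ u v : ℝ, 0 ≤ u → u ≤ v → v ≤ 1 → (v - u) / 2 ≤ G v - G u)

/-- Admissible corrections. -/
def IsCorr (s : ℝ) (A : ℝ → ℝ) : Prop :=
  ∀ m d : ℝ, |m| + |d| ≤ 1 →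
    gap (1 - (m + d) ^ 2 + d ^ 2 + s) (1 - (m - d) ^ 2 + d ^ 2 + s) / 4
      ≤ (A (m + d) + A (m - d)) / 2 - A m

/-- The Bellman function. -/
noncomputable def ThetaG (G A : ℝ → ℝ) (b s w t : ℝ) : ℝ := G (b * (1 - w ^ 2 + t + s)) + b * A w

lemma isProfile_H : IsProfile H :=
  ⟨fun _ _ h0 h1 h2 h3 => H_midpoint ⟨h0, h1⟩ ⟨h2, h3⟩, fun _ _ h0 h1 h2 => H_sub_ge h0 h1 h2⟩

lemma isCorr_psi : IsCorr 0 psi := by
  intro m d h
  have h1 := gap_second_diff h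
  simp only [add_zero]
  unfold psi
  nlinarith

/-- A bound for the gap by a squared difference. -/
lemma gap_le_sq {P Q : ℝ} (hP : 0 ≤ P) (hQ : 0 ≤ Q) (hM : 0 < (P + Q) / 2) :
    gap P Q ≤ (P - Q) ^ 2 / (4 * ((P + Q) / 2)) := by
  set M := (P + Q) / 2 with hMdef
  have key : ∀ x : ℝ, 0 ≤ x → x * log x ≤ x * log M + x * (x / M - 1) := by
    intro x hx
    rcases hx.eq_or_lt with h | h
    · rw [← h]; simp
    · have h1 := Real.log_le_sub_one_of_pos (div_pos h hM)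
      rw [Real.log_div h.ne' hM.ne'] at h1
      nlinarith
  have h1 := key P hP
  have h2 := key Q hQ
  unfold gap
  rw [← hMdef]
  have e : (P - Q) ^ 2 / (4 * M) = (P * (P / M - 1) + Q * (Q / M - 1)) / 2 := by
    have hQ' : Q = 2 * M - P := by rw [hMdef]; ring
    rw [hQ']
    field_simp
    ring
  rw [e]
  have e2 : M * log M = (P * log M + Q * log M) / 2 := by
    rw [hMdef]; ring
  rw [e2]
  linarith

lemma isCorr_sq : IsCorr 1 (fun w => w ^ 2) := by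
  intro m d h
  have hm : |m| ≤ 1 := by linarith [abs_nonneg d]
  have hm' := abs_le.mp hm
  have hm2 : m ^ 2 ≤ 1 := by nlinarith
  have hd : |d| ≤ 1 := by linarith [abs_nonneg m]
  have hm1 : |m + d| ≤ 1 := (abs_add_le m d).trans h
  have hm3 : |m - d| ≤ 1 := (abs_sub m d).trans h
  have h1 : 0 ≤ (m + d) ^ 2 ∧ (m + d) ^ 2 ≤ 1 := ⟨sq_nonneg _, by
    have := abs_le.mp hm1
    nlinarith⟩
  have h2 : 0 ≤ (m - d) ^ 2 ∧ (m - d) ^ 2 ≤ 1 := ⟨sq_nonneg _, by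
    have := abs_le.mp hm3
    nlinarith⟩
  have hP : 0 ≤ 1 - (m + d) ^ 2 + d ^ 2 + 1 := by nlinarith [sq_nonneg d]
  have hQ : 0 ≤ 1 - (m - d) ^ 2 + d ^ 2 + 1 := by nlinarith [sq_nonneg d]
  have hMeq : (1 - (m + d) ^ 2 + d ^ 2 + 1 + (1 - (m - d) ^ 2 + d ^ 2 + 1)) / 2 = 2 - m ^ 2 := by ring
  have hM : 0 < (1 - (m + d) ^ 2 + d ^ 2 + 1 + (1 - (m - d) ^ 2 + d ^ 2 + 1)) / 2 := by
    rw [hMeq]; linarith
  have h3 := gap_le_sq hP hQ hM
  rw [hMeq] at h3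
  have e : (1 - (m + d) ^ 2 + d ^ 2 + 1 - (1 - (m - d) ^ 2 + d ^ 2 + 1)) ^ 2 = 16 * (m ^ 2 * d ^ 2) := by
    ring
  rw [e] at h3
  have hm4 : 0 < 2 - m ^ 2 := by linarith
  have h4 : 16 * (m ^ 2 * d ^ 2) / (4 * (2 - m ^ 2)) ≤ 4 * d ^ 2 := by
    rw [div_le_iff₀ (by positivity)]
    have : 0 ≤ d ^ 2 := sq_nonneg d
    nlinarith [mul_nonneg this (sq_nonneg m)]
  have e2 : ((m + d) ^ 2 + (m - d) ^ 2) / 2 - m ^ 2 = d ^ 2 := by ring
  simp only []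
  rw [e2]
  linarith

/-- **The two-point inequality** for general profiles. -/
theorem two_point_gen {G A : ℝ → ℝ} {b s a₁ a₂ y₁ y₂ : ℝ} (hG : IsProfile G) (hA : IsCorr s A)
    (hb0 : 0 ≤ b) (hs0 : 0 ≤ s) (h₁ : |a₁| ≤ 1) (h₂ : |a₂| ≤ 1)
    (hy₁ : 0 ≤ y₁) (hy₂ : 0 ≤ y₂)
    (hN₁ : b * (1 - a₁ ^ 2 + (y₁ ^ 2 + ((a₁ - a₂) / 2) ^ 2) + s) ≤ 1)
    (hN₂ : b * (1 - a₂ ^ 2 + (y₂ ^ 2 + ((a₁ - a₂) / 2) ^ 2) + s) ≤ 1) :
    ThetaG G A b s ((a₁ + a₂) / 2) (((y₁ + y₂) / 2) ^ 2)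
      ≤ (ThetaG G A b s a₁ (y₁ ^ 2 + ((a₁ - a₂) / 2) ^ 2)
          + ThetaG G A b s a₂ (y₂ ^ 2 + ((a₁ - a₂) / 2) ^ 2)) / 2 := by
  set m := (a₁ + a₂) / 2 with hm
  set d := (a₁ - a₂) / 2 with hd
  have ha₁ : a₁ = m + d := by rw [hm, hd]; ring
  have ha₂ : a₂ = m - d := by rw [hm, hd]; ring
  have h1' := abs_le.mp h₁
  have h2' := abs_le.mp h₂
  have hsum : |m| + |d| ≤ 1 := by
    rcases abs_cases m with ⟨a1, a2⟩ | ⟨a1, a2⟩ <;> rcases abs_cases d with ⟨b1, b2⟩ | ⟨b1, b2⟩ <;>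
    rw [a1, b1] <;> linarith [h1'.1, h1'.2, h2'.1, h2'.2]
  have hsq₁ : 0 ≤ 1 - a₁ ^ 2 := by nlinarith
  have hsq₂ : 0 ≤ 1 - a₂ ^ 2 := by nlinarith
  set N₁ := 1 - a₁ ^ 2 + (y₁ ^ 2 + d ^ 2) + s with hN₁def
  set N₂ := 1 - a₂ ^ 2 + (y₂ ^ 2 + d ^ 2) + s with hN₂def
  have hN₁0 : 0 ≤ N₁ := by rw [hN₁def]; positivity
  have hN₂0 : 0 ≤ N₂ := by rw [hN₂def]; positivity
  set X := (N₁ + N₂) / 2 with hX
  set N₀ := 1 - m ^ 2 + ((y₁ + y₂) / 2) ^ 2 + s with hN₀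
  have hXN : X = N₀ + ((y₁ - y₂) / 2) ^ 2 := by
    rw [hX, hN₁def, hN₂def, hN₀, ha₁, ha₂]
    ring
  have hV : 0 ≤ 1 - m ^ 2 := by
    have h1 : |m| ≤ 1 := by linarith [abs_nonneg d]
    have := abs_le.mp h1
    nlinarith
  have hN₀0 : 0 ≤ N₀ := by rw [hN₀]; positivity
  have hv₁0 : 0 ≤ b * N₁ := by positivity
  have hv₂0 : 0 ≤ b * N₂ := by positivity
  have hmid := hG.1 _ _ hv₁0 hN₁ hv₂0 hN₂
  have e1 : (b * N₁ + b * N₂) / 2 = b * X := by rw [hX]; ring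
  rw [e1, gap_smul hb0 hN₁0 hN₂0] at hmid
  have hbX : b * X ≤ 1 := by
    rw [← e1]
    linarith
  have hbN₀ : b * N₀ ≤ b * X := by
    apply mul_le_mul_of_nonneg_left _ hb0
    rw [hXN]
    nlinarith [sq_nonneg ((y₁ - y₂) / 2)]
  have hsub := hG.2 _ _ (mul_nonneg hb0 hN₀0) hbN₀ hbX
  have hNgap : gap N₁ N₂ ≤ (y₁ - y₂) ^ 2 / 2
      + gap (1 - (m + d) ^ 2 + d ^ 2 + s) (1 - (m - d) ^ 2 + d ^ 2 + s) := by
    have e2 : N₁ = y₁ ^ 2 + (1 - (m + d) ^ 2 + d ^ 2 + s) := by rw [hN₁def, ha₁]; ring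
    have e3 : N₂ = y₂ ^ 2 + (1 - (m - d) ^ 2 + d ^ 2 + s) := by rw [hN₂def, ha₂]; ring
    rw [e2, e3]
    have hnn₁ : 0 ≤ 1 - (m + d) ^ 2 + d ^ 2 + s := by
      rw [← ha₁]; positivity
    have hnn₂ : 0 ≤ 1 - (m - d) ^ 2 + d ^ 2 + s := by
      rw [← ha₂]; positivity
    have h3 := gap_subadd (sq_nonneg y₁) (sq_nonneg y₂) hnn₁ hnn₂
    have h4 := gap_lsi hy₁ hy₂
    linarith
  have hcorr := hA m d hsum
  have hbgap := mul_le_mul_of_nonneg_left hNgap hb0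
  have hbcorr := mul_le_mul_of_nonneg_left hcorr hb0
  unfold ThetaG
  have e4 : 1 - m ^ 2 + ((y₁ + y₂) / 2) ^ 2 + s = N₀ := rfl
  rw [e4, ← hN₁def, ← hN₂def, ← ha₁, ← ha₂] at *
  have e8 : b * (((y₁ - y₂) / 2) ^ 2) = b * X - b * N₀ := by
    rw [hXN]; ring
  have e9 : b * ((y₁ - y₂) ^ 2 / 2
        + gap (1 - a₁ ^ 2 + d ^ 2 + s) (1 - a₂ ^ 2 + d ^ 2 + s))
      = 2 * (b * (((y₁ - y₂) / 2) ^ 2))
        + b * gap (1 - a₁ ^ 2 + d ^ 2 + s) (1 - a₂ ^ 2 + d ^ 2 + s) := by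
    ring
  rw [e9, e8] at hbgap
  have e10 : b * ((A a₁ + A a₂) / 2 - A m) = (b * A a₁ + b * A a₂) / 2 - b * A m := by ring
  rw [e10] at hbcorr
  have e11 : b * (gap (1 - a₁ ^ 2 + d ^ 2 + s) (1 - a₂ ^ 2 + d ^ 2 + s) / 4)
      = b * gap (1 - a₁ ^ 2 + d ^ 2 + s) (1 - a₂ ^ 2 + d ^ 2 + s) / 4 := by ring
  rw [e11] at hbcorr
  linarith

/-- **The Bellman inequality** for general profiles. -/
theorem bellman_gen {G A : ℝ → ℝ} {b s : ℝ} (hG : IsProfile G) (hA : IsCorr s A) (hb : 0 ≤ b)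
    (hs : 0 ≤ s) {n : ℕ} (w : Cube n → ℝ) (h1 : ∀ x, |w x| ≤ 1)
    (h2 : ∀ x, b * (1 - w x ^ 2 + gradSq n w x + s) ≤ 1) :
    ThetaG G A b s (avg w) 0 ≤ avg (fun x => ThetaG G A b s (w x) (gradSq n w x)) := by
  induction n with
  | zero =>
    have x : Cube 0 := fun i => i.elim0
    rw [avg_zero_dim _ x, avg_zero_dim _ x]
    simp [gradSq]
  | succ n ih =>
    set a₁ : Cube n → ℝ := fun y => w (ins 0 true y) with ha₁
    set a₂ : Cube n → ℝ := fun y => w (ins 0 false y) with ha₂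
    have hev : ev 0 w = fun z => (1 / 2 : ℝ) * a₁ z + (1 / 2 : ℝ) * a₂ z := by
      funext z
      simp only [ev, ha₁, ha₂]
      ring
    have hmain : ∀ y, |a₁ y| ≤ 1 ∧ |a₂ y| ≤ 1 := fun y => ⟨h1 _, h1 _⟩
    have hN₁ : ∀ y, b * (1 - a₁ y ^ 2 + (gradSq n a₁ y + ((a₁ y - a₂ y) / 2) ^ 2) + s) ≤ 1 := by
      intro y
      have := h2 (ins 0 true y)
      rw [gradSq_ins] at this
      have e : od 0 w y = (a₁ y - a₂ y) / 2 := rfl
      rw [e] at this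
      have e2 : 1 - a₁ y ^ 2 + (gradSq n a₁ y + ((a₁ y - a₂ y) / 2) ^ 2) + s
          = 1 - w (ins 0 true y) ^ 2 + (((a₁ y - a₂ y) / 2) ^ 2 + gradSq n a₁ y) + s := by
        simp only [ha₁]
        ring
      rw [e2]
      exact this
    have hN₂ : ∀ y, b * (1 - a₂ y ^ 2 + (gradSq n a₂ y + ((a₁ y - a₂ y) / 2) ^ 2) + s) ≤ 1 := by
      intro y
      have := h2 (ins 0 false y)
      rw [gradSq_ins] at this
      have e : od 0 w y = (a₁ y - a₂ y) / 2 := rfl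
      rw [e] at this
      have e2 : 1 - a₂ y ^ 2 + (gradSq n a₂ y + ((a₁ y - a₂ y) / 2) ^ 2) + s
          = 1 - w (ins 0 false y) ^ 2 + (((a₁ y - a₂ y) / 2) ^ 2 + gradSq n a₂ y) + s := by
        simp only [ha₂]
        ring
      rw [e2]
      exact this
    have hgr : ∀ y, gradSq n (ev 0 w) y
        ≤ ((√(gradSq n a₁ y) + √(gradSq n a₂ y)) / 2) ^ 2 := by
      intro y
      have h := sqrt_gradSq_add_le a₁ a₂ (α := 1 / 2) (β := 1 / 2) (by norm_num) (by norm_num) y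
      rw [← hev] at h
      have h3 := pow_le_pow_left₀ (Real.sqrt_nonneg _) h 2
      rw [Real.sq_sqrt (gradSq_nonneg _ _)] at h3
      have e : (1 / 2 : ℝ) * √(gradSq n a₁ y) + 1 / 2 * √(gradSq n a₂ y)
          = (√(gradSq n a₁ y) + √(gradSq n a₂ y)) / 2 := by ring
      rw [e] at h3
      exact h3
    have hdom : ∀ y, b * (1 - ev 0 w y ^ 2
        + ((√(gradSq n a₁ y) + √(gradSq n a₂ y)) / 2) ^ 2 + s) ≤ 1 := by
      intro y
      have h3 := hN₁ y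
      have h4 := hN₂ y
      have hs1 := Real.sq_sqrt (gradSq_nonneg a₁ y)
      have hs2 := Real.sq_sqrt (gradSq_nonneg a₂ y)
      set y₁ := √(gradSq n a₁ y)
      set y₂ := √(gradSq n a₂ y)
      rw [← hs1] at h3
      rw [← hs2] at h4
      have e : ev 0 w y = (a₁ y + a₂ y) / 2 := rfl
      rw [e]
      have e2 : 1 - ((a₁ y + a₂ y) / 2) ^ 2 + ((y₁ + y₂) / 2) ^ 2 + s
          = (1 - a₁ y ^ 2 + (y₁ ^ 2 + ((a₁ y - a₂ y) / 2) ^ 2) + s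
              + (1 - a₂ y ^ 2 + (y₂ ^ 2 + ((a₁ y - a₂ y) / 2) ^ 2) + s)) / 2
            - ((y₁ - y₂) / 2) ^ 2 := by ring
      rw [e2]
      have h5 : 0 ≤ b * ((y₁ - y₂) / 2) ^ 2 := by positivity
      nlinarith
    have hev_abs : ∀ x, |ev 0 w x| ≤ 1 := by
      intro x
      have h3 := hmain x
      have e : ev 0 w x = (a₁ x + a₂ x) / 2 := rfl
      rw [e]
      have h4 := abs_le.mp h3.1
      have h5 := abs_le.mp h3.2
      rw [abs_le]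
      constructor <;> linarith [h4.1, h4.2, h5.1, h5.2]
    have hih := ih (ev 0 w) hev_abs
      (fun x => by
        have h3 := hdom x
        have h4 := mul_le_mul_of_nonneg_left (hgr x) hb
        nlinarith)
    rw [avg_ev] at hih
    refine hih.trans ?_
    rw [avg_split' 0 (fun x => ThetaG G A b s (w x) (gradSq (n + 1) w x))]
    apply avg_mono
    intro y
    simp only [gradSq_ins]
    have hs1 := Real.sq_sqrt (gradSq_nonneg a₁ y)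
    have hs2 := Real.sq_sqrt (gradSq_nonneg a₂ y)
    have htp := two_point_gen hG hA hb hs (h1 (ins 0 true y)) (h1 (ins 0 false y))
      (Real.sqrt_nonneg (gradSq n a₁ y)) (Real.sqrt_nonneg (gradSq n a₂ y))
      (by
        rw [hs1]
        exact hN₁ y)
      (by
        rw [hs2]
        exact hN₂ y)
    rw [hs1, hs2] at htp
    have hmono : ThetaG G A b s (ev 0 w y) (gradSq n (ev 0 w) y)
        ≤ ThetaG G A b s (ev 0 w y) (((√(gradSq n a₁ y) + √(gradSq n a₂ y)) / 2) ^ 2) := by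
      unfold ThetaG
      have hV : 0 ≤ 1 - ev 0 w y ^ 2 := by
        have := abs_le.mp (hev_abs y)
        nlinarith
      have h3 := gradSq_nonneg (ev 0 w) y
      have h4 := hG.2 (b * (1 - ev 0 w y ^ 2 + gradSq n (ev 0 w) y + s))
        (b * (1 - ev 0 w y ^ 2 + ((√(gradSq n a₁ y) + √(gradSq n a₂ y)) / 2) ^ 2 + s))
        (by positivity)
        (mul_le_mul_of_nonneg_left (by linarith [hgr y]) hb)
        (hdom y)
      have h5 : 0 ≤ b * (1 - ev 0 w y ^ 2 + ((√(gradSq n a₁ y) + √(gradSq n a₂ y)) / 2) ^ 2 + s)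
          - b * (1 - ev 0 w y ^ 2 + gradSq n (ev 0 w) y + s) := by
        have := mul_le_mul_of_nonneg_left (hgr y) hb
        nlinarith
      linarith
    refine hmono.trans ?_
    have e : ev 0 w y = (a₁ y + a₂ y) / 2 := rfl
    rw [e]
    have e1 : od 0 w y = (a₁ y - a₂ y) / 2 := rfl
    rw [e1]
    have e2 : ∀ A B C : ℝ, A ≤ (B + C) / 2 → ∀ C' B', B' = B → C' = C → A ≤ (B' + C') / 2 := by
      intro A B C h C' B' h1 h2
      rw [h1, h2]; exact h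
    refine e2 _ _ _ htp _ _ ?_ ?_
    · exact congrArg (ThetaG G A b s (a₁ y)) (add_comm _ _)
    · exact congrArg (ThetaG G A b s (a₂ y)) (add_comm _ _)

end Vale.Agent.Lib.P322
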