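import Vale.Agent.Lib.P322.SDPI

/-!
Revealing one coordinate: the main inequality for Boolean functions with a large level-one
coefficient.
-/

namespace Vale.Agent.Lib.P322

open Real

/-- Functions with values in `{-1, 1}`. -/
def IsBool {n : ℕ} (f : Cube n → ℝ) : Prop := ∀ x, f x = 1 ∨ f x = -1

lemma IsBool.abs_le {n : ℕ} {f : Cube n → ℝ} (hf : IsBool f) (x : Cube n) : |f x| ≤ 1 := by
  rcases hf x with h | h <;> rw [h] <;> norm_num

lemma IsBool.sq {n : ℕ} {f : Cube n → ℝ} (hf : IsBool f) (x : Cube n) : f x ^ 2 = 1 := by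
  rcases hf x with h | h <;> rw [h] <;> norm_num

lemma abs_avg_le_one {n : ℕ} {g : Cube n → ℝ} (hg : ∀ x, |g x| ≤ 1) : |avg g| ≤ 1 :=
  calc |avg g| ≤ avg (fun x => |g x|) := abs_avg_le g
    _ ≤ avg (fun _ => (1 : ℝ)) := avg_mono hg
    _ = 1 := avg_const 1

/-- The two values of a Boolean function on a line, in terms of even and odd parts. -/
lemma phi_mix_eval {n : ℕ} (p : Fin (n + 1)) {f : Cube (n + 1) → ℝ} (hf : IsBool f) (ρ : ℝ)
    (b : Bool) (x : Cube n) :
    phi (ev p f x + ρ * sgn b * od p f x) = log 2 - od p f x ^ 2 * (log 2 - phi ρ) := by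
  rcases hf (ins p true x) with h1 | h1 <;> rcases hf (ins p false x) with h2 | h2 <;>
    cases b <;> simp only [ev, od, h1, h2, sgn_true, sgn_false] <;> norm_num [phi_one, phi_neg_one]
  all_goals exact phi_neg ρ

lemma od_sq_eq_abs {n : ℕ} (p : Fin (n + 1)) {f : Cube (n + 1) → ℝ} (hf : IsBool f) (x : Cube n) :
    od p f x ^ 2 = |od p f x| := by
  rcases hf (ins p true x) with h1 | h1 <;> rcases hf (ins p false x) with h2 | h2 <;>
    simp only [od, h1, h2] <;> norm_num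

lemma abs_coef_le_avg_od_sq {n : ℕ} (p : Fin (n + 1)) {f : Cube (n + 1) → ℝ} (hf : IsBool f) :
    |coef p f| ≤ avg (fun x => od p f x ^ 2) := by
  rw [coef_same]
  calc |avg (od p f)| ≤ avg (fun x => |od p f x|) := abs_avg_le _
    _ = avg (fun x => od p f x ^ 2) := avg_congr (fun x => (od_sq_eq_abs p hf x).symm)

lemma abs_avg_add_abs_coef_le {n : ℕ} (p : Fin (n + 1)) {g : Cube (n + 1) → ℝ}
    (hg : ∀ x, |g x| ≤ 1) : |avg g| + |coef p g| ≤ 1 := by
  rw [← avg_ev p g, coef_same]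
  calc |avg (ev p g)| + |avg (od p g)|
      ≤ avg (fun x => |ev p g x|) + avg (fun x => |od p g x|) :=
        add_le_add (abs_avg_le _) (abs_avg_le _)
    _ = avg (fun x => |ev p g x| + |od p g x|) := (avg_add _ _).symm
    _ ≤ avg (fun _ => (1 : ℝ)) := avg_mono (abs_ev_add_abs_od_le p hg)
    _ = 1 := avg_const 1

/-- The reveal inequality. -/
theorem reveal {n : ℕ} (p : Fin (n + 1)) {f : Cube (n + 1) → ℝ} (hf : IsBool f) {ρ : ℝ}
    (hρ : |ρ| ≤ 1) :
    avg (fun y => phi (T ρ f y))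
      ≤ (1 - ρ ^ 2) * ((phi (avg f + ρ * coef p f) + phi (avg f - ρ * coef p f)) / 2)
        + ρ ^ 2 * (log 2 - avg (fun x => od p f x ^ 2) * (log 2 - phi ρ)) := by
  have hb : ∀ b : Bool, avg (fun y => phi (T ρ f (ins p b y)))
      ≤ (1 - ρ ^ 2) * phi (avg f + ρ * sgn b * coef p f)
        + ρ ^ 2 * (log 2 - avg (fun x => od p f x ^ 2) * (log 2 - phi ρ)) := by
    intro b
    have h1 := sdpi hρ (fun x => ev p f x + ρ * sgn b * od p f x) (abs_mix_le p hρ hf.abs_le b)
    rw [avg_mix] at h1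
    have h2 : avg (fun x => phi (ev p f x + ρ * sgn b * od p f x))
        = log 2 - avg (fun x => od p f x ^ 2) * (log 2 - phi ρ) := by
      have e : (fun x => phi (ev p f x + ρ * sgn b * od p f x))
          = fun x => log 2 - od p f x ^ 2 * (log 2 - phi ρ) := by
        funext x; exact phi_mix_eval p hf ρ b x
      rw [e, avg_sub, avg_const, avg_mul_right]
    rw [h2] at h1
    simpa only [T_mix] using h1
  rw [avg_split p]
  have h1 := hb true
  have h2 := hb false
  simp only [sgn_true, sgn_false, mul_one] at h1 h2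
  have e : avg f + ρ * -1 * coef p f = avg f - ρ * coef p f := by ring
  rw [e] at h2
  nlinarith

/-- A second difference of `phi` against the top value. -/
lemma second_diff_le {m a r : ℝ} (hr : |r| ≤ 1) (h : |m| + |a| ≤ 1) :
    (1 - r ^ 2) * ((phi (m + r * a) + phi (m - r * a)) / 2 - phi m)
      ≤ (1 - r ^ 2) * a ^ 2 * phi r + r ^ 2 * phi m := by
  have ha0 := abs_nonneg a
  have hm0 := abs_nonneg m
  have hm1 := le_abs_self m
  have hm2 := neg_abs_le m
  have hr2 : r ^ 2 ≤ 1 := by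
    have := abs_le.mp hr; nlinarith
  have hr1 : 0 ≤ 1 - r ^ 2 := by linarith
  have hphir : 0 ≤ phi r := phi_nonneg hr
  have hm' : |m| ≤ 1 := by linarith
  have hphim : m ^ 2 / 2 ≤ phi m := by
    have := phi_ge hm'
    have : 0 ≤ m ^ 4 / 12 := by positivity
    linarith
  by_cases hA : |m| = 1
  · have ha : a = 0 := by
      have : |a| ≤ 0 := by linarith
      exact abs_nonpos_iff.mp this
    subst ha
    simp only [mul_zero, add_zero, sub_zero]
    have : 0 ≤ phi m := phi_nonneg hm'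
    have hr3 : 0 ≤ r ^ 2 := sq_nonneg r
    nlinarith
  have hm'' : |m| < 1 := lt_of_le_of_ne hm' hA
  have hApos : 0 < 1 + m := by linarith
  have hBpos : 0 < 1 - m := by linarith
  have hVar : 0 < (1 + m) * (1 - m) := mul_pos hApos hBpos
  have hsum : |m| + |r * a| ≤ 1 := by
    rw [abs_mul]
    nlinarith [abs_nonneg r]
  rw [phi_second_diff hsum]
  have hquot1 : |a / (1 + m)| ≤ 1 := by
    rw [abs_div, abs_of_pos hApos, div_le_one hApos]; linarith
  have hquot2 : |a / (1 - m)| ≤ 1 := by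
    rw [abs_div, abs_of_pos hBpos, div_le_one hBpos]; linarith
  have e1 : r * a / (1 + m) = (a / (1 + m)) * r := by ring
  have e2 : r * a / (1 - m) = (a / (1 - m)) * r := by ring
  have h1 := phi_scale hquot1 hr
  have h2 := phi_scale hquot2 hr
  rw [e1, e2]
  have h3 : (1 + m) * phi (a / (1 + m) * r) ≤ a ^ 2 / (1 + m) * phi r := by
    calc (1 + m) * phi (a / (1 + m) * r)
        ≤ (1 + m) * ((a / (1 + m)) ^ 2 * phi r) := mul_le_mul_of_nonneg_left h1 hApos.le
      _ = _ := by field_simp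
  have h4 : (1 - m) * phi (a / (1 - m) * r) ≤ a ^ 2 / (1 - m) * phi r := by
    calc (1 - m) * phi (a / (1 - m) * r)
        ≤ (1 - m) * ((a / (1 - m)) ^ 2 * phi r) := mul_le_mul_of_nonneg_left h2 hBpos.le
      _ = _ := by field_simp
  have h5 : ((1 + m) * phi (a / (1 + m) * r) + (1 - m) * phi (a / (1 - m) * r)) / 2
      ≤ a ^ 2 * phi r * (1 + m ^ 2 / ((1 + m) * (1 - m))) := by
    have e : a ^ 2 * phi r * (1 + m ^ 2 / ((1 + m) * (1 - m)))
        = (a ^ 2 / (1 + m) * phi r + a ^ 2 / (1 - m) * phi r) / 2 := by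
      field_simp
      ring
    rw [e]
    linarith
  have h6 := one_sub_sq_mul_phi_le hr
  have ha2 : a ^ 2 ≤ (1 + m) * (1 - m) := by
    have h7 : |a| ^ 2 ≤ (1 - |m|) ^ 2 := pow_le_pow_left₀ ha0 (by linarith) 2
    rw [sq_abs] at h7
    have h8 : m ^ 2 = |m| ^ 2 := (sq_abs m).symm
    nlinarith
  have h7 : a ^ 2 * m ^ 2 / ((1 + m) * (1 - m)) ≤ m ^ 2 := by
    rw [div_le_iff₀ hVar]
    nlinarith [sq_nonneg m]
  have h8 : (1 - r ^ 2) * phi r * (a ^ 2 * m ^ 2 / ((1 + m) * (1 - m)))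
      ≤ r ^ 2 / 2 * m ^ 2 := by
    apply mul_le_mul h6 h7 (by positivity) (by positivity)
  have h9 := mul_le_mul_of_nonneg_left h5 hr1
  have e3 : (1 - r ^ 2) * (a ^ 2 * phi r * (1 + m ^ 2 / ((1 + m) * (1 - m))))
      = (1 - r ^ 2) * a ^ 2 * phi r
        + (1 - r ^ 2) * phi r * (a ^ 2 * m ^ 2 / ((1 + m) * (1 - m))) := by
    ring
  rw [e3] at h9
  have h10 : r ^ 2 * (m ^ 2 / 2) ≤ r ^ 2 * phi m :=
    mul_le_mul_of_nonneg_left hphim (sq_nonneg r)
  nlinarith

/-- The main inequality for Boolean functions with a large level-one coefficient. -/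
theorem near_dictator_N1 {n : ℕ} (p : Fin (n + 1)) {f : Cube (n + 1) → ℝ} (hf : IsBool f) {ρ : ℝ}
    (hρ : |ρ| ≤ 1)
    (hN : ρ ^ 2 * log 2 ≤ phi ρ * (1 + (1 - ρ ^ 2) * |coef p f|)) :
    avg (fun y => phi (T ρ f y)) - phi (avg f) ≤ phi ρ := by
  have h1 := reveal p hf hρ
  have hsum := abs_avg_add_abs_coef_le p hf.abs_le
  have h2 := second_diff_le hρ hsum
  have h3 := abs_coef_le_avg_od_sq p hf
  have hρ2 : ρ ^ 2 ≤ 1 := by
    have := abs_le.mp hρ; nlinarith
  have hphi := phi_le_log_two hρ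
  have hphi0 := phi_nonneg hρ
  set a := coef p f with ha
  set τ := avg (fun x => od p f x ^ 2) with hτ
  have ha1 : |a| ≤ 1 := by linarith [abs_nonneg (avg f)]
  have ha2 : a ^ 2 = |a| ^ 2 := (sq_abs a).symm
  have h4 : ρ ^ 2 * (τ * (log 2 - phi ρ)) ≥ ρ ^ 2 * (|a| * (log 2 - phi ρ)) := by
    apply mul_le_mul_of_nonneg_left _ (sq_nonneg ρ)
    exact mul_le_mul_of_nonneg_right h3 (by linarith)
  have h5 := mul_le_mul_of_nonneg_left hN (by linarith : 0 ≤ 1 - |a|)
  rw [ha2] at h2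
  nlinarith

end Vale.Agent.Lib.P322
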