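import Vale.Agent.Lib.P322.Defs
import Vale.Agent.Lib.P322.Reveal

/-!
Expressing the mutual information through the noise operator.
-/

namespace Vale.Agent.Lib.P322

open Real

/-- The sign pattern of a Boolean function. -/
noncomputable def sf {n : ℕ} (f : Cube n → Bool) (x : Cube n) : ℝ := sgn (f x)

lemma isBool_sf {n : ℕ} (f : Cube n → Bool) : IsBool (sf f) := by
  intro x
  unfold sf
  cases f x <;> simp

lemma krn_eq_prod {n : ℕ} (ε : ℝ) (x y : Cube n) :
    krn (1 - 2 * ε) x y = ∏ i, if x i = y i then 1 - ε else ε := by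
  unfold krn
  apply Finset.prod_congr rfl
  intro i _
  cases x i <;> cases y i <;> simp <;> ring

lemma jointXY_eq {n : ℕ} (ε : ℝ) (x y : Cube n) :
    jointXY ε x y = (1 / 2 ^ n) * krn (1 - 2 * ε) x y := by
  unfold jointXY
  rw [krn_eq_prod]

lemma indicator_eq (a b : Bool) : (if a = b then (1 : ℝ) else 0) = (1 + sgn b * sgn a) / 2 := by
  cases a <;> cases b <;> simp

lemma jointFY_eq {n : ℕ} (ε : ℝ) (f : Cube n → Bool) (b : Bool) (y : Cube n) :
    jointFY ε f b y = (1 / 2 ^ n) * ((1 + sgn b * T (1 - 2 * ε) (sf f) y) / 2) := by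
  unfold jointFY
  have e : ∀ x, (if f x = b then jointXY ε x y else 0)
      = (1 / 2 ^ n) * (krn (1 - 2 * ε) x y * ((1 + sgn b * sf f x) / 2)) := by
    intro x
    have := indicator_eq (f x) b
    unfold sf
    rw [← this, jointXY_eq]
    split_ifs <;> ring
  rw [Finset.sum_congr rfl (fun x _ => e x), ← Finset.mul_sum]
  congr 1
  have e2 : ∀ x, krn (1 - 2 * ε) x y * ((1 + sgn b * sf f x) / 2)
      = (1 / 2) * krn (1 - 2 * ε) x y + (sgn b / 2) * (krn (1 - 2 * ε) x y * sf f x) := by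
    intro x; ring
  rw [Finset.sum_congr rfl (fun x _ => e2 x), Finset.sum_add_distrib, ← Finset.mul_sum,
    ← Finset.mul_sum, sum_krn]
  unfold T
  ring

lemma sum_jointFY_b {n : ℕ} (ε : ℝ) (f : Cube n → Bool) (y : Cube n) :
    ∑ b' : Bool, jointFY ε f b' y = 1 / 2 ^ n := by
  rw [Fintype.sum_bool, jointFY_eq, jointFY_eq]
  simp only [sgn_true, sgn_false]
  ring

lemma sum_jointFY_y {n : ℕ} (ε : ℝ) (f : Cube n → Bool) (b : Bool) :
    ∑ y', jointFY ε f b y' = (1 + sgn b * avg (sf f)) / 2 := by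
  have e : ∀ y', jointFY ε f b y' = (1 / 2 ^ n) * ((1 + sgn b * T (1 - 2 * ε) (sf f) y') / 2) :=
    jointFY_eq ε f b
  rw [Finset.sum_congr rfl (fun y _ => e y), ← Finset.mul_sum]
  have h := avg_T (1 - 2 * ε) (sf f)
  rw [← h]
  have e2 : avg (fun y => (1 + sgn b * T (1 - 2 * ε) (sf f) y) / 2)
      = (1 + sgn b * avg (T (1 - 2 * ε) (sf f))) / 2 := by
    have e3 : (fun y => (1 + sgn b * T (1 - 2 * ε) (sf f) y) / 2)
        = fun y => (1 / 2 : ℝ) + (sgn b / 2) * T (1 - 2 * ε) (sf f) y := by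
      funext y; ring
    rw [e3, avg_add, avg_const, avg_mul_left]
    ring
  rw [← e2]
  unfold avg
  ring

lemma abs_T_le {n : ℕ} {ρ : ℝ} (hρ : |ρ| ≤ 1) {g : Cube n → ℝ} (hg : ∀ x, |g x| ≤ 1) (y : Cube n) :
    |T ρ g y| ≤ 1 := by
  have hk : ∀ x, 0 ≤ krn ρ x y := by
    intro x
    unfold krn
    apply Finset.prod_nonneg
    intro i _
    have h2 : |ρ * sgn (x i) * sgn (y i)| ≤ 1 := by
      rw [abs_mul, abs_mul, abs_sgn, abs_sgn, mul_one, mul_one]; exact hρ
    have h3 := abs_le.mp h2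
    linarith [h3.1]
  unfold T
  calc |∑ x, krn ρ x y * g x| ≤ ∑ x, |krn ρ x y * g x| := Finset.abs_sum_le_sum_abs _ _
    _ ≤ ∑ x, krn ρ x y := by
      apply Finset.sum_le_sum
      intro x _
      rw [abs_mul, abs_of_nonneg (hk x)]
      have := hg x
      nlinarith [hk x]
    _ = 1 := sum_krn ρ y

/-- A single term of the mutual information. -/
lemma term_eq {n : ℕ} {ε : ℝ} (hε : |1 - 2 * ε| ≤ 1) (f : Cube n → Bool) (b : Bool) (y : Cube n) :
    jointFY ε f b y * logb 2
        (jointFY ε f b y / ((∑ y', jointFY ε f b y') * (∑ b' : Bool, jointFY ε f b' y)))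
      = (1 / 2 ^ n) * (((1 + sgn b * T (1 - 2 * ε) (sf f) y) / 2
            * log (1 + sgn b * T (1 - 2 * ε) (sf f) y)
          - (1 + sgn b * T (1 - 2 * ε) (sf f) y) / 2 * log (1 + sgn b * avg (sf f))) / log 2) := by
  set u := T (1 - 2 * ε) (sf f) with hu
  rw [sum_jointFY_b, sum_jointFY_y, jointFY_eq]
  rw [← hu]
  set c := 1 + sgn b * u y with hc
  set d := 1 + sgn b * avg (sf f) with hd
  have hfb := isBool_sf f
  have hub : ∀ y, |u y| ≤ 1 := fun y => abs_T_le hε hfb.abs_le y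
  have hsb : ∀ y, 0 ≤ 1 + sgn b * u y := by
    intro y
    have h := abs_le.mp (hub y)
    cases b <;> simp <;> linarith [h.1, h.2]
  have hc0 : 0 ≤ c := hsb y
  have hdavg : avg (fun y => 1 + sgn b * u y) = d := by
    rw [avg_add, avg_const, avg_mul_left, hu, avg_T]
  rcases hc0.eq_or_lt with h0 | hpos
  · rw [← h0]; simp
  · have hd0 : 0 < d := by
      rcases (avg_nonneg hsb).eq_or_lt with h1 | h1
      · have h2 := eq_zero_of_avg_eq_zero hsb h1.symm y
        exfalso
        have : c = 0 := h2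
        linarith
      · rw [← hdavg]; exact h1
    have hpow : (2 : ℝ) ^ n ≠ 0 := by positivity
    have e : (1 / 2 ^ n) * (c / 2) / (d / 2 * (1 / 2 ^ n)) = c / d := by
      field_simp
    rw [e, Real.logb, Real.log_div hpos.ne' hd0.ne']
    ring

lemma avg_eq_mul_sum {n : ℕ} (g : Cube n → ℝ) : ∑ y, (1 / 2 ^ n) * g y = avg g := by
  unfold avg
  rw [← Finset.mul_sum]
  ring

/-- The mutual information in terms of the noise operator. -/
theorem mutualInfo_eq {n : ℕ} {ε : ℝ} (hε : |1 - 2 * ε| ≤ 1) (f : Cube n → Bool) :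
    mutualInfoBits ε f
      = (avg (fun y => phi (T (1 - 2 * ε) (sf f) y)) - phi (avg (sf f))) / log 2 := by
  unfold mutualInfoBits
  simp only [term_eq hε f]
  simp only [avg_eq_mul_sum]
  set u := T (1 - 2 * ε) (sf f) with hu
  set μ := avg (sf f) with hμ
  have hb : ∀ b : Bool, avg (fun y => ((1 + sgn b * u y) / 2 * log (1 + sgn b * u y)
        - (1 + sgn b * u y) / 2 * log (1 + sgn b * μ)) / log 2)
      = (avg (fun y => (1 + sgn b * u y) / 2 * log (1 + sgn b * u y))
        - (1 + sgn b * μ) / 2 * log (1 + sgn b * μ)) / log 2 := by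
    intro b
    have e : (fun y => ((1 + sgn b * u y) / 2 * log (1 + sgn b * u y)
        - (1 + sgn b * u y) / 2 * log (1 + sgn b * μ)) / log 2)
        = fun y => ((1 + sgn b * u y) / 2 * log (1 + sgn b * u y)
            - (1 / 2 * log (1 + sgn b * μ) + (sgn b / 2 * log (1 + sgn b * μ)) * u y)) / log 2 := by
      funext y; ring
    rw [e]
    have e2 : ∀ g : Cube n → ℝ, avg (fun y => g y / log 2) = avg g / log 2 := by
      intro g
      have : (fun y => g y / log 2) = fun y => g y * (log 2)⁻¹ := by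
        funext y; ring
      rw [this, avg_mul_right]; ring
    rw [e2, avg_sub, avg_add, avg_const, avg_mul_left, hu, avg_T]
    ring
  rw [Fintype.sum_bool, hb, hb]
  simp only [sgn_true, sgn_false, one_mul, neg_mul]
  have e3 : phi μ = (1 + μ) / 2 * log (1 + μ) + (1 + -μ) / 2 * log (1 + -μ) := by
    unfold phi
    rw [← sub_eq_add_neg]
    ring
  have e4 : avg (fun y => phi (u y))
      = avg (fun y => (1 + u y) / 2 * log (1 + u y))
        + avg (fun y => (1 + -u y) / 2 * log (1 + -u y)) := by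
    rw [← avg_add]
    apply avg_congr
    intro y
    unfold phi
    rw [← sub_eq_add_neg]
    ring
  rw [e3, e4]
  ring

/-- The capacity of the channel in terms of `phi`. -/
theorem one_sub_binEntropy {ε : ℝ} (h0 : 0 ≤ ε) (h1 : ε ≤ 1) :
    1 - binEntropy ε / log 2 = phi (1 - 2 * ε) / log 2 := by
  have hlog : log 2 ≠ 0 := (Real.log_pos (by norm_num)).ne'
  have e : phi (1 - 2 * ε) = log 2 - binEntropy ε := by
    unfold phi
    have a1 : 1 + (1 - 2 * ε) = 2 * (1 - ε) := by ring
    have a2 : 1 - (1 - 2 * ε) = 2 * ε := by ring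
    rw [a1, a2, Real.binEntropy]
    have b1 : 2 * (1 - ε) * log (2 * (1 - ε)) = 2 * (1 - ε) * log 2 + 2 * ((1 - ε) * log (1 - ε)) := by
      rcases (sub_nonneg.mpr h1).eq_or_lt with h | h
      · rw [← h]; simp
      · rw [Real.log_mul (by norm_num) h.ne']; ring
    have b2 : 2 * ε * log (2 * ε) = 2 * ε * log 2 + 2 * (ε * log ε) := by
      rcases h0.eq_or_lt with h | h
      · rw [← h]; simp
      · rw [Real.log_mul (by norm_num) h.ne']; ring
    rw [b1, b2, Real.log_inv, Real.log_inv]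
    ring
  rw [e]
  field_simp

/-- Transfer of an inequality in terms of the noise operator to mutual information. -/
theorem mutualInfo_le_of_avg {n : ℕ} {ε : ℝ} (h0 : 0 ≤ ε) (h1 : ε ≤ 1) (f : Cube n → Bool)
    (h : avg (fun y => phi (T (1 - 2 * ε) (sf f) y)) - phi (avg (sf f)) ≤ phi (1 - 2 * ε)) :
    mutualInfoBits ε f ≤ 1 - binEntropy ε / log 2 := by
  have hε : |1 - 2 * ε| ≤ 1 := by
    rw [abs_le]; constructor <;> linarith
  rw [mutualInfo_eq hε, one_sub_binEntropy h0 h1]
  exact div_le_div_of_nonneg_right h (Real.log_pos (by norm_num)).le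

end Vale.Agent.Lib.P322
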