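import Mathlib

/-!
Discrete cube calculus: averages, the noise operator, splitting along a coordinate.
-/

namespace Vale.Agent.Lib.P322

open Finset

/-- The discrete cube. -/
abbrev Cube (n : ℕ) := Fin n → Bool

/-- Sign of a bit. -/
noncomputable def sgn (b : Bool) : ℝ := if b then 1 else -1

@[simp] lemma sgn_true : sgn true = 1 := by simp [sgn]
@[simp] lemma sgn_false : sgn false = -1 := by simp [sgn]
lemma sgn_sq (b : Bool) : sgn b ^ 2 = 1 := by cases b <;> simp
lemma sgn_mul_self (b : Bool) : sgn b * sgn b = 1 := by cases b <;> simp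
lemma abs_sgn (b : Bool) : |sgn b| = 1 := by cases b <;> simp
lemma sgn_not (b : Bool) : sgn (!b) = - sgn b := by cases b <;> simp

/-- Uniform average on the cube. -/
noncomputable def avg {n : ℕ} (g : Cube n → ℝ) : ℝ := (∑ x, g x) / 2 ^ n

/-- Insert a bit at position `p`. -/
def ins {n : ℕ} (p : Fin (n + 1)) (b : Bool) (x : Cube n) : Cube (n + 1) :=
  Fin.insertNth (α := fun _ => Bool) p b x

@[simp] lemma ins_same {n : ℕ} (p : Fin (n + 1)) (b : Bool) (x : Cube n) : ins p b x p = b := by
  simp [ins]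

@[simp] lemma ins_succAbove {n : ℕ} (p : Fin (n + 1)) (b : Bool) (x : Cube n) (i : Fin n) :
    ins p b x (p.succAbove i) = x i := by
  simp [ins]

lemma sum_cube_split {n : ℕ} (p : Fin (n + 1)) (g : Cube (n + 1) → ℝ) :
    ∑ x, g x = ∑ x : Cube n, (g (ins p true x) + g (ins p false x)) := by
  rw [← (Fin.insertNthEquiv (fun _ => Bool) p).sum_comp g, Fintype.sum_prod_type, Fintype.sum_bool,
    ← Finset.sum_add_distrib]
  rfl

lemma avg_split {n : ℕ} (p : Fin (n + 1)) (g : Cube (n + 1) → ℝ) :
    avg g = (avg (fun x => g (ins p true x)) + avg (fun x => g (ins p false x))) / 2 := by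
  unfold avg
  rw [sum_cube_split p g, Finset.sum_add_distrib, pow_succ]
  field_simp

lemma avg_add {n : ℕ} (g h : Cube n → ℝ) : avg (fun x => g x + h x) = avg g + avg h := by
  unfold avg; rw [Finset.sum_add_distrib]; ring

lemma avg_sub {n : ℕ} (g h : Cube n → ℝ) : avg (fun x => g x - h x) = avg g - avg h := by
  unfold avg; rw [Finset.sum_sub_distrib]; ring

lemma avg_const {n : ℕ} (c : ℝ) : avg (fun _ : Cube n => c) = c := by
  unfold avg
  simp [Finset.sum_const, Finset.card_univ]

lemma avg_mul_left {n : ℕ} (c : ℝ) (g : Cube n → ℝ) : avg (fun x => c * g x) = c * avg g := by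
  unfold avg; rw [← Finset.mul_sum]; ring

lemma avg_mul_right {n : ℕ} (c : ℝ) (g : Cube n → ℝ) : avg (fun x => g x * c) = avg g * c := by
  unfold avg; rw [← Finset.sum_mul]; ring

lemma avg_neg {n : ℕ} (g : Cube n → ℝ) : avg (fun x => - g x) = - avg g := by
  unfold avg; rw [Finset.sum_neg_distrib]; ring

lemma avg_mono {n : ℕ} {g h : Cube n → ℝ} (H : ∀ x, g x ≤ h x) : avg g ≤ avg h := by
  unfold avg
  apply div_le_div_of_nonneg_right _ (by positivity)
  exact Finset.sum_le_sum (fun x _ => H x)

lemma avg_nonneg {n : ℕ} {g : Cube n → ℝ} (H : ∀ x, 0 ≤ g x) : 0 ≤ avg g := by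
  have := avg_mono (g := fun _ => 0) (h := g) H
  rwa [avg_const] at this

lemma avg_congr {n : ℕ} {g h : Cube n → ℝ} (H : ∀ x, g x = h x) : avg g = avg h := by
  have : g = h := funext H
  rw [this]

lemma avg_zero_dim (g : Cube 0 → ℝ) (x : Cube 0) : avg g = g x := by
  unfold avg
  have : (Finset.univ : Finset (Cube 0)) = {x} := by
    ext y
    simp only [Finset.mem_univ, Finset.mem_singleton, true_iff]
    exact Subsingleton.elim _ _
  rw [this]; simp

/-- Cauchy–Schwarz for averages. -/
lemma avg_mul_sq_le {n : ℕ} (g h : Cube n → ℝ) :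
    avg (fun x => g x * h x) ^ 2 ≤ avg (fun x => g x ^ 2) * avg (fun x => h x ^ 2) := by
  unfold avg
  have := Finset.sum_mul_sq_le_sq_mul_sq (Finset.univ : Finset (Cube n)) g h
  have hpos : (0 : ℝ) < 2 ^ n := by positivity
  rw [div_pow, div_mul_div_comm, ← pow_two]
  exact div_le_div_of_nonneg_right this (by positivity)

lemma avg_sq_le {n : ℕ} (g : Cube n → ℝ) : avg g ^ 2 ≤ avg (fun x => g x ^ 2) := by
  have := avg_mul_sq_le g (fun _ => 1)
  simpa [avg_const] using this

lemma abs_avg_le {n : ℕ} (g : Cube n → ℝ) : |avg g| ≤ avg (fun x => |g x|) := by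
  rw [abs_le]
  constructor
  · rw [← avg_neg]
    apply avg_mono
    intro x
    simpa using neg_abs_le (g x)
  · apply avg_mono
    intro x
    exact le_abs_self _

/-- Even part with respect to coordinate `p`. -/
noncomputable def ev {n : ℕ} (p : Fin (n + 1)) (g : Cube (n + 1) → ℝ) (x : Cube n) : ℝ :=
  (g (ins p true x) + g (ins p false x)) / 2

/-- Odd part with respect to coordinate `p`. -/
noncomputable def od {n : ℕ} (p : Fin (n + 1)) (g : Cube (n + 1) → ℝ) (x : Cube n) : ℝ :=
  (g (ins p true x) - g (ins p false x)) / 2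

lemma g_true {n : ℕ} (p : Fin (n + 1)) (g : Cube (n + 1) → ℝ) (x : Cube n) :
    g (ins p true x) = ev p g x + od p g x := by
  unfold ev od; ring

lemma g_false {n : ℕ} (p : Fin (n + 1)) (g : Cube (n + 1) → ℝ) (x : Cube n) :
    g (ins p false x) = ev p g x - od p g x := by
  unfold ev od; ring

lemma g_ins {n : ℕ} (p : Fin (n + 1)) (g : Cube (n + 1) → ℝ) (b : Bool) (x : Cube n) :
    g (ins p b x) = ev p g x + sgn b * od p g x := by
  cases b
  · simp [g_false]; ring
  · simp [g_true]

lemma avg_ev {n : ℕ} (p : Fin (n + 1)) (g : Cube (n + 1) → ℝ) : avg (ev p g) = avg g := by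
  rw [avg_split p g]
  unfold ev
  have : (fun x => (g (ins p true x) + g (ins p false x)) / 2)
      = fun x => (1/2 : ℝ) * (g (ins p true x) + g (ins p false x)) := by
    funext x; ring
  rw [this, avg_mul_left, avg_add]; ring

/-- `avg` of a function of the form `F (ins p b x)` in terms of both bits. -/
lemma avg_split' {n : ℕ} (p : Fin (n + 1)) (F : Cube (n + 1) → ℝ) :
    avg F = avg (fun x => (F (ins p true x) + F (ins p false x)) / 2) := by
  rw [avg_split p F]
  have : (fun x => (F (ins p true x) + F (ins p false x)) / 2)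
      = fun x => (1/2 : ℝ) * (F (ins p true x) + F (ins p false x)) := by
    funext x; ring
  rw [this, avg_mul_left, avg_add]; ring

lemma avg_sq_split {n : ℕ} (p : Fin (n + 1)) (g : Cube (n + 1) → ℝ) :
    avg (fun x => g x ^ 2) = avg (fun x => ev p g x ^ 2) + avg (fun x => od p g x ^ 2) := by
  rw [avg_split' p (fun x => g x ^ 2), ← avg_add]
  apply avg_congr
  intro x
  simp only [g_true, g_false]
  ring

/-- The noise kernel with correlation `ρ`. -/
noncomputable def krn {n : ℕ} (ρ : ℝ) (x y : Cube n) : ℝ :=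
  ∏ i, (1 + ρ * sgn (x i) * sgn (y i)) / 2

/-- The noise operator with correlation `ρ`. -/
noncomputable def T {n : ℕ} (ρ : ℝ) (g : Cube n → ℝ) (y : Cube n) : ℝ :=
  ∑ x, krn ρ x y * g x

lemma krn_ins {n : ℕ} (ρ : ℝ) (p : Fin (n + 1)) (a b : Bool) (x y : Cube n) :
    krn ρ (ins p a x) (ins p b y) = (1 + ρ * sgn a * sgn b) / 2 * krn ρ x y := by
  unfold krn
  rw [Fin.prod_univ_succAbove _ p]
  simp

lemma T_ins {n : ℕ} (ρ : ℝ) (p : Fin (n + 1)) (g : Cube (n + 1) → ℝ) (b : Bool) (y : Cube n) :
    T ρ g (ins p b y) = T ρ (ev p g) y + ρ * sgn b * T ρ (od p g) y := by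
  unfold T
  rw [sum_cube_split p, Finset.mul_sum, ← Finset.sum_add_distrib]
  apply Finset.sum_congr rfl
  intro x _
  rw [krn_ins, krn_ins, g_true p g x, g_false p g x]
  simp only [sgn_true, sgn_false]
  ring

lemma T_zero_dim (ρ : ℝ) (g : Cube 0 → ℝ) (y : Cube 0) : T ρ g y = g y := by
  unfold T krn
  have : (Finset.univ : Finset (Cube 0)) = {y} := by
    ext z
    simp only [Finset.mem_univ, Finset.mem_singleton, true_iff]
    exact Subsingleton.elim _ _
  rw [this]; simp

lemma T_add {n : ℕ} (ρ : ℝ) (g h : Cube n → ℝ) (y : Cube n) :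
    T ρ (fun x => g x + h x) y = T ρ g y + T ρ h y := by
  unfold T
  rw [← Finset.sum_add_distrib]
  apply Finset.sum_congr rfl
  intro x _; ring

lemma T_sub {n : ℕ} (ρ : ℝ) (g h : Cube n → ℝ) (y : Cube n) :
    T ρ (fun x => g x - h x) y = T ρ g y - T ρ h y := by
  unfold T
  rw [← Finset.sum_sub_distrib]
  apply Finset.sum_congr rfl
  intro x _; ring

lemma T_mul_left {n : ℕ} (ρ c : ℝ) (g : Cube n → ℝ) (y : Cube n) :
    T ρ (fun x => c * g x) y = c * T ρ g y := by
  unfold T
  rw [Finset.mul_sum]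
  apply Finset.sum_congr rfl
  intro x _; ring

lemma eq_ins {n : ℕ} (p : Fin (n + 1)) (y : Cube (n + 1)) :
    y = ins p (y p) (fun i => y (p.succAbove i)) := by
  funext j
  refine Fin.succAboveCases p ?_ (fun i => ?_) j
  · simp
  · simp

lemma T_const {n : ℕ} (ρ c : ℝ) (y : Cube n) : T ρ (fun _ => c) y = c := by
  induction n with
  | zero => rw [T_zero_dim]
  | succ n ih =>
    rw [eq_ins 0 y, T_ins]
    have h1 : ev 0 (fun _ => c) = fun _ : Cube n => c := by
      funext x; simp [ev]
    have h2 : od 0 (fun _ => c) = fun _ : Cube n => (0 : ℝ) := by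
      funext x; simp [od]
    rw [h1, h2, ih]
    have h3 : ∀ z : Cube n, T ρ (fun _ => (0:ℝ)) z = 0 := by
      intro z; unfold T; simp
    rw [h3]; ring

lemma sum_krn {n : ℕ} (ρ : ℝ) (y : Cube n) : ∑ x, krn ρ x y = 1 := by
  have := T_const ρ 1 y
  unfold T at this
  simpa using this

/-- Flip all bits. -/
def flipBits {n : ℕ} (x : Cube n) : Cube n := fun i => !(x i)

lemma flipBits_flipBits {n : ℕ} (x : Cube n) : flipBits (flipBits x) = x := by
  funext i; simp [flipBits]

/-- The flip is an equivalence of the cube. -/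
def flipEquiv (n : ℕ) : Cube n ≃ Cube n where
  toFun := flipBits
  invFun := flipBits
  left_inv := flipBits_flipBits
  right_inv := flipBits_flipBits

lemma avg_flip {n : ℕ} (g : Cube n → ℝ) : avg (fun x => g (flipBits x)) = avg g := by
  unfold avg
  congr 1
  exact (flipEquiv n).sum_comp g

/-- Reindexing the cube by a permutation of coordinates. -/
def reindex {n : ℕ} (π : Equiv.Perm (Fin n)) : Cube n ≃ Cube n where
  toFun := fun x => x ∘ π
  invFun := fun x => x ∘ π.symm
  left_inv := by intro x; funext i; simp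
  right_inv := by intro x; funext i; simp

end Vale.Agent.Lib.P322
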