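import Mathlib

/-!
The probabilistic objects of the Courtade–Kumar problem on the cube `Fin n → Bool`
(`true` stands for `+1` and `false` for `-1`).
-/

namespace Vale.Agent.Lib.P322

/-- `P(X = x, Y = y)`: `X` is uniform on the cube and `Y` is the output of `n` independent binary
symmetric channels with crossover probability `ε`. -/
noncomputable def jointXY {n : ℕ} (ε : ℝ) (x y : Fin n → Bool) : ℝ :=
  (1 / 2 ^ n) * ∏ i, if x i = y i then 1 - ε else ε

/-- `P(f(X) = b, Y = y)`. -/
noncomputable def jointFY {n : ℕ} (ε : ℝ) (f : (Fin n → Bool) → Bool) (b : Bool)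
    (y : Fin n → Bool) : ℝ :=
  ∑ x, if f x = b then jointXY ε x y else 0

/-- The mutual information `I(f(X); Y)` in bits, with the usual convention `0 log 0 = 0`. -/
noncomputable def mutualInfoBits {n : ℕ} (ε : ℝ) (f : (Fin n → Bool) → Bool) : ℝ :=
  ∑ b : Bool, ∑ y : Fin n → Bool,
    jointFY ε f b y * Real.logb 2
      (jointFY ε f b y / ((∑ y', jointFY ε f b y') * (∑ b' : Bool, jointFY ε f b' y)))

end Vale.Agent.Lib.P322
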