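import Vale.Agent.Lib.P322.LowNoise

/-!
Concavity of `H` and its consequences; elementary bounds for `H` near zero.
-/

namespace Vale.Agent.Lib.P322

open Real

lemma L_div_mono {s t : ℝ} (hs : 0 < s) (hst : s ≤ t) (ht : t < 1) :
    (log (1 + s) - log (1 - s)) / s ≤ (log (1 + t) - log (1 - t)) / t := by
  have ht0 : 0 < t := lt_of_lt_of_le hs hst
  have h1 := (Real.hasSum_log_sub_log_of_abs_lt_one (x := s)
    (by rw [abs_of_pos hs]; linarith)).div_const s
  have h2 := (Real.hasSum_log_sub_log_of_abs_lt_one (x := t)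
    (by rw [abs_of_pos ht0]; exact ht)).div_const t
  apply hasSum_le _ h1 h2
  intro k
  have e1 : 2 * (1 / (2 * (k : ℝ) + 1)) * s ^ (2 * k + 1) / s
      = 2 * (1 / (2 * (k : ℝ) + 1)) * s ^ (2 * k) := by
    field_simp
    ring
  have e2 : 2 * (1 / (2 * (k : ℝ) + 1)) * t ^ (2 * k + 1) / t
      = 2 * (1 / (2 * (k : ℝ) + 1)) * t ^ (2 * k) := by
    field_simp
    ring
  rw [e1, e2]
  apply mul_le_mul_of_nonneg_left _ (by positivity)
  exact pow_le_pow_left₀ hs.le hst _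

lemma continuous_H : Continuous H := by
  unfold H
  exact continuous_const.sub
    (continuous_phi.comp (Real.continuous_sqrt.comp (continuous_const.sub continuous_id)))

/-- `H` is concave on the unit interval. -/
lemma H_concave : ConcaveOn ℝ (Set.Icc 0 1) H := by
  apply AntitoneOn.concaveOn_of_deriv (convex_Icc 0 1) continuous_H.continuousOn
  · rw [interior_Icc]
    intro v hv
    exact (hasDerivAt_H hv.1 hv.2).differentiableAt.differentiableWithinAt
  · rw [interior_Icc]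
    intro u hu v hv huv
    rw [(hasDerivAt_H hu.1 hu.2).deriv, (hasDerivAt_H hv.1 hv.2).deriv]
    have hs : 0 < √(1 - v) := Real.sqrt_pos.mpr (by linarith [hv.2])
    have hst : √(1 - v) ≤ √(1 - u) := Real.sqrt_le_sqrt (by linarith)
    have ht : √(1 - u) < 1 := by
      rw [Real.sqrt_lt' (by norm_num)]
      linarith [hu.1]
    have h := L_div_mono hs hst ht
    set s := √(1 - v)
    set t := √(1 - u)
    have ht0 : 0 < t := lt_of_lt_of_le hs hst
    have e1 : (log (1 + s) - log (1 - s)) / (4 * s) = (log (1 + s) - log (1 - s)) / s / 4 := by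
      field_simp
    have e2 : (log (1 + t) - log (1 - t)) / (4 * t) = (log (1 + t) - log (1 - t)) / t / 4 := by
      field_simp
    rw [e1, e2]
    linarith

lemma H_zero : H 0 = 0 := by
  unfold H
  simp [phi_one]

lemma H_half_le : H (1 / 2) ≤ log 2 - 13 / 48 := by
  unfold H
  set t := √(1 - 1 / 2 : ℝ) with ht
  have h1 : t ^ 2 = 1 / 2 := by
    rw [ht, Real.sq_sqrt (by norm_num)]
    norm_num
  have h2 : |t| ≤ 1 := by
    rw [abs_of_nonneg (Real.sqrt_nonneg _)]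
    apply Real.sqrt_le_one.mpr
    norm_num
  have h3 := phi_ge h2
  have h4 : t ^ 4 = 1 / 4 := by
    have : t ^ 4 = (t ^ 2) ^ 2 := by ring
    rw [this, h1]
    norm_num
  rw [h1, h4] at h3
  linarith

/-- The slopes of a concave function decrease: general form on `[0,1]`. -/
lemma H_slope_anti {a b c d : ℝ} (ha : 0 ≤ a) (hab : a < b) (hbc : b ≤ c) (hcd : c < d) (hd : d ≤ 1) :
    (H d - H c) * (b - a) ≤ (H b - H a) * (d - c) := by
  have hma : a ∈ Set.Icc (0 : ℝ) 1 := ⟨ha, by linarith⟩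
  have hmb : b ∈ Set.Icc (0 : ℝ) 1 := ⟨by linarith, by linarith⟩
  have hmc : c ∈ Set.Icc (0 : ℝ) 1 := ⟨by linarith, by linarith⟩
  have hmd : d ∈ Set.Icc (0 : ℝ) 1 := ⟨by linarith, hd⟩
  have hba : 0 < b - a := by linarith
  have hdc : 0 < d - c := by linarith
  rcases hbc.eq_or_lt with h | h
  · subst h
    have h1 := H_concave.slope_anti_adjacent hma hmd hab hcd
    rwa [div_le_div_iff₀ hdc hba] at h1
  · have h1 := H_concave.slope_anti_adjacent hma hmc hab h
    have h2 := H_concave.slope_anti_adjacent hmb hmd h hcd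
    have h3 := h2.trans h1
    rwa [div_le_div_iff₀ hdc hba] at h3

/-- The increments of `H` on `[0, 1/2]` have slope at least `13/24`. -/
lemma H_sub_ge_half {u v : ℝ} (hu : 0 ≤ u) (huv : u ≤ v) (hv : v ≤ 1 / 2) :
    (13 / 24) * (v - u) ≤ H v - H u := by
  rcases huv.eq_or_lt with h | h
  · rw [h]; simp
  have h1 := H_slope_anti hu h hv (by norm_num : (1 / 2 : ℝ) < 1) le_rfl
  have h2 := H_half_le
  rw [H_one] at h1
  have h3 : 0 < v - u := by linarith
  nlinarith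

lemma H_nonneg {v : ℝ} (h0 : 0 ≤ v) (h1 : v ≤ 1) : 0 ≤ H v := by
  have := H_sub_ge le_rfl h0 h1
  rw [H_zero] at this
  linarith

lemma H_ge_half {v : ℝ} (h0 : 0 ≤ v) (h1 : v ≤ 1) : v / 2 ≤ H v := by
  have := H_sub_ge le_rfl h0 h1
  rw [H_zero] at this
  linarith

/-- Subadditivity of `H`. -/
lemma H_subadd {x y : ℝ} (hx : 0 ≤ x) (hy : 0 ≤ y) (hxy : x + y ≤ 1) : H (x + y) ≤ H x + H y := by
  rcases hx.eq_or_lt with h | h
  · rw [← h]
    simp [H_zero]
  rcases hy.eq_or_lt with h' | h'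
  · rw [← h']
    simp [H_zero]
  have h1 := H_slope_anti (a := 0) (b := x) (c := y) (d := x + y)
  rcases le_total x y with hle | hle
  · have h2 := H_slope_anti le_rfl h hle (by linarith) hxy
    rw [H_zero] at h2
    simp only [sub_zero] at h2
    have e : x + y - y = x := by ring
    rw [e] at h2
    have := le_of_mul_le_mul_right h2 h
    linarith
  · have h2 := H_slope_anti le_rfl h' hle (by linarith) hxy
    rw [H_zero] at h2
    simp only [sub_zero] at h2
    have e : x + y - x = y := by ring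
    rw [e] at h2
    have := le_of_mul_le_mul_right h2 h'
    linarith

/-- Upper chord bound: the slope after `v₁` is at most the slope of the chord from zero. -/
lemma H_chord_upper {v₁ x : ℝ} (h0 : 0 < v₁) (hx : v₁ ≤ x) (h1 : x ≤ 1) :
    (H x - H v₁) * v₁ ≤ H v₁ * (x - v₁) := by
  rcases hx.eq_or_lt with h | h
  · rw [h]; simp
  have h2 := H_slope_anti le_rfl h0 le_rfl h h1
  rw [H_zero] at h2
  simpa using h2

/-- Lower chord bound. -/
lemma H_chord_lower {v₁ c V : ℝ} (h0 : 0 ≤ v₁) (hc : 0 ≤ c) (h1 : v₁ + c ≤ 1) (hV0 : 0 ≤ V)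
    (hV1 : V ≤ 1) : V * (H (v₁ + c) - H v₁) ≤ H (v₁ + c * V) - H v₁ := by
  have hm1 : v₁ ∈ Set.Icc (0 : ℝ) 1 := ⟨h0, by linarith⟩
  have hm2 : v₁ + c ∈ Set.Icc (0 : ℝ) 1 := ⟨by linarith, h1⟩
  have h2 := H_concave.2 hm1 hm2 (by linarith : 0 ≤ 1 - V) hV0 (by ring)
  simp only [smul_eq_mul] at h2
  have e : (1 - V) * v₁ + V * (v₁ + c) = v₁ + c * V := by ring
  rw [e] at h2
  nlinarith

/-- `H` and the binary entropy. -/
lemma H_four {ξ : ℝ} : H (4 * ξ * (1 - ξ)) = log 2 - phi (1 - 2 * ξ) := by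
  have e : 4 * ξ * (1 - ξ) = 1 - (1 - 2 * ξ) ^ 2 := by ring
  rw [e, H_one_sub_sq]

lemma phi_one_sub_two_mul {ξ : ℝ} (h0 : 0 ≤ ξ) (h1 : ξ ≤ 1) :
    log 2 - phi (1 - 2 * ξ) = - (ξ * log ξ) - (1 - ξ) * log (1 - ξ) := by
  unfold phi
  have a1 : 1 + (1 - 2 * ξ) = 2 * (1 - ξ) := by ring
  have a2 : 1 - (1 - 2 * ξ) = 2 * ξ := by ring
  rw [a1, a2]
  have b1 : 2 * (1 - ξ) * log (2 * (1 - ξ)) = 2 * (1 - ξ) * log 2 + 2 * ((1 - ξ) * log (1 - ξ)) := by
    rcases (sub_nonneg.mpr h1).eq_or_lt with h | h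
    · rw [← h]; simp
    · rw [Real.log_mul (by norm_num) h.ne']; ring
  have b2 : 2 * ξ * log (2 * ξ) = 2 * ξ * log 2 + 2 * (ξ * log ξ) := by
    rcases h0.eq_or_lt with h | h
    · rw [← h]; simp
    · rw [Real.log_mul (by norm_num) h.ne']; ring
  rw [b1, b2]
  ring

/-- The parameter `ξ` of a value `v`. -/
noncomputable def xiOf (v : ℝ) : ℝ := (1 - √(1 - v)) / 2

lemma xiOf_spec {v : ℝ} (h1 : v ≤ 1) : 4 * xiOf v * (1 - xiOf v) = v := by
  unfold xiOf
  have h := Real.sq_sqrt (by linarith : 0 ≤ 1 - v)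
  have e : 4 * ((1 - √(1 - v)) / 2) * (1 - (1 - √(1 - v)) / 2) = 1 - √(1 - v) ^ 2 := by ring
  rw [e, h]
  ring

lemma xiOf_nonneg {v : ℝ} (h0 : 0 ≤ v) : 0 ≤ xiOf v := by
  unfold xiOf
  have : √(1 - v) ≤ 1 := Real.sqrt_le_one.mpr (by linarith)
  linarith

lemma xiOf_le_half {v : ℝ} : xiOf v ≤ 1 / 2 := by
  unfold xiOf
  have := Real.sqrt_nonneg (1 - v)
  linarith

/-- Upper bound for `H`. -/
lemma H_upper {v : ℝ} (h0 : 0 < v) (h1 : v ≤ 1) :
    H v ≤ v / 4 * (1 + v) * (log (4 / v) + 1) := by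
  set ξ := xiOf v with hξ
  have hs := xiOf_spec h1
  rw [← hξ] at hs
  have hξ0 : 0 ≤ ξ := xiOf_nonneg h0.le
  have hξ1 : ξ ≤ 1 / 2 := xiOf_le_half
  have hξpos : 0 < ξ := by
    rcases hξ0.eq_or_lt with h | h
    · rw [← h] at hs
      simp at hs
      linarith
    · exact h
  have hH : H v = - (ξ * log ξ) - (1 - ξ) * log (1 - ξ) := by
    rw [← hs, H_four, phi_one_sub_two_mul hξ0 (by linarith)]
  rw [hH]
  have h1x : 0 < 1 - ξ := by linarith
  -- bound on the second term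
  have h2 : - ((1 - ξ) * log (1 - ξ)) ≤ ξ := by
    have := Real.one_sub_inv_le_log_of_pos h1x
    have h3 : (1 - ξ) * (1 - (1 - ξ)⁻¹) ≤ (1 - ξ) * log (1 - ξ) :=
      mul_le_mul_of_nonneg_left this h1x.le
    have e : (1 - ξ) * (1 - (1 - ξ)⁻¹) = - ξ := by
      field_simp
      ring
    rw [e] at h3
    linarith
  have h4 : v / 4 ≤ ξ := by nlinarith
  have h5 : ξ ≤ v / 4 * (1 + v) := by
    have h6 : ξ ≤ v / 2 := by nlinarith
    have h7 : ξ = v / 4 + ξ ^ 2 := by nlinarith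
    nlinarith
  have h8 : - log ξ ≤ log (4 / v) := by
    rw [← Real.log_inv]
    apply Real.log_le_log (by positivity)
    rw [inv_eq_one_div, div_le_div_iff₀ hξpos h0]
    linarith
  have h9 : 0 ≤ log (4 / v) + 1 := by
    have : 1 ≤ 4 / v := by
      rw [le_div_iff₀ h0]
      linarith
    have := Real.log_nonneg this
    linarith
  calc - (ξ * log ξ) - (1 - ξ) * log (1 - ξ)
      ≤ ξ * log (4 / v) + ξ := by nlinarith
    _ = ξ * (log (4 / v) + 1) := by ring
    _ ≤ v / 4 * (1 + v) * (log (4 / v) + 1) := mul_le_mul_of_nonneg_right h5 h9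

/-- Lower bound for `H`. -/
lemma H_lower {v : ℝ} (h0 : 0 < v) (h1 : v ≤ 1 / 2) :
    v / 4 * (log (4 / v) + 1) ≤ H v := by
  set ξ := xiOf v with hξ
  have hs := xiOf_spec (by linarith : v ≤ 1)
  rw [← hξ] at hs
  have hξ0 : 0 ≤ ξ := xiOf_nonneg h0.le
  have hξ1 : ξ ≤ 1 / 2 := xiOf_le_half
  have hξpos : 0 < ξ := by
    rcases hξ0.eq_or_lt with h | h
    · rw [← h] at hs
      simp at hs
      linarith
    · exact h
  have hH : H v = - (ξ * log ξ) - (1 - ξ) * log (1 - ξ) := by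
    rw [← hs, H_four, phi_one_sub_two_mul hξ0 (by linarith)]
  rw [hH]
  have h1x : 0 < 1 - ξ := by linarith
  have hξ2 : ξ ≤ 1 / 4 := by nlinarith
  have e4 : v / 4 = ξ * (1 - ξ) := by linarith
  -- the two logarithms
  have hlog2 : ξ ≤ - log (1 - ξ) := by
    have := Real.log_le_sub_one_of_pos h1x
    linarith
  have hlog3 : (1 : ℝ) ≤ - log ξ := by
    have h2 : log ξ ≤ log (1 / 4) := Real.log_le_log hξpos hξ2
    have h3 : log (1 / 4 : ℝ) = - (2 * log 2) := by
      rw [one_div, Real.log_inv, show (4 : ℝ) = 2 ^ 2 by norm_num, Real.log_pow]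
      norm_num
    have h4 := Real.log_two_gt_d9
    norm_num at h4
    rw [h3] at h2
    linarith
  have e5 : log (4 / v) = - log ξ - log (1 - ξ) := by
    have : 4 / v = (ξ * (1 - ξ))⁻¹ := by
      rw [← hs]
      field_simp
    rw [this, Real.log_inv, Real.log_mul hξpos.ne' h1x.ne']
    ring
  rw [e5, e4]
  have e6 : - (ξ * log ξ) - (1 - ξ) * log (1 - ξ) = ξ * (- log ξ) + (1 - ξ) * (- log (1 - ξ)) := by
    ring
  rw [e6]
  have e8 : - log ξ - log (1 - ξ) = (- log ξ) + (- log (1 - ξ)) := by ring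
  rw [e8]
  generalize - log ξ = A at hlog3
  generalize - log (1 - ξ) = B at hlog2
  have h13 : (1 - ξ) ^ 2 * ξ ≤ (1 - ξ) ^ 2 * B := mul_le_mul_of_nonneg_left hlog2 (sq_nonneg _)
  have h14 : ξ ^ 2 * (1 - ξ) ≤ ξ ^ 2 * A := mul_le_mul_of_nonneg_left (by linarith) (sq_nonneg _)
  nlinarith

end Vale.Agent.Lib.P322
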