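import Vale.Agent.Lib.P322.SDPI

/-!
The binary entropy as a function of `v = 4 m (1 - m)`, with its convexity properties.
-/

namespace Vale.Agent.Lib.P322

open Real

/-- The entropy `h(m)` in nats, as a function of `v = 4 m (1 - m)`, `m ≤ 1/2`. -/
noncomputable def H (v : ℝ) : ℝ := log 2 - phi (Real.sqrt (1 - v))

/-- The part of `phi` of order at least four. -/
noncomputable def psi (t : ℝ) : ℝ := phi t - t ^ 2 / 2

lemma psi_nonneg {t : ℝ} (ht : |t| ≤ 1) : 0 ≤ psi t := by
  have h := phi_ge ht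
  have : 0 ≤ t ^ 4 / 12 := by positivity
  unfold psi
  linarith

lemma psi_abs (t : ℝ) : psi |t| = psi t := by
  unfold psi
  rw [phi_abs, sq_abs]

lemma psi_mono {s t : ℝ} (hst : |s| ≤ |t|) (ht : |t| ≤ 1) : psi s ≤ psi t := by
  rcases (abs_nonneg t).eq_or_lt with h0 | h0
  · have hs : s = 0 := by
      have : |s| ≤ 0 := by rw [← h0] at hst; exact hst
      exact abs_nonpos_iff.mp this
    have ht' : t = 0 := abs_eq_zero.mp h0.symm
    rw [hs, ht']
  · have hr : |s / t| ≤ 1 := by
      rw [abs_div, div_le_one h0]; exact hst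
    have ht0 : t ≠ 0 := abs_pos.mp h0
    have h1 := phi_scale hr ht
    have e : s / t * t = s := by field_simp
    rw [e] at h1
    have h2 := psi_nonneg ht
    have hr2 : (s / t) ^ 2 ≤ 1 := by
      have := abs_le.mp hr
      nlinarith
    have e2 : s ^ 2 = (s / t) ^ 2 * t ^ 2 := by field_simp
    unfold psi at h2 ⊢
    have h3 : (s / t) ^ 2 * (phi t - t ^ 2 / 2) ≤ phi t - t ^ 2 / 2 := by nlinarith
    rw [e2]
    nlinarith

lemma psi_one : psi 1 = log 2 - 1 / 2 := by
  unfold psi
  rw [phi_one]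
  norm_num

lemma psi_le {t : ℝ} (ht : |t| ≤ 1) : psi t ≤ log 2 - 1 / 2 := by
  rw [← psi_one]
  apply psi_mono _ (by norm_num)
  simpa using ht

lemma H_one_sub_sq {w : ℝ} : H (1 - w ^ 2) = log 2 - phi w := by
  unfold H
  rw [show 1 - (1 - w ^ 2) = w ^ 2 by ring, Real.sqrt_sq_eq_abs, phi_abs]

/-- `H` grows with slope at least one half. -/
lemma H_sub_ge {u v : ℝ} (hu : 0 ≤ u) (huv : u ≤ v) (hv : v ≤ 1) :
    (v - u) / 2 ≤ H v - H u := by
  have h1 : 0 ≤ 1 - v := by linarith
  have h2 : 0 ≤ 1 - u := by linarith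
  have h3 : |Real.sqrt (1 - v)| ≤ |Real.sqrt (1 - u)| := by
    rw [abs_of_nonneg (Real.sqrt_nonneg _), abs_of_nonneg (Real.sqrt_nonneg _)]
    exact Real.sqrt_le_sqrt (by linarith)
  have h4 : |Real.sqrt (1 - u)| ≤ 1 := by
    rw [abs_of_nonneg (Real.sqrt_nonneg _)]
    apply Real.sqrt_le_one.mpr
    linarith
  have h5 := psi_mono h3 h4
  unfold psi at h5
  rw [Real.sq_sqrt h1, Real.sq_sqrt h2] at h5
  unfold H
  linarith

lemma H_mono {u v : ℝ} (hu : 0 ≤ u) (huv : u ≤ v) (hv : v ≤ 1) : H u ≤ H v := by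
  have := H_sub_ge hu huv hv
  linarith

lemma L_ge {t : ℝ} (h0 : 0 ≤ t) (h1 : t < 1) : 2 * t ≤ log (1 + t) - log (1 - t) := by
  have hs := Real.hasSum_log_sub_log_of_abs_lt_one (x := t) (by rw [abs_of_nonneg h0]; exact h1)
  have h2 := sum_le_hasSum (Finset.range 1) (fun k _ => by positivity) hs
  simpa using h2

lemma hasDerivAt_phi {t : ℝ} (h0 : -1 < t) (h1 : t < 1) :
    HasDerivAt phi ((log (1 + t) - log (1 - t)) / 2) t := by
  have hA : 1 + t ≠ 0 := by linarith
  have hB : 1 - t ≠ 0 := by linarith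
  have d1 : HasDerivAt (fun x : ℝ => 1 + x) 1 t := by
    simpa using (hasDerivAt_id' t).const_add 1
  have d2 : HasDerivAt (fun x : ℝ => 1 - x) (-1) t := by
    simpa using (hasDerivAt_id' t).const_sub 1
  have h3 := ((d1.mul (d1.log hA)).add (d2.mul (d2.log hB))).div_const 2
  refine h3.congr_deriv ?_
  field_simp
  ring

/-- Convexity of `H + (v / 4) log v` on `[0, 1]`. -/
lemma convexOn_H : ConvexOn ℝ (Set.Icc 0 1) (fun v => H v + v / 4 * log v) := by
  have hcont : ContinuousOn (fun v => H v + v / 4 * log v) (Set.Icc 0 1) := by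
    apply Continuous.continuousOn
    unfold H
    have h1 : Continuous (fun v : ℝ => phi (Real.sqrt (1 - v))) :=
      continuous_phi.comp (Real.continuous_sqrt.comp (continuous_const.sub continuous_id))
    have h2 : Continuous (fun v : ℝ => v / 4 * log v) := by
      have : (fun v : ℝ => v / 4 * log v) = fun v => (1 / 4) * (v * log v) := by
        funext v; ring
      rw [this]
      exact continuous_const.mul Real.continuous_mul_log
    exact (continuous_const.sub h1).add h2
  set f' : ℝ → ℝ := fun v => (log (1 + Real.sqrt (1 - v)) - log (1 - Real.sqrt (1 - v)))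
      / (4 * Real.sqrt (1 - v)) + (log v + 1) / 4 with hf'
  set f'' : ℝ → ℝ := fun v =>
    (log (1 + Real.sqrt (1 - v)) - log (1 - Real.sqrt (1 - v)) - 2 * Real.sqrt (1 - v))
      / (8 * Real.sqrt (1 - v) ^ 3) with hf''
  refine convexOn_of_hasDerivWithinAt2_nonneg (convex_Icc 0 1) hcont (f' := f') (f'' := f'') ?_ ?_ ?_
  · intro v hv
    rw [interior_Icc] at hv
    apply HasDerivAt.hasDerivWithinAt
    have ht : 0 < 1 - v := by linarith [hv.2]
    have htp : 0 < Real.sqrt (1 - v) := Real.sqrt_pos.mpr ht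
    have ht1 : Real.sqrt (1 - v) < 1 := by
      rw [Real.sqrt_lt' (by norm_num)]
      linarith [hv.1]
    set t := Real.sqrt (1 - v) with htdef
    have d0 : HasDerivAt (fun x : ℝ => 1 - x) (-1) v := by
      simpa using (hasDerivAt_id' v).const_sub 1
    have d1 : HasDerivAt (fun x : ℝ => Real.sqrt (1 - x)) (-1 / (2 * t)) v := d0.sqrt ht.ne'
    have hphi : HasDerivAt phi ((log (1 + t) - log (1 - t)) / 2)
        ((fun x : ℝ => Real.sqrt (1 - x)) v) := hasDerivAt_phi (t := t) (by linarith) ht1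
    have d2 : HasDerivAt (fun x : ℝ => phi (Real.sqrt (1 - x)))
        ((log (1 + t) - log (1 - t)) / 2 * (-1 / (2 * t))) v := by
      have h9 := HasDerivAt.comp v hphi d1
      exact h9
    have d3 : HasDerivAt (fun x : ℝ => H x) ((log (1 + t) - log (1 - t)) / (4 * t)) v := by
      have := d2.const_sub (log 2)
      refine this.congr_deriv ?_
      field_simp
      ring
    have d4 : HasDerivAt (fun x : ℝ => x / 4 * log x) ((log v + 1) / 4) v := by
      have h5 := ((hasDerivAt_id' v).div_const 4).mul (Real.hasDerivAt_log hv.1.ne')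
      refine h5.congr_deriv ?_
      have := hv.1.ne'
      field_simp
    exact d3.add d4
  · intro v hv
    rw [interior_Icc] at hv
    apply HasDerivAt.hasDerivWithinAt
    have ht : 0 < 1 - v := by linarith [hv.2]
    have htp : 0 < Real.sqrt (1 - v) := Real.sqrt_pos.mpr ht
    have ht1 : Real.sqrt (1 - v) < 1 := by
      rw [Real.sqrt_lt' (by norm_num)]
      linarith [hv.1]
    have htsq : Real.sqrt (1 - v) ^ 2 = 1 - v := Real.sq_sqrt ht.le
    set t := Real.sqrt (1 - v) with htdef
    have d0 : HasDerivAt (fun x : ℝ => 1 - x) (-1) v := by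
      simpa using (hasDerivAt_id' v).const_sub 1
    have d1 : HasDerivAt (fun x : ℝ => Real.sqrt (1 - x)) (-1 / (2 * t)) v := d0.sqrt ht.ne'
    have hA : 1 + t ≠ 0 := by linarith
    have hB : 1 - t ≠ 0 := by linarith
    have d2 : HasDerivAt (fun x : ℝ => log (1 + Real.sqrt (1 - x))) ((-1 / (2 * t)) / (1 + t)) v :=
      (d1.const_add 1).log hA
    have d3 : HasDerivAt (fun x : ℝ => log (1 - Real.sqrt (1 - x))) (-(-1 / (2 * t)) / (1 - t)) v :=
      (d1.const_sub 1).log hB
    have d4 : HasDerivAt (fun x : ℝ => 4 * Real.sqrt (1 - x)) (4 * (-1 / (2 * t))) v :=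
      d1.const_mul 4
    have d5 := (d2.sub d3).div d4 (by positivity)
    have d6 : HasDerivAt (fun x : ℝ => (log x + 1) / 4) (1 / v / 4) v := by
      have := ((Real.hasDerivAt_log hv.1.ne').add_const 1).div_const 4
      simpa using this
    have d7 := d5.add d6
    refine d7.congr_deriv ?_
    simp only [Pi.sub_apply, hf'']
    rw [← htdef]
    have hv' : v = (1 + t) * (1 - t) := by nlinarith
    have ht0 : t ≠ 0 := htp.ne'
    rw [hv']
    field_simp
    ring
  · intro v hv
    rw [interior_Icc] at hv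
    have ht : 0 < 1 - v := by linarith [hv.2]
    have htp : 0 < Real.sqrt (1 - v) := Real.sqrt_pos.mpr ht
    have ht1 : Real.sqrt (1 - v) < 1 := by
      rw [Real.sqrt_lt' (by norm_num)]
      linarith [hv.1]
    have := L_ge htp.le ht1
    simp only [hf'']
    apply div_nonneg (by linarith) (by positivity)

/-- The Jensen gap of `x log x`. -/
noncomputable def gap (p q : ℝ) : ℝ :=
  (p * log p + q * log q) / 2 - ((p + q) / 2) * log ((p + q) / 2)

/-- The midpoint form of the convexity of `H + (v/4) log v`. -/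
lemma H_midpoint {u v : ℝ} (hu : u ∈ Set.Icc (0 : ℝ) 1) (hv : v ∈ Set.Icc (0 : ℝ) 1) :
    H ((u + v) / 2) - gap u v / 4 ≤ (H u + H v) / 2 := by
  have h := convexOn_H.2 hu hv (by norm_num : (0 : ℝ) ≤ 1 / 2) (by norm_num : (0 : ℝ) ≤ 1 / 2)
    (by norm_num)
  simp only [smul_eq_mul] at h
  have e : 1 / 2 * u + 1 / 2 * v = (u + v) / 2 := by ring
  rw [e] at h
  unfold gap
  nlinarith

end Vale.Agent.Lib.P322
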