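import Vale.Agent.Lib.P322.FarCase

/-!
The case of Boolean functions with a large level-one coefficient.
-/

namespace Vale.Agent.Lib.P322

open Real

/-- Two-point majorization for `phi`. -/
lemma phi_karamata {x y x' y' : ℝ} (hx' : -1 ≤ x') (hy' : y' ≤ 1) (h1 : x' ≤ x) (h2 : x ≤ y')
    (h3 : x' ≤ y) (h4 : y ≤ y') (hs : x + y = x' + y') : phi x + phi y ≤ phi x' + phi y' := by
  rcases (h1.trans h2).eq_or_lt with h | h
  · have e1 : x = x' := le_antisymm (h ▸ h2) h1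
    have e2 : y = y' := by linarith
    rw [e1, e2]
  · have hd : 0 < y' - x' := by linarith
    set l := (y' - x) / (y' - x') with hl
    have hl0 : 0 ≤ l := div_nonneg (by linarith) hd.le
    have hl1 : l ≤ 1 := by
      rw [hl, div_le_one hd]
      linarith
    have hm1 : x' ∈ Set.Icc (-1 : ℝ) 1 := ⟨hx', by linarith⟩
    have hm2 : y' ∈ Set.Icc (-1 : ℝ) 1 := ⟨by linarith, hy'⟩
    have hlm : l * (y' - x') = y' - x := by
      rw [hl]
      field_simp
    have ex : x = l * x' + (1 - l) * y' := by nlinarith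
    have ey : y = (1 - l) * x' + l * y' := by nlinarith
    have c1 := convexOn_phi.2 hm1 hm2 hl0 (by linarith : 0 ≤ 1 - l) (by ring)
    have c2 := convexOn_phi.2 hm1 hm2 (by linarith : 0 ≤ 1 - l) hl0 (by ring)
    simp only [smul_eq_mul] at c1 c2
    rw [← ex] at c1
    rw [← ey] at c2
    linarith

/-- The function of the submodular step. -/
noncomputable def cfun (ε t : ℝ) : ℝ := phi ((1 - ε) * t - ε) + phi ((1 - ε) - ε * t)

/-- The concave defect. -/
noncomputable def gfun (ε t : ℝ) : ℝ := (1 + t) * phi (1 - 2 * ε) + (1 - t) * log 2 - cfun ε t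

lemma gfun_one (ε : ℝ) : gfun ε 1 = 0 := by
  unfold gfun cfun
  have e1 : (1 - ε) * 1 - ε = 1 - 2 * ε := by ring
  have e2 : (1 - ε) - ε * 1 = 1 - 2 * ε := by ring
  rw [e1, e2]
  ring

lemma gfun_neg_one (ε : ℝ) : gfun ε (-1) = 0 := by
  unfold gfun cfun
  have e1 : (1 - ε) * (-1) - ε = -1 := by ring
  have e2 : (1 - ε) - ε * (-1) = 1 := by ring
  rw [e1, e2, phi_neg_one, phi_one]
  ring

lemma arg1_mem {ε t : ℝ} (h0 : 0 ≤ ε) (h1 : ε ≤ 1 / 2) (ht : |t| ≤ 1) :
    (1 - ε) * t - ε ∈ Set.Icc (-1 : ℝ) 1 := by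
  have h := abs_le.mp ht
  constructor <;> nlinarith [h.1, h.2]

lemma arg2_mem {ε t : ℝ} (h0 : 0 ≤ ε) (h1 : ε ≤ 1 / 2) (ht : |t| ≤ 1) :
    (1 - ε) - ε * t ∈ Set.Icc (-1 : ℝ) 1 := by
  have h := abs_le.mp ht
  constructor <;> nlinarith [h.1, h.2]

/-- The defect is concave. -/
lemma gfun_concave {ε s t l : ℝ} (h0 : 0 ≤ ε) (h1 : ε ≤ 1 / 2) (hs : |s| ≤ 1) (ht : |t| ≤ 1)
    (hl0 : 0 ≤ l) (hl1 : l ≤ 1) :
    l * gfun ε s + (1 - l) * gfun ε t ≤ gfun ε (l * s + (1 - l) * t) := by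
  have c1 := convexOn_phi.2 (arg1_mem h0 h1 hs) (arg1_mem h0 h1 ht) hl0 (by linarith : 0 ≤ 1 - l)
    (by ring)
  have c2 := convexOn_phi.2 (arg2_mem h0 h1 hs) (arg2_mem h0 h1 ht) hl0 (by linarith : 0 ≤ 1 - l)
    (by ring)
  simp only [smul_eq_mul] at c1 c2
  have e1 : l * ((1 - ε) * s - ε) + (1 - l) * ((1 - ε) * t - ε)
      = (1 - ε) * (l * s + (1 - l) * t) - ε := by ring
  have e2 : l * ((1 - ε) - ε * s) + (1 - l) * ((1 - ε) - ε * t)
      = (1 - ε) - ε * (l * s + (1 - l) * t) := by ring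
  rw [e1] at c1
  rw [e2] at c2
  unfold gfun cfun
  nlinarith

lemma gfun_nonneg {ε t : ℝ} (h0 : 0 ≤ ε) (h1 : ε ≤ 1 / 2) (ht : |t| ≤ 1) : 0 ≤ gfun ε t := by
  have h := abs_le.mp ht
  have hc := gfun_concave (s := 1) (t := -1) (l := (1 + t) / 2) h0 h1 (by norm_num) (by norm_num)
    (by linarith [h.1]) (by linarith [h.2])
  rw [gfun_one, gfun_neg_one] at hc
  have e : (1 + t) / 2 * 1 + (1 - (1 + t) / 2) * -1 = t := by ring
  rw [e] at hc
  linarith

/-- The lower bound for the defect through `H`. -/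
lemma gfun_lower {ε t : ℝ} (h0 : 0 ≤ ε) (h1 : ε ≤ 1 / 2) (ht : |t| ≤ 1) :
    (1 - ε) * H (1 - t ^ 2) - (1 + t) / 2 * (log 2 - phi (1 - 2 * ε)) ≤ gfun ε t := by
  have h := abs_le.mp ht
  rw [H_one_sub_sq]
  -- the first argument
  have hm1 : t ∈ Set.Icc (-1 : ℝ) 1 := ⟨h.1, h.2⟩
  have hm2 : (-1 : ℝ) ∈ Set.Icc (-1 : ℝ) 1 := ⟨le_rfl, by norm_num⟩
  have hm3 : (1 : ℝ) ∈ Set.Icc (-1 : ℝ) 1 := ⟨by norm_num, le_rfl⟩
  have hm4 : 1 - 2 * ε ∈ Set.Icc (-1 : ℝ) 1 := ⟨by linarith, by linarith⟩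
  have c1 := convexOn_phi.2 hm1 hm2 (by linarith : 0 ≤ 1 - ε) h0 (by ring)
  simp only [smul_eq_mul] at c1
  have e1 : (1 - ε) * t + ε * -1 = (1 - ε) * t - ε := by ring
  rw [e1, phi_neg_one] at c1
  have c2 := convexOn_phi.2 hm4 hm3 (by linarith [h.1] : 0 ≤ (1 + t) / 2)
    (by linarith [h.2] : 0 ≤ (1 - t) / 2) (by ring)
  simp only [smul_eq_mul] at c2
  have e2 : (1 + t) / 2 * (1 - 2 * ε) + (1 - t) / 2 * 1 = (1 - ε) - ε * t := by ring
  rw [e2, phi_one] at c2
  unfold gfun cfun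
  nlinarith

/-- The entropy in terms of `ξ`: upper bound. -/
lemma ent_upper {ε L : ℝ} (h0 : 0 < ε) (h1 : ε ≤ 1 / 2) (hL : L = - log ε) :
    log 2 - phi (1 - 2 * ε) ≤ ε * (L + 1) := by
  rw [phi_one_sub_two_mul h0.le (by linarith), hL]
  have h1x : 0 < 1 - ε := by linarith
  have h2 : - ((1 - ε) * log (1 - ε)) ≤ ε := by
    have := Real.one_sub_inv_le_log_of_pos h1x
    have h3 : (1 - ε) * (1 - (1 - ε)⁻¹) ≤ (1 - ε) * log (1 - ε) :=
      mul_le_mul_of_nonneg_left this h1x.le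
    have e : (1 - ε) * (1 - (1 - ε)⁻¹) = - ε := by
      field_simp
      ring
    rw [e] at h3
    linarith
  nlinarith

lemma log_eight_lt : log 8 < 3 := by
  have e : (8 : ℝ) = 2 ^ 3 := by norm_num
  rw [e, Real.log_pow]
  have := Real.log_two_lt_d9
  push_cast
  linarith

/-- The entropy in terms of `ξ`: lower bound at `8 ε`. -/
lemma ent_lower {ε L : ℝ} (h0 : 0 < ε) (h1 : ε ≤ 1 / 16) (hL : L = - log ε) :
    8 * ε * (L - 3) ≤ log 2 - phi (1 - 16 * ε) := by
  have e : 1 - 16 * ε = 1 - 2 * (8 * ε) := by ring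
  rw [e, phi_one_sub_two_mul (by positivity) (by linarith), hL,
    Real.log_mul (by norm_num) h0.ne']
  have h2 : log (1 - 8 * ε) ≤ 0 := by
    apply Real.log_nonpos <;> linarith
  have h3 : 0 ≤ 1 - 8 * ε := by linarith
  have h4 := log_eight_lt
  have h5 := mul_nonneg h3 (neg_nonneg.mpr h2)
  nlinarith

/-- The shifted parameter. -/
noncomputable def bp (ε : ℝ) : ℝ := (4 * ε * (1 - ε)) / (1 + 4 * ε * (1 - ε))

lemma bp_pos {ε : ℝ} (h0 : 0 < ε) (h1 : ε ≤ 1 / 100) : 0 < bp ε := by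
  unfold bp
  have : 0 < 4 * ε * (1 - ε) := by
    apply mul_pos (by positivity)
    linarith
  positivity

lemma bp_le {ε : ℝ} (h0 : 0 < ε) (h1 : ε ≤ 1 / 100) : bp ε ≤ 4 * ε := by
  unfold bp
  have hb : 0 < 4 * ε * (1 - ε) := by
    apply mul_pos (by positivity)
    linarith
  rw [div_le_iff₀ (by positivity)]
  nlinarith [mul_pos h0 hb]

lemma bp_le_b {ε : ℝ} (h0 : 0 < ε) (h1 : ε ≤ 1 / 100) : bp ε ≤ 4 * ε * (1 - ε) := by
  unfold bp
  have hb : 0 < 4 * ε * (1 - ε) := by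
    apply mul_pos (by positivity)
    linarith
  rw [div_le_iff₀ (by positivity)]
  nlinarith [mul_pos hb hb]

lemma bp_ge {ε : ℝ} (h0 : 0 < ε) (h1 : ε ≤ 1 / 100) : 4 * ε * (1 - 5 * ε) ≤ bp ε := by
  unfold bp
  have hb : 0 < 4 * ε * (1 - ε) := by
    apply mul_pos (by positivity)
    linarith
  rw [le_div_iff₀ (by positivity)]
  have h3 : 0 < ε ^ 3 := by positivity
  have e : 4 * ε - 4 * ε ^ 2 - 4 * ε * (1 - 5 * ε) * (1 + 4 * ε * (1 - ε))
      = ε ^ 3 * (96 - 80 * ε) := by ring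
  have h4 : 0 ≤ ε ^ 3 * (96 - 80 * ε) := mul_nonneg h3.le (by linarith)
  have e2 : 4 * ε * (1 - ε) = 4 * ε - 4 * ε ^ 2 := by ring
  rw [e2]
  linarith

lemma bp_ge' {ε : ℝ} (h0 : 0 < ε) (h1 : ε ≤ 1 / 100) : 2 * ε ≤ bp ε := by
  have := bp_ge h0 h1
  nlinarith

/-- The upper bound for `H (bp ε)`. -/
lemma H_bp_le {ε L : ℝ} (h0 : 0 < ε) (h1 : ε ≤ 1 / 100) (hL : L = - log ε) :
    H (bp ε) ≤ bp ε / 4 * (1 + 4 * ε) * (L + 2) := by
  have hp := bp_pos h0 h1
  have hle := bp_le h0 h1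
  have hge := bp_ge' h0 h1
  have hU := H_upper hp (by linarith)
  refine hU.trans ?_
  have h2 : log (4 / bp ε) ≤ L + 1 := by
    have h3 : log (4 / bp ε) ≤ log (2 / ε) := by
      apply Real.log_le_log (by positivity)
      rw [div_le_div_iff₀ hp h0]
      linarith
    have h4 : log (2 / ε) = log 2 + L := by
      rw [Real.log_div (by norm_num) h0.ne', hL]
      ring
    have h5 := Real.log_two_lt_d9
    linarith
  have h6 : 0 ≤ log (4 / bp ε) + 1 := by
    have : 1 ≤ 4 / bp ε := by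
      rw [le_div_iff₀ hp]
      linarith
    have := Real.log_nonneg this
    linarith
  have h7 : bp ε / 4 * (1 + bp ε) ≤ bp ε / 4 * (1 + 4 * ε) :=
    mul_le_mul_of_nonneg_left (by linarith) (by positivity)
  calc bp ε / 4 * (1 + bp ε) * (log (4 / bp ε) + 1)
      ≤ bp ε / 4 * (1 + 4 * ε) * (log (4 / bp ε) + 1) := mul_le_mul_of_nonneg_right h7 h6
    _ ≤ bp ε / 4 * (1 + 4 * ε) * (L + 2) :=
        mul_le_mul_of_nonneg_left (by linarith) (by positivity)

/-- The lower bound for `H (2 * bp ε)`. -/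
lemma H_two_bp_ge {ε L : ℝ} (h0 : 0 < ε) (h1 : ε ≤ 1 / 100) (hL : L = - log ε) :
    bp ε / 2 * L ≤ H (2 * bp ε) := by
  have hp := bp_pos h0 h1
  have hle := bp_le h0 h1
  have hU := H_lower (v := 2 * bp ε) (by positivity) (by linarith)
  refine le_trans ?_ hU
  have h2 : L ≤ log (4 / (2 * bp ε)) + 1 := by
    have h3 : log (1 / (2 * ε)) ≤ log (4 / (2 * bp ε)) := by
      apply Real.log_le_log (by positivity)
      rw [div_le_div_iff₀ (by positivity) (by positivity)]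
      linarith
    have h4 : log (1 / (2 * ε)) = L - log 2 := by
      rw [Real.log_div (by norm_num) (by positivity), Real.log_mul (by norm_num) h0.ne', hL,
        Real.log_one]
      ring
    have h5 := Real.log_two_lt_d9
    linarith
  have e : 2 * bp ε / 4 = bp ε / 2 := by ring
  rw [e]
  exact mul_le_mul_of_nonneg_left h2 (by positivity)

lemma C_mid {ε L : ℝ} (h0 : 0 < ε) (h1 : ε ≤ 1 / 1000000) (hL : L = - log ε) (hL2 : 1000 ≤ L) :
    log 2 - phi (1 - 2 * ε) ≤ (1 / 4 - ε) * (log 2 - phi (1 - 16 * ε)) := by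
  have h2 := ent_upper h0 (by linarith) hL
  have h3 := ent_lower h0 (by linarith) hL
  have h4 : (1 / 4 - ε) * (8 * ε * (L - 3)) ≤ (1 / 4 - ε) * (log 2 - phi (1 - 16 * ε)) :=
    mul_le_mul_of_nonneg_left h3 (by linarith)
  refine h2.trans (le_trans ?_ h4)
  have e : (1 / 4 - ε) * (8 * ε * (L - 3)) = ε * ((2 - 8 * ε) * (L - 3)) := by ring
  rw [e]
  apply mul_le_mul_of_nonneg_left _ h0.le
  have h5 : 3 / 2 * (L - 3) ≤ (2 - 8 * ε) * (L - 3) :=
    mul_le_mul_of_nonneg_right (by linarith) (by linarith)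
  linarith

lemma C_end {ε L : ℝ} (h0 : 0 < ε) (h1 : ε ≤ 1 / 1000000) (hL : L = - log ε) (hL2 : 1000 ≤ L) :
    3 * H (bp ε) * (8 * ε)
      ≤ bp ε * ((1 - ε) * (log 2 - phi (1 - 16 * ε)) - (log 2 - phi (1 - 2 * ε))) := by
  have h2 := ent_upper h0 (by linarith) hL
  have h3 := ent_lower h0 (by linarith) hL
  have h4 := H_bp_le h0 (by linarith) hL
  have hp := bp_pos h0 (by linarith)
  have h5 : (1 - ε) * (8 * ε * (L - 3)) ≤ (1 - ε) * (log 2 - phi (1 - 16 * ε)) :=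
    mul_le_mul_of_nonneg_left h3 (by linarith)
  have h6 : ε * (6 * (1 + 4 * ε) * (L + 2))
      ≤ (1 - ε) * (log 2 - phi (1 - 16 * ε)) - (log 2 - phi (1 - 2 * ε)) := by
    have e : (1 - ε) * (8 * ε * (L - 3)) - ε * (L + 1)
        = ε * (8 * (1 - ε) * (L - 3) - (L + 1)) := by ring
    have h7 : ε * (6 * (1 + 4 * ε) * (L + 2)) ≤ ε * (8 * (1 - ε) * (L - 3) - (L + 1)) := by
      apply mul_le_mul_of_nonneg_left _ h0.le
      have h8 : ε * L ≤ 1 / 1000000 * L := mul_le_mul_of_nonneg_right h1 (by linarith)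
      nlinarith
    linarith
  have h9 : 3 * H (bp ε) * (8 * ε) ≤ 3 * (bp ε / 4 * (1 + 4 * ε) * (L + 2)) * (8 * ε) := by
    apply mul_le_mul_of_nonneg_right _ (by positivity)
    linarith
  refine h9.trans ?_
  have e : 3 * (bp ε / 4 * (1 + 4 * ε) * (L + 2)) * (8 * ε)
      = bp ε * (ε * (6 * (1 + 4 * ε) * (L + 2))) := by ring
  rw [e]
  exact mul_le_mul_of_nonneg_left h6 hp.le

lemma C_main {ε L : ℝ} (h0 : 0 < ε) (h1 : ε ≤ 1 / 1000000) (hL : L = - log ε) (hL2 : 1000 ≤ L) :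
    log 2 - phi (1 - 2 * ε) ≤ 29 / 20 * (3 / 4 * (H (2 * bp ε) - H (bp ε) - bp ε)) := by
  have h2 := ent_upper h0 (by linarith) hL
  have h3 := H_bp_le h0 (by linarith) hL
  have h4 := H_two_bp_ge h0 (by linarith) hL
  have hp := bp_pos h0 (by linarith)
  have hge := bp_ge h0 (by linarith)
  set Y := L * (1 - 4 * ε) - 6 - 8 * ε with hY
  have hεL : ε * L ≤ 1 / 1000000 * L := mul_le_mul_of_nonneg_right h1 (by linarith)
  have hY0 : 0 ≤ Y := by
    rw [hY]
    nlinarith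
  have h5 : bp ε / 4 * Y ≤ H (2 * bp ε) - H (bp ε) - bp ε := by
    have e : bp ε / 4 * Y = bp ε / 2 * L - bp ε / 4 * (1 + 4 * ε) * (L + 2) - bp ε := by
      rw [hY]
      ring
    rw [e]
    linarith
  have h6 : ε * (1 - 5 * ε) * Y ≤ bp ε / 4 * Y := by
    apply mul_le_mul_of_nonneg_right _ hY0
    nlinarith
  have h7 : L + 1 ≤ 87 / 80 * (1 - 5 * ε) * Y := by
    have h8 : L * (999996 / 1000000) - 7 ≤ Y := by
      rw [hY]
      nlinarith
    have h9 : 87 / 80 * (999995 / 1000000) ≤ 87 / 80 * (1 - 5 * ε) := by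
      nlinarith
    have h10 : 87 / 80 * (999995 / 1000000) * Y ≤ 87 / 80 * (1 - 5 * ε) * Y :=
      mul_le_mul_of_nonneg_right h9 hY0
    nlinarith
  have h11 : ε * (L + 1) ≤ ε * (87 / 80 * (1 - 5 * ε) * Y) :=
    mul_le_mul_of_nonneg_left h7 h0.le
  have e : ε * (87 / 80 * (1 - 5 * ε) * Y) = 87 / 80 * (ε * (1 - 5 * ε) * Y) := by ring
  rw [e] at h11
  nlinarith

/-- An upper bound for the constant. -/
lemma kappa_le {ε : ℝ} (h0 : 0 < ε) (h1 : ε ≤ 1 / 1000000) :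
    3 / 4 * (H (2 * bp ε) - H (bp ε) - bp ε) ≤ 1 / 2 := by
  have hp := bp_pos h0 (by linarith)
  have hle := bp_le h0 (by linarith)
  have h2 := H_subadd hp.le hp.le (by linarith)
  have e : bp ε + bp ε = 2 * bp ε := by ring
  rw [e] at h2
  have h3 := H_mono hp.le (by linarith : bp ε ≤ 1 / 2) (by norm_num)
  have h4 := H_half_le
  have h5 := Real.log_two_lt_d9
  linarith

/-- The defect at the two special points is large. -/
lemma gfun_special {ε s : ℝ} (h0 : 0 ≤ ε) (h1 : ε ≤ 1 / 2) (hs : |s| ≤ 1) :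
    (1 - ε) * (log 2 - phi s) - (log 2 - phi (1 - 2 * ε)) ≤ gfun ε s := by
  have h := gfun_lower h0 h1 hs
  rw [H_one_sub_sq] at h
  have hs' := abs_le.mp hs
  have hρ : |1 - 2 * ε| ≤ 1 := by
    rw [abs_le]
    constructor <;> linarith
  have hn := phi_le_log_two hρ
  have hq : (1 + s) / 2 ≤ 1 := by linarith [hs'.2]
  have hq0 : 0 ≤ (1 + s) / 2 := by linarith [hs'.1]
  have : (1 + s) / 2 * (log 2 - phi (1 - 2 * ε)) ≤ 1 * (log 2 - phi (1 - 2 * ε)) :=
    mul_le_mul_of_nonneg_right hq (by linarith)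
  linarith

/-- The end region: the defect grows linearly. -/
lemma gfun_end {ε t p₃ D : ℝ} (h0 : 0 ≤ ε) (h1 : ε ≤ 1 / 2) (ht : |t| ≤ 1) (hp : 0 < p₃)
    (hp2 : p₃ ≤ 1 / 2) (hlt : 1 - 2 * p₃ < |t|)
    (hD : (1 - ε) * (log 2 - phi (1 - 2 * p₃)) - (log 2 - phi (1 - 2 * ε)) = D) :
    (1 - |t|) / 2 / p₃ * D ≤ gfun ε t := by
  set r := (1 - |t|) / 2 with hr
  have hr0 : 0 ≤ r := by
    rw [hr]
    linarith
  have hrp : r < p₃ := by
    rw [hr]
    linarith
  set l := r / p₃ with hl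
  have hl0 : 0 ≤ l := div_nonneg hr0 hp.le
  have hl1 : l ≤ 1 := by
    rw [hl, div_le_one hp]
    exact hrp.le
  have hlp : l * p₃ = r := by
    rw [hl]
    field_simp
  have hs : |1 - 2 * p₃| ≤ 1 := by
    rw [abs_le]
    constructor <;> linarith
  have hs2 : |-(1 - 2 * p₃)| ≤ 1 := by
    rw [abs_neg]
    exact hs
  rcases le_total 0 t with ht0 | ht0
  · have habs : |t| = t := abs_of_nonneg ht0
    have hc := gfun_concave (s := 1 - 2 * p₃) (t := 1) (l := l) h0 h1 hs (by norm_num) hl0 hl1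
    rw [gfun_one] at hc
    have e : l * (1 - 2 * p₃) + (1 - l) * 1 = t := by
      rw [hr, habs] at hlp
      linarith
    rw [e] at hc
    have h2 := gfun_special h0 h1 hs
    rw [hD] at h2
    have h3 := mul_le_mul_of_nonneg_left h2 hl0
    linarith
  · have habs : |t| = -t := abs_of_nonpos ht0
    have hc := gfun_concave (s := -(1 - 2 * p₃)) (t := -1) (l := l) h0 h1 hs2 (by norm_num) hl0 hl1
    rw [gfun_neg_one] at hc
    have e : l * -(1 - 2 * p₃) + (1 - l) * -1 = t := by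
      rw [hr, habs] at hlp
      linarith
    rw [e] at hc
    have h2 := gfun_special h0 h1 hs2
    rw [phi_neg, hD] at h2
    have h3 := mul_le_mul_of_nonneg_left h2 hl0
    linarith

/-- The pointwise inequality. -/
lemma pw_near {ε L t x : ℝ} (h0 : 0 < ε) (h1 : ε ≤ 1 / 1000000) (hL : L = - log ε) (hL2 : 1000 ≤ L)
    (ht : |t| ≤ 1) (hx0 : 0 ≤ x) (hx1 : x ≤ 1) (hx : x ≤ 1 - t ^ 2 + bp ε) :
    3 / 4 * (H x - H (bp ε)) ≤ gfun ε t := by
  have hpos := bp_pos h0 (by linarith)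
  have hle := bp_le h0 (by linarith)
  have ht' := abs_le.mp ht
  have hsq0 : 0 ≤ 1 - t ^ 2 := by nlinarith
  have hGnn := gfun_nonneg h0.le (by linarith) ht
  rcases le_total x (bp ε) with hxle | hxle
  · have := H_mono hx0 hxle (by linarith)
    linarith
  set p₃ := 8 * ε with hp₃
  have hp₃0 : 0 < p₃ := by positivity
  have hp₃1 : p₃ ≤ 1 / 2 := by rw [hp₃]; linarith
  have hρ : |1 - 2 * ε| ≤ 1 := by
    rw [abs_le]
    constructor <;> linarith
  have hhn := phi_le_log_two hρ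
  have e16 : 1 - 2 * p₃ = 1 - 16 * ε := by rw [hp₃]; ring
  rcases le_or_gt |t| (1 - 2 * p₃) with hmid | hend
  · -- mid region
    have h2 : H x ≤ H (x - bp ε) + H (bp ε) := by
      have := H_subadd (x := x - bp ε) (y := bp ε) (by linarith) hpos.le (by linarith)
      rwa [sub_add_cancel] at this
    have h3 : H (x - bp ε) ≤ H (1 - t ^ 2) := H_mono (by linarith) (by linarith) (by nlinarith)
    have hsq : t ^ 2 ≤ (1 - 2 * p₃) ^ 2 := by
      rw [← sq_abs t]
      exact pow_le_pow_left₀ (abs_nonneg t) hmid 2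
    have h4 : H (1 - (1 - 2 * p₃) ^ 2) ≤ H (1 - t ^ 2) := by
      apply H_mono _ (by linarith) (by nlinarith)
      nlinarith
    rw [H_one_sub_sq, e16] at h4
    have h5 := C_mid h0 h1 hL hL2
    have h6 : (1 / 4 - ε) * (log 2 - phi (1 - 16 * ε)) ≤ (1 / 4 - ε) * H (1 - t ^ 2) :=
      mul_le_mul_of_nonneg_left h4 (by linarith)
    have h7 := gfun_lower h0.le (by linarith) ht
    have hq : (1 + t) / 2 ≤ 1 := by linarith [ht'.2]
    have h8 : (1 + t) / 2 * (log 2 - phi (1 - 2 * ε)) ≤ 1 * (log 2 - phi (1 - 2 * ε)) :=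
      mul_le_mul_of_nonneg_right hq (by linarith)
    nlinarith
  · -- end region
    have hD := C_end h0 h1 hL hL2
    rw [← e16] at hD
    have hG := gfun_end h0.le (by linarith) ht hp₃0 hp₃1 hend rfl
    set D := (1 - ε) * (log 2 - phi (1 - 2 * p₃)) - (log 2 - phi (1 - 2 * ε)) with hDdef
    set r := (1 - |t|) / 2 with hr
    have hr0 : 0 ≤ r := by
      rw [hr]
      linarith
    have hch := H_chord_upper hpos hxle hx1
    have hHbp : 0 ≤ H (bp ε) := H_nonneg hpos.le (by linarith)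
    have hsqr : 1 - t ^ 2 ≤ 4 * r := by
      rw [← sq_abs t, hr]
      nlinarith [abs_nonneg t]
    have hch2 : (H x - H (bp ε)) * bp ε ≤ H (bp ε) * (4 * r) := by
      refine hch.trans (mul_le_mul_of_nonneg_left (by linarith) hHbp)
    -- combine
    have hmulpos : 0 < bp ε * p₃ := by positivity
    have key : 3 / 4 * (H x - H (bp ε)) * (bp ε * p₃) ≤ r / p₃ * D * (bp ε * p₃) := by
      have e1 : r / p₃ * D * (bp ε * p₃) = r * (bp ε * D) := by
        field_simp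
      rw [e1]
      have e2 : 3 / 4 * (H x - H (bp ε)) * (bp ε * p₃)
          = 3 / 4 * p₃ * ((H x - H (bp ε)) * bp ε) := by ring
      rw [e2]
      have h3 := mul_le_mul_of_nonneg_left hch2 (by positivity : 0 ≤ 3 / 4 * p₃)
      refine h3.trans ?_
      have e3 : 3 / 4 * p₃ * (H (bp ε) * (4 * r)) = r * (3 * H (bp ε) * p₃) := by ring
      rw [e3]
      exact mul_le_mul_of_nonneg_left hD hr0
    have := le_of_mul_le_mul_right key hmulpos
    linarith

/-- The averaged defect of a Boolean function is controlled by its variance. -/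
theorem gfun_avg {ε L : ℝ} (h0 : 0 < ε) (h1 : ε ≤ 1 / 1000000) (hL : L = - log ε) (hL2 : 1000 ≤ L)
    {n : ℕ} {g : Cube n → ℝ} (hg : IsBool g) :
    3 / 4 * (H (2 * bp ε) - H (bp ε) - bp ε) * (1 - avg g ^ 2)
      ≤ avg (fun y => gfun ε (T (1 - 2 * ε) g y)) := by
  set ρ := 1 - 2 * ε with hρdef
  have hρ : |ρ| ≤ 1 := by
    rw [abs_le]
    constructor <;> rw [hρdef] <;> linarith
  have hpos := bp_pos h0 (by linarith)
  have hle := bp_le h0 (by linarith)
  have hleb := bp_le_b h0 (by linarith)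
  set b' := bp ε with hb'
  set w := T ρ g with hw
  have hw1 : ∀ y, |w y| ≤ 1 := abs_T_bool hρ hg
  have hX := b_NN_le hρ hg
  have hbb : 1 - ρ ^ 2 = 4 * ε * (1 - ε) := by rw [hρdef]; ring
  rw [hbb] at hX
  set b := 4 * ε * (1 - ε) with hb
  have hb0 : 0 < b := by
    rw [hb]
    apply mul_pos (by positivity)
    linarith
  have hb'eq : b' * (1 + b) = b := by
    rw [hb']
    unfold bp
    rw [← hb]
    field_simp
  have hN0 := NN_nonneg hρ hg
  have hdom : ∀ y, b' * (1 - w y ^ 2 + gradSq n w y + 1) ≤ 1 := by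
    intro y
    have h2 := hX y
    have h3 : b * NN ρ g y ≤ 1 := by nlinarith [sq_nonneg (w y)]
    have e : 1 - w y ^ 2 + gradSq n w y + 1 = NN ρ g y + 1 := rfl
    rw [e]
    have h4 : b' * (NN ρ g y + 1) ≤ b' * (1 / b + 1) := by
      apply mul_le_mul_of_nonneg_left _ hpos.le
      have : NN ρ g y ≤ 1 / b := by
        rw [le_div_iff₀ hb0]
        linarith
      linarith
    have e2 : b' * (1 / b + 1) = 1 := by
      have : b' * (1 / b + 1) = (b' * (1 + b)) / b := by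
        field_simp
      rw [this, hb'eq]
      field_simp
    linarith
  have hB := bellman_gen (G := H) (A := fun w => w ^ 2) (b := b') (s := 1) isProfile_H isCorr_sq
    hpos.le zero_le_one w hw1 hdom
  unfold ThetaG at hB
  rw [hw, avg_T, ← hw] at hB
  simp only [] at hB
  set μ := avg g with hμ
  have hμ1 : |μ| ≤ 1 := abs_avg_le_one (fun x => hg.abs_le x)
  have hμ' := abs_le.mp hμ1
  have hV0 : 0 ≤ 1 - μ ^ 2 := by nlinarith
  have hV1 : 1 - μ ^ 2 ≤ 1 := by nlinarith [sq_nonneg μ]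
  -- pointwise bound
  have hpt : ∀ y, 3 / 4 * (H (b' * (1 - w y ^ 2 + gradSq n w y + 1)) - H b') ≤ gfun ε (w y) := by
    intro y
    apply pw_near h0 h1 hL hL2 (hw1 y) _ (hdom y)
    · have h2 := hX y
      have e : 1 - w y ^ 2 + gradSq n w y = NN ρ g y := rfl
      have h3 : b' * NN ρ g y ≤ b * NN ρ g y := mul_le_mul_of_nonneg_right hleb (hN0 y)
      have e2 : b' * (1 - w y ^ 2 + gradSq n w y + 1) = b' * NN ρ g y + b' := by
        rw [e]; ring
      rw [e2]
      linarith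
    · have h2 := hN0 y
      have e : 1 - w y ^ 2 + gradSq n w y = NN ρ g y := rfl
      have e2 : b' * (1 - w y ^ 2 + gradSq n w y + 1) = b' * (NN ρ g y + 1) := by
        rw [e]
      rw [e2]
      positivity
  have hA := avg_mono hpt
  have e1 : avg (fun y => 3 / 4 * (H (b' * (1 - w y ^ 2 + gradSq n w y + 1)) - H b'))
      = 3 / 4 * (avg (fun y => H (b' * (1 - w y ^ 2 + gradSq n w y + 1))) - H b') := by
    rw [avg_mul_left, avg_sub, avg_const]
  rw [e1] at hA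
  refine le_trans ?_ hA
  have e2 : avg (fun y => H (b' * (1 - w y ^ 2 + gradSq n w y + 1)) + b' * w y ^ 2)
      = avg (fun y => H (b' * (1 - w y ^ 2 + gradSq n w y + 1))) + b' * avg (fun y => w y ^ 2) := by
    rw [avg_add, avg_mul_left]
  rw [e2] at hB
  have hw2 : avg (fun y => w y ^ 2) ≤ 1 := by
    have h2 : avg (fun y => w y ^ 2) ≤ avg (fun _ : Cube n => (1 : ℝ)) := by
      apply avg_mono
      intro y
      have := abs_le.mp (hw1 y)
      nlinarith
    rwa [avg_const] at h2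
  have hC := H_chord_lower (v₁ := b') (c := b') (V := 1 - μ ^ 2) hpos.le hpos.le (by linarith) hV0 hV1
  have e3 : b' + b' = 2 * b' := by ring
  rw [e3] at hC
  have e4 : b' * (1 - μ ^ 2 + 0 + 1) = b' + b' * (1 - μ ^ 2) := by ring
  rw [e4] at hB
  have h5 : b' * avg (fun y => w y ^ 2) ≤ b' * 1 := mul_le_mul_of_nonneg_left hw2 hpos.le
  nlinarith

/-- The noise operator on an inserted point, general coordinate. -/
lemma T_ins_mix' {n : ℕ} (ρ : ℝ) (p : Fin (n + 1)) (g : Cube (n + 1) → ℝ) (s : Bool) (z : Cube n) :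
    T ρ g (ins p s z)
      = (1 + ρ * sgn s) / 2 * T ρ (fun x => g (ins p true x)) z
        + (1 - ρ * sgn s) / 2 * T ρ (fun x => g (ins p false x)) z := by
  unfold T
  rw [sum_cube_split p, Finset.mul_sum, Finset.mul_sum, ← Finset.sum_add_distrib]
  apply Finset.sum_congr rfl
  intro x _
  rw [krn_ins, krn_ins]
  simp only [sgn_true, sgn_false]
  ring

lemma T_neg {n : ℕ} (ρ : ℝ) (g : Cube n → ℝ) (y : Cube n) : T ρ (fun x => - g x) y = - T ρ g y := by
  have := T_mul_left ρ (-1) g y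
  simp only [neg_mul, one_mul] at this
  exact this

/-- The submodular step, pointwise. -/
lemma submod {ε a c : ℝ} (h0 : 0 ≤ ε) (h1 : ε ≤ 1 / 2) (ha : |a| ≤ 1) (hc : |c| ≤ 1) :
    phi ((1 - ε) * a - ε * c) + phi (1 - 2 * ε)
      ≤ phi ((1 - ε) * a - ε) + phi ((1 - ε) - ε * c) := by
  have ha' := abs_le.mp ha
  have hc' := abs_le.mp hc
  have m1 := arg1_mem h0 h1 ha
  have m2 := arg2_mem h0 h1 hc
  apply phi_karamata m1.1 m2.2
  · nlinarith
  · nlinarith
  · nlinarith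
  · nlinarith
  · ring

/-- **The near-dictator case.** -/
theorem near_case {ε L : ℝ} (h0 : 0 < ε) (h1 : ε ≤ 1 / 1000000) (hL : L = - log ε) (hL2 : 1000 ≤ L)
    {n : ℕ} (p : Fin (n + 1)) {f : Cube (n + 1) → ℝ} (hf : IsBool f) (ha : 9 / 20 ≤ coef p f) :
    avg (fun y => phi (T (1 - 2 * ε) f y)) - phi (avg f) ≤ phi (1 - 2 * ε) := by
  set ρ := 1 - 2 * ε with hρdef
  have hρ : |ρ| ≤ 1 := by
    rw [abs_le]
    constructor <;> rw [hρdef] <;> linarith
  set g₀ : Cube n → ℝ := fun x => f (ins p true x) with hg₀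
  set g₁ : Cube n → ℝ := fun x => - f (ins p false x) with hg₁
  have hbg₀ : IsBool g₀ := fun x => hf _
  have hbg₁ : IsBool g₁ := by
    intro x
    rcases hf (ins p false x) with h | h
    · right
      simp only [hg₁, h]
    · left
      simp only [hg₁, h]
      norm_num
  set a := coef p f with hadef
  set μ := avg f with hμ
  have hf₀ : avg (fun x => f (ins p true x)) = a + μ := by
    rw [hadef, hμ, coef_same, avg_split p f]
    have e : od p f = fun x => (1 / 2 : ℝ) * (f (ins p true x) - f (ins p false x)) := by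
      funext x
      unfold od
      ring
    rw [e, avg_mul_left, avg_sub]
    ring
  have hf₁ : avg (fun x => f (ins p false x)) = μ - a := by
    rw [hadef, hμ, coef_same, avg_split p f]
    have e : od p f = fun x => (1 / 2 : ℝ) * (f (ins p true x) - f (ins p false x)) := by
      funext x
      unfold od
      ring
    rw [e, avg_mul_left, avg_sub]
    ring
  have hm₀ : avg g₀ = a + μ := hf₀
  have hm₁ : avg g₁ = a - μ := by
    rw [hg₁, avg_neg, hf₁]
    ring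
  have hα : ∀ y, |T ρ g₀ y| ≤ 1 := abs_T_bool hρ hbg₀
  have hβ : ∀ y, |T ρ g₁ y| ≤ 1 := abs_T_bool hρ hbg₁
  have hT1 : ∀ y, T ρ f (ins p true y) = (1 - ε) * T ρ g₀ y - ε * T ρ g₁ y := by
    intro y
    rw [T_ins_mix' ρ p f true y, hg₁, T_neg, hρdef]
    simp only [sgn_true]
    ring
  have hT2 : ∀ y, T ρ f (ins p false y) = ε * T ρ g₀ y - (1 - ε) * T ρ g₁ y := by
    intro y
    rw [T_ins_mix' ρ p f false y, hg₁, T_neg, hρdef]
    simp only [sgn_false]
    ring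
  have hε2 : ε ≤ 1 / 2 := by linarith
  -- pointwise inequality
  have hpt : ∀ y, (phi (T ρ f (ins p true y)) + phi (T ρ f (ins p false y))) / 2
      ≤ (cfun ε (T ρ g₀ y) + cfun ε (T ρ g₁ y)) / 2 - phi ρ := by
    intro y
    rw [hT1, hT2]
    have e : ε * T ρ g₀ y - (1 - ε) * T ρ g₁ y = - ((1 - ε) * T ρ g₁ y - ε * T ρ g₀ y) := by ring
    rw [e, phi_neg]
    have s1 := submod h0.le hε2 (hα y) (hβ y)
    have s2 := submod h0.le hε2 (hβ y) (hα y)
    unfold cfun
    rw [← hρdef] at s1 s2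
    linarith
  have hA := avg_mono hpt
  have hsp := avg_split' p (fun y => phi (T ρ f y))
  rw [← hsp] at hA
  -- the averages of `cfun`
  have hc : ∀ g : Cube n → ℝ, avg (fun y => cfun ε (T ρ g y))
      = (1 + avg g) * phi ρ + (1 - avg g) * log 2 - avg (fun y => gfun ε (T ρ g y)) := by
    intro g
    have e : (fun y => cfun ε (T ρ g y)) = fun y =>
        (phi ρ + log 2) + ((phi ρ - log 2) * T ρ g y + - gfun ε (T ρ g y)) := by
      funext y
      unfold gfun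
      rw [← hρdef]
      ring
    rw [e, avg_add, avg_const, avg_add, avg_mul_left, avg_neg, avg_T]
    ring
  have e1 : avg (fun y => (cfun ε (T ρ g₀ y) + cfun ε (T ρ g₁ y)) / 2 - phi ρ)
      = (avg (fun y => cfun ε (T ρ g₀ y)) + avg (fun y => cfun ε (T ρ g₁ y))) / 2 - phi ρ := by
    have e : (fun y => (cfun ε (T ρ g₀ y) + cfun ε (T ρ g₁ y)) / 2 - phi ρ)
        = fun y => (1 / 2 : ℝ) * (cfun ε (T ρ g₀ y) + cfun ε (T ρ g₁ y)) - phi ρ := by
      funext y
      ring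
    rw [e, avg_sub, avg_const, avg_mul_left, avg_add]
    ring
  rw [e1, hc g₀, hc g₁, hm₀, hm₁] at hA
  have h2 := gfun_avg h0 h1 hL hL2 hbg₀
  have h3 := gfun_avg h0 h1 hL hL2 hbg₁
  rw [← hρdef, hm₀] at h2
  rw [← hρdef, hm₁] at h3
  set κ := 3 / 4 * (H (2 * bp ε) - H (bp ε) - bp ε) with hκ
  have hκ1 : κ ≤ 1 / 2 := kappa_le h0 h1
  have hC := C_main h0 h1 hL hL2
  rw [← hρdef, ← hκ] at hC
  have hμ1 : |μ| ≤ 1 := abs_avg_le_one (fun x => hf.abs_le x)
  have hφ := phi_ge hμ1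
  have ha1 : a ≤ 1 := by
    have h := abs_avg_le_one (g := fun x => f x * sgn (x p)) (fun x => by
      rw [abs_mul, abs_sgn, mul_one]
      exact hf.abs_le x)
    exact (abs_le.mp h).2
  have hμ4 : 0 ≤ μ ^ 4 := by positivity
  have hμ2 : 0 ≤ μ ^ 2 := sq_nonneg μ
  have hκμ : κ * μ ^ 2 ≤ 1 / 2 * μ ^ 2 := mul_le_mul_of_nonneg_right hκ1 hμ2
  -- final arithmetic
  have hfin : (1 - a) * (log 2 - phi ρ) ≤ (1 - a) * (κ * (1 + a)) := by
    apply mul_le_mul_of_nonneg_left _ (by linarith)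
    have hκ0 : 0 ≤ κ := by
      have hn : 0 ≤ log 2 - phi ρ := by linarith [phi_le_log_two hρ]
      linarith
    have : κ * (29 / 20) ≤ κ * (1 + a) := mul_le_mul_of_nonneg_left (by linarith) hκ0
    linarith
  nlinarith

end Vale.Agent.Lib.P322
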