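import Vale.Agent.Lib.P322.FarCase2
import Vale.Agent.Lib.P322.NearCase

/-!
The exact inequality at low noise, for all Boolean functions.
-/

namespace Vale.Agent.Lib.P322

open Real

lemma T_neg' {n : ℕ} (ρ : ℝ) (g : Cube n → ℝ) (y : Cube n) :
    T ρ (fun x => - g x) y = - T ρ g y := T_neg ρ g y

lemma coef_neg {n : ℕ} (i : Fin n) (g : Cube n → ℝ) : coef i (fun x => - g x) = - coef i g := by
  unfold coef
  rw [← avg_neg]
  apply avg_congr
  intro x
  ring

lemma IsBool.neg {n : ℕ} {f : Cube n → ℝ} (hf : IsBool f) : IsBool (fun x => - f x) := by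
  intro x
  rcases hf x with h | h
  · right
    simp [h]
  · left
    simp [h]

/-- The case of a large mean. -/
lemma large_mean {ε L : ℝ} (h0 : 0 < ε) (h1 : ε ≤ 1 / 100) (hL : L = - log ε) (hL2 : 1000 ≤ L)
    {n : ℕ} {f : Cube n → ℝ} (hf : IsBool f) (hμ : 1 / 20 < avg f ^ 2) :
    avg (fun y => phi (T (1 - 2 * ε) f y)) - phi (avg f) ≤ phi (1 - 2 * ε) := by
  set ρ := 1 - 2 * ε with hρdef
  have hρ : |ρ| ≤ 1 := by
    rw [abs_le]
    constructor <;> rw [hρdef] <;> linarith
  have hS := sdpi hρ f (fun x => hf.abs_le x)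
  have hφf : avg (fun x => phi (f x)) = log 2 := by
    have e : (fun x => phi (f x)) = fun _ => log 2 := by
      funext x
      rcases hf x with h | h
      · rw [h, phi_one]
      · rw [h, phi_neg_one]
    rw [e, avg_const]
  rw [hφf] at hS
  have hμ1 : |avg f| ≤ 1 := abs_avg_le_one (fun x => hf.abs_le x)
  have hφ := phi_ge hμ1
  have hμ4 : 0 ≤ avg f ^ 4 := by positivity
  have hφ1 : 1 / 40 ≤ phi (avg f) := by linarith
  have hφ2 := phi_le_log_two hμ1
  have hr0 : 0 ≤ ρ ^ 2 := sq_nonneg ρ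
  have hr1 : ρ ^ 2 ≤ 1 := by
    have := abs_le.mp hρ
    nlinarith
  have hJ : avg (fun y => phi (T ρ f y)) - phi (avg f) ≤ log 2 - 1 / 40 := by
    nlinarith
  have hent := ent_upper h0 (by linarith) hL
  have hexp : 1 + L + L ^ 2 / 2 ≤ 1 / ε := by
    have h2 := Real.quadratic_le_exp_of_nonneg (by linarith : 0 ≤ L)
    have h3 : exp L = 1 / ε := by
      rw [hL, Real.exp_neg, Real.exp_log h0, one_div]
    rw [← h3]
    linarith
  have hsmall : ε * (L + 1) ≤ 1 / 40 := by
    have h2 : ε * (1 + L + L ^ 2 / 2) ≤ ε * (1 / ε) := mul_le_mul_of_nonneg_left hexp h0.le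
    have h3 : ε * (1 / ε) = 1 := by
      field_simp
    rw [h3] at h2
    have h4 : 40 * (L + 1) ≤ 1 + L + L ^ 2 / 2 := by nlinarith
    have h5 : ε * (40 * (L + 1)) ≤ ε * (1 + L + L ^ 2 / 2) := mul_le_mul_of_nonneg_left h4 h0.le
    nlinarith
  linarith

/-- **The exact inequality at low noise** in terms of the noise operator. -/
theorem exact_phi {ε : ℝ} (h0 : 0 < ε) (h1 : ε ≤ exp (-(10 ^ 15))) {n : ℕ} {f : Cube n → ℝ}
    (hf : IsBool f) :
    avg (fun y => phi (T (1 - 2 * ε) f y)) - phi (avg f) ≤ phi (1 - 2 * ε) := by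
  set L := - log ε with hL
  have hL2 : (10 : ℝ) ^ 15 ≤ L := by
    have := (Real.log_le_log h0 h1)
    rw [Real.log_exp] at this
    rw [hL]
    linarith
  have hL3 : (1000 : ℝ) ≤ L := by
    norm_num at hL2
    linarith
  have hexp : exp (10 ^ 15) * exp (-(10 ^ 15)) = 1 := by
    rw [← Real.exp_add]
    simp
  have hexp2 : (1000000 : ℝ) ≤ exp (10 ^ 15) := by
    have := Real.add_one_le_exp ((10 : ℝ) ^ 15)
    norm_num at this ⊢
    linarith
  have hε : ε ≤ 1 / 1000000 := by
    have hp := Real.exp_pos (-(10 ^ 15 : ℝ))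
    have h2 : 1000000 * exp (-(10 ^ 15)) ≤ 1 := by
      nlinarith
    linarith
  set ρ := 1 - 2 * ε with hρdef
  by_cases hμ : 1 / 20 < avg f ^ 2
  · exact large_mean h0 (by linarith) hL hL3 hf hμ
  have hμ' : avg f ^ 2 ≤ 1 / 20 := not_lt.mp hμ
  by_cases hc : ∃ i, 9 / 20 ≤ |coef i f|
  · obtain ⟨i, hi⟩ := hc
    cases n with
    | zero => exact i.elim0
    | succ m =>
      rcases le_total 0 (coef i f) with hpos | hneg
      · rw [abs_of_nonneg hpos] at hi
        exact near_case h0 hε hL hL3 i hf hi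
      · rw [abs_of_nonpos hneg, ← coef_neg] at hi
        have h2 := near_case h0 hε hL hL3 i hf.neg hi
        have e1 : avg (fun x => - f x) = - avg f := avg_neg f
        rw [e1, phi_neg] at h2
        have e2 : (fun y => phi (T (1 - 2 * ε) (fun x => - f x) y))
            = fun y => phi (T (1 - 2 * ε) f y) := by
          funext y
          rw [T_neg, phi_neg]
        rw [e2] at h2
        exact h2
  · have hsmall : ∀ i, |coef i f| ≤ 9 / 20 := by
      intro i
      by_contra h
      exact hc ⟨i, (not_le.mp h).le⟩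
    have hW := W1_lt_of_small_coef (fun x => hf.abs_le x) hsmall
    have hρ0 : 0 ≤ ρ := by
      rw [hρdef]
      linarith
    have hρ1 : ρ ≤ 1 := by
      rw [hρdef]
      linarith
    have hbeq : 1 - ρ ^ 2 = 4 * ε * (1 - ε) := by
      rw [hρdef]
      ring
    have hb : 0 < 1 - ρ ^ 2 := by
      rw [hbeq]
      apply mul_pos (by positivity)
      linarith
    have hb2 : 1 - ρ ^ 2 ≤ exp (-(2 * 10 ^ 14)) := by
      rw [hbeq]
      have h2 : 4 * ε * (1 - ε) ≤ 4 * exp (-(10 ^ 15)) := by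
        nlinarith [Real.exp_pos (-(10 ^ 15 : ℝ))]
      refine h2.trans ?_
      have e : (-(10 ^ 15) : ℝ) = -(8 * 10 ^ 14) + -(2 * 10 ^ 14) := by norm_num
      rw [e, Real.exp_add]
      have h3 : 4 * exp (-(8 * 10 ^ 14)) ≤ 1 := by
        have h4 : (4 : ℝ) ≤ exp (8 * 10 ^ 14) := by
          have := Real.add_one_le_exp ((8 : ℝ) * 10 ^ 14)
          norm_num at this ⊢
          linarith
        rw [Real.exp_neg]
        have h5 := Real.exp_pos ((8 : ℝ) * 10 ^ 14)
        rw [← div_eq_mul_inv, div_le_one h5]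
        exact h4
      have h6 := Real.exp_pos (-(2 * 10 ^ 14 : ℝ))
      nlinarith
    exact far_case hρ0 hρ1 hb hb2 hf hW hμ'

/-- The same at zero noise. -/
lemma zero_noise {n : ℕ} {f : Cube n → ℝ} (hf : IsBool f) :
    avg (fun y => phi (T (1 - 2 * 0) f y)) - phi (avg f) ≤ phi (1 - 2 * 0) := by
  have e : (1 : ℝ) - 2 * 0 = 1 := by norm_num
  rw [e, phi_one]
  have hS := sdpi (ρ := 1) (by norm_num) f (fun x => hf.abs_le x)
  have hφf : avg (fun x => phi (f x)) = log 2 := by
    have e : (fun x => phi (f x)) = fun _ => log 2 := by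
      funext x
      rcases hf x with h | h
      · rw [h, phi_one]
      · rw [h, phi_neg_one]
    rw [e, avg_const]
  rw [hφf] at hS
  have hμ1 : |avg f| ≤ 1 := abs_avg_le_one (fun x => hf.abs_le x)
  have := phi_nonneg hμ1
  norm_num at hS
  linarith

/-- **The exact inequality at low noise for the mutual information.** -/
theorem mutualInfo_exact {n : ℕ} (f : Cube n → Bool) {ε : ℝ} (h0 : 0 ≤ ε)
    (h1 : ε ≤ exp (-(10 ^ 15))) : mutualInfoBits ε f ≤ 1 - binEntropy ε / log 2 := by
  have hle : exp (-(10 ^ 15)) ≤ 1 := by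
    rw [Real.exp_le_one_iff]
    norm_num
  apply mutualInfo_le_of_avg h0 (h1.trans hle)
  rcases h0.eq_or_lt with h | h
  · rw [← h]
    exact zero_noise (isBool_sf f)
  · exact exact_phi h h1 (isBool_sf f)

end Vale.Agent.Lib.P322
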