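import Vale.Agent.Lib.P322.Reveal

/-!
Taylor bounds for `phi` around a base point, and moment bounds of the noise operator.
-/

namespace Vale.Agent.Lib.P322

open Real

lemma mul_log_upper_pos {u : ℝ} (hu : 0 ≤ u) :
    (1 + u) * log (1 + u) ≤ u + u ^ 2 / 2 - u ^ 3 / 6 + u ^ 4 / 12 := by
  have hder : ∀ x : ℝ, 0 ≤ x → HasDerivAt (fun u : ℝ => (u + u ^ 2 / 2 - u ^ 3 / 6 + u ^ 4 / 12) / (1 + u) - log (1 + u)) (x ^ 4 / 4 / (1 + x) ^ 2) x := by
    intro x hx
    have h1 : HasDerivAt (fun u : ℝ => u + u ^ 2 / 2 - u ^ 3 / 6 + u ^ 4 / 12) (1 + x - x ^ 2 / 2 + x ^ 3 / 3) x := by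
      have := (((hasDerivAt_id' x).add ((hasDerivAt_pow 2 x).div_const 2)).sub
        ((hasDerivAt_pow 3 x).div_const 6)).add ((hasDerivAt_pow 4 x).div_const 12)
      refine this.congr_deriv ?_
      norm_num
      ring
    have h2 : HasDerivAt (fun x : ℝ => 1 + x) 1 x := by
      simpa using (hasDerivAt_id' x).const_add 1
    have hpos : 1 + x ≠ 0 := by positivity
    have h3 := h1.div h2 hpos
    have h4 := h2.log hpos
    have h5 := h3.sub h4
    refine h5.congr_deriv ?_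
    field_simp
    ring
  have hmono : MonotoneOn (fun u : ℝ => (u + u ^ 2 / 2 - u ^ 3 / 6 + u ^ 4 / 12) / (1 + u) - log (1 + u)) (Set.Ici 0) := by
    apply monotoneOn_of_deriv_nonneg (convex_Ici 0)
    · intro x hx
      exact (hder x hx).continuousAt.continuousWithinAt
    · intro x hx
      rw [interior_Ici] at hx
      exact (hder x hx.le).differentiableAt.differentiableWithinAt
    · intro x hx
      rw [interior_Ici] at hx
      rw [(hder x hx.le).deriv]
      positivity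
  have h6 := hmono (Set.self_mem_Ici) (Set.mem_Ici.mpr hu) hu
  norm_num at h6
  have hpos : 0 < 1 + u := by positivity
  rw [le_div_iff₀ hpos] at h6
  linarith

lemma mul_log_upper_neg {v : ℝ} (hv : 0 ≤ v) (hv1 : v ≤ 1) :
    (1 - v) * log (1 - v) ≤ -v + v ^ 2 / 2 + v ^ 3 / 6 + v ^ 4 / 3 := by
  rcases eq_or_lt_of_le hv1 with h1 | h1
  · subst h1; norm_num
  have hder : ∀ x : ℝ, x < 1 → HasDerivAt (fun u : ℝ => (-u + u ^ 2 / 2 + u ^ 3 / 6 + u ^ 4 / 3) / (1 - u) - log (1 - u)) (x ^ 3 / (1 - x)) x := by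
    intro x hx
    have h1 : HasDerivAt (fun u : ℝ => -u + u ^ 2 / 2 + u ^ 3 / 6 + u ^ 4 / 3) (-1 + x + x ^ 2 / 2 + 4 * x ^ 3 / 3) x := by
      have := (((hasDerivAt_id' x).neg.add ((hasDerivAt_pow 2 x).div_const 2)).add
        ((hasDerivAt_pow 3 x).div_const 6)).add ((hasDerivAt_pow 4 x).div_const 3)
      refine this.congr_deriv ?_
      norm_num
      ring
    have h2 : HasDerivAt (fun x : ℝ => 1 - x) (-1) x := by
      simpa using (hasDerivAt_id' x).const_sub 1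
    have hpos : 1 - x ≠ 0 := (sub_pos.mpr hx).ne'
    have h3 := h1.div h2 hpos
    have h4 := h2.log hpos
    have h5 := h3.sub h4
    refine h5.congr_deriv ?_
    field_simp
    ring
  have hmono : MonotoneOn (fun u : ℝ => (-u + u ^ 2 / 2 + u ^ 3 / 6 + u ^ 4 / 3) / (1 - u) - log (1 - u)) (Set.Ico 0 1) := by
    apply monotoneOn_of_deriv_nonneg (convex_Ico 0 1)
    · intro x hx
      exact (hder x hx.2).continuousAt.continuousWithinAt
    · intro x hx
      rw [interior_Ico] at hx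
      exact (hder x hx.2).differentiableAt.differentiableWithinAt
    · intro x hx
      rw [interior_Ico] at hx
      rw [(hder x hx.2).deriv]
      have : 0 < 1 - x := sub_pos.mpr hx.2
      have := hx.1
      positivity
  have h6 := hmono (⟨le_refl 0, by norm_num⟩ : (0:ℝ) ∈ Set.Ico (0:ℝ) 1) ⟨hv, h1⟩ hv
  norm_num at h6
  have hpos : 0 < 1 - v := sub_pos.mpr h1
  rw [le_div_iff₀ hpos] at h6
  linarith

lemma scaled_pos {A t : ℝ} (hA : 0 < A) (ht : 0 ≤ t) :
    A * ((1 + t / A) * log (1 + t / A))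
      ≤ t + t ^ 2 / (2 * A) - t ^ 3 / (6 * A ^ 2) + t ^ 4 / (12 * A ^ 3) := by
  have h := mul_log_upper_pos (u := t / A) (by positivity)
  have h2 := mul_le_mul_of_nonneg_left h hA.le
  refine h2.trans (le_of_eq ?_)
  field_simp

lemma scaled_neg {A s : ℝ} (hA : 0 < A) (hs : 0 ≤ s) (hs1 : s ≤ A) :
    A * ((1 - s / A) * log (1 - s / A))
      ≤ -s + s ^ 2 / (2 * A) + s ^ 3 / (6 * A ^ 2) + s ^ 4 / (3 * A ^ 3) := by
  have h := mul_log_upper_neg (v := s / A) (by positivity) (by rwa [div_le_one hA])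
  have h2 := mul_le_mul_of_nonneg_left h hA.le
  refine h2.trans (le_of_eq ?_)
  field_simp

/-- Chain rule identity for `phi` around a base point. -/
lemma xi_identity {m t : ℝ} (hA : 0 < 1 + m) (hB : 0 < 1 - m) (h1 : 0 ≤ 1 + m + t)
    (h2 : 0 ≤ 1 - m - t) :
    phi (m + t) - phi m - t / 2 * (log (1 + m) - log (1 - m))
      = ((1 + m) * ((1 + t / (1 + m)) * log (1 + t / (1 + m)))
          + (1 - m) * ((1 - t / (1 - m)) * log (1 - t / (1 - m)))) / 2 := by
  have e1 : 1 + t / (1 + m) = (1 + m + t) / (1 + m) := by field_simp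
  have e2 : 1 - t / (1 - m) = (1 - m - t) / (1 - m) := by field_simp
  rw [e1, e2]
  have b1 := mul_log_div_eq (1 + m + t) (1 + m) h1 hA
  have b2 := mul_log_div_eq (1 - m - t) (1 - m) h2 hB
  have c1 : (1 + m) * ((1 + m + t) / (1 + m) * log ((1 + m + t) / (1 + m)))
      = (1 + m + t) * log ((1 + m + t) / (1 + m)) := by field_simp
  have c2 : (1 - m) * ((1 - m - t) / (1 - m) * log ((1 - m - t) / (1 - m)))
      = (1 - m - t) * log ((1 - m - t) / (1 - m)) := by field_simp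
  rw [c1, c2, b1, b2]
  unfold phi
  have e3 : 1 + (m + t) = 1 + m + t := by ring
  have e4 : 1 - (m + t) = 1 - m - t := by ring
  rw [e3, e4]
  ring

/-- The Taylor coefficient used for the quartic remainder. -/
noncomputable def quartC (m : ℝ) : ℝ := 1 / (24 * (1 + m) ^ 3) + 1 / (6 * (1 - m) ^ 3)

/-- Taylor bound for `phi` around a nonnegative base point. -/
lemma xi_le_of_nonneg {m t : ℝ} (hm0 : 0 ≤ m) (hm1 : m < 1) (h : |m + t| ≤ 1) :
    phi (m + t) - phi m - t / 2 * (log (1 + m) - log (1 - m))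
      ≤ t ^ 2 / (2 * ((1 + m) * (1 - m))) + m * |t| ^ 3 / (3 * ((1 + m) * (1 - m)) ^ 2)
        + quartC m * t ^ 4 := by
  have hA : 0 < 1 + m := by linarith
  have hB : 0 < 1 - m := by linarith
  have h' := abs_le.mp h
  have hAB : 1 - m ≤ 1 + m := by linarith
  rw [xi_identity hA hB (by linarith) (by linarith)]
  have e1 : t ^ 2 / (2 * ((1 + m) * (1 - m))) = (t ^ 2 / (2 * (1 + m)) + t ^ 2 / (2 * (1 - m))) / 2 := by
    field_simp
    ring
  have e2 : ∀ s : ℝ, s / (6 * (1 - m) ^ 2) - s / (6 * (1 + m) ^ 2)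
      = 2 * (m * s / (3 * ((1 + m) * (1 - m)) ^ 2)) := by
    intro s
    field_simp
    ring
  have h4 : 1 / (3 * (1 + m) ^ 3) + 1 / (12 * (1 - m) ^ 3)
      ≤ 1 / (12 * (1 + m) ^ 3) + 1 / (3 * (1 - m) ^ 3) := by
    have h5 : 1 / (1 + m) ^ 3 ≤ 1 / (1 - m) ^ 3 :=
      one_div_le_one_div_of_le (by positivity) (pow_le_pow_left₀ hB.le hAB 3)
    have e5 : 1 / (3 * (1 + m) ^ 3) = (1 / 3) * (1 / (1 + m) ^ 3) := by field_simp
    have e6 : 1 / (12 * (1 - m) ^ 3) = (1 / 12) * (1 / (1 - m) ^ 3) := by field_simp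
    have e7 : 1 / (12 * (1 + m) ^ 3) = (1 / 12) * (1 / (1 + m) ^ 3) := by field_simp
    have e8 : 1 / (3 * (1 - m) ^ 3) = (1 / 3) * (1 / (1 - m) ^ 3) := by field_simp
    rw [e5, e6, e7, e8]
    linarith
  have e9 : quartC m = (1 / (12 * (1 + m) ^ 3) + 1 / (3 * (1 - m) ^ 3)) / 2 := by
    unfold quartC
    field_simp
    ring
  have ht4 : 0 ≤ t ^ 4 := by positivity
  have e10 : ∀ a b : ℝ, t ^ 4 / a + t ^ 4 / b = (1 / a + 1 / b) * t ^ 4 := by
    intro a b; ring
  rw [e9]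
  rcases le_total 0 t with ht | ht
  · have h1 := scaled_pos hA ht
    have h2 := scaled_neg hB ht (by linarith)
    rw [sub_eq_add_neg 1 (t / (1 - m))] at h2
    rw [sub_eq_add_neg 1 (t / (1 - m))]
    rw [abs_of_nonneg ht, e1]
    have e3 := e2 (t ^ 3)
    have e4 := e10 (12 * (1 + m) ^ 3) (3 * (1 - m) ^ 3)
    nlinarith
  · have hs : 0 ≤ -t := by linarith
    have h1 := scaled_neg hA hs (by linarith)
    have h2 := scaled_pos hB hs
    rw [abs_of_nonpos ht, e1]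
    have e3 := e2 (t ^ 3)
    have e3' := e2 ((-t) ^ 3)
    have e4 := e10 (12 * (1 + m) ^ 3) (3 * (1 - m) ^ 3)
    have e4' := e10 (3 * (1 + m) ^ 3) (12 * (1 - m) ^ 3)
    have a1 : (1 + -t / (1 + m)) = 1 - -t / (1 + m) + 2 * (-t / (1 + m)) := by ring
    have b1 : 1 - -t / (1 + m) = 1 + t / (1 + m) := by
      field_simp
      ring
    have b2 : 1 + -t / (1 - m) = 1 - t / (1 - m) := by
      field_simp
      ring
    rw [b1] at h1
    rw [b2] at h2
    have c0 : (-t) ^ 2 = t ^ 2 := by ring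
    have c1 : (-t) ^ 3 = - t ^ 3 := by ring
    have c2 : (-t) ^ 4 = t ^ 4 := by ring
    rw [c0, c1, c2] at h1
    rw [c0, c1, c2] at h2
    have c3 : 0 ≤ m * (-t) ^ 3 / (3 * ((1 + m) * (1 - m)) ^ 2) := by positivity
    have c4 : m * t ^ 3 / (3 * ((1 + m) * (1 - m)) ^ 2)
        = - (m * (-t) ^ 3 / (3 * ((1 + m) * (1 - m)) ^ 2)) := by
      rw [c1]; ring
    have c5 : -t ^ 3 / (6 * (1 + m) ^ 2) = - (t ^ 3 / (6 * (1 + m) ^ 2)) := by ring
    have c6 : -t ^ 3 / (6 * (1 - m) ^ 2) = - (t ^ 3 / (6 * (1 - m) ^ 2)) := by ring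
    rw [c5] at h1
    rw [c6] at h2
    have c7 : m * (-t) ^ 3 / (3 * ((1 + m) * (1 - m)) ^ 2)
        = m * (-t) ^ 3 / (3 * ((1 + m) * (1 - m)) ^ 2) := rfl
    have c8 := mul_le_mul_of_nonneg_right h4 ht4
    have c9 : t ^ 4 / (3 * (1 + m) ^ 3) + t ^ 4 / (12 * (1 - m) ^ 3)
        ≤ t ^ 4 / (12 * (1 + m) ^ 3) + t ^ 4 / (3 * (1 - m) ^ 3) := by
      rw [e4, e4']; exact c8
    nlinarith

/-- Taylor bound for `phi` around any base point in `(-1, 1)`. -/
lemma xi_le {m t : ℝ} (hm1 : |m| < 1) (h : |m + t| ≤ 1) :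
    phi (m + t) - phi m - t / 2 * (log (1 + m) - log (1 - m))
      ≤ t ^ 2 / (2 * ((1 + |m|) * (1 - |m|))) + |m| * |t| ^ 3 / (3 * ((1 + |m|) * (1 - |m|)) ^ 2)
        + quartC |m| * t ^ 4 := by
  rcases le_total 0 m with hm | hm
  · rw [abs_of_nonneg hm] at hm1 ⊢
    exact xi_le_of_nonneg hm hm1 h
  · rw [abs_of_nonpos hm] at hm1 ⊢
    have h2 : |(-m) + (-t)| ≤ 1 := by
      rw [show (-m) + (-t) = -(m + t) by ring, abs_neg]; exact h
    have h3 := xi_le_of_nonneg (m := -m) (t := -t) (by linarith) hm1 h2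
    rw [show (-m) + (-t) = -(m + t) by ring, phi_neg, phi_neg, abs_neg] at h3
    have e : (-t) ^ 2 = t ^ 2 := by ring
    have e' : (-t) ^ 4 = t ^ 4 := by ring
    rw [e, e'] at h3
    convert h3 using 2
    ring_nf

end Vale.Agent.Lib.P322
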