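import Vale.Agent.Lib.P322.LSI

/-!
The case of Boolean functions without large level-one coefficients.
-/

namespace Vale.Agent.Lib.P322

open Real

/-- The truncated profile. -/
noncomputable def HC (v : ℝ) : ℝ := H v - (1 / 24) * min v (1 / 2)

lemma min_half_midpoint (x y : ℝ) : (min x (1 / 2) + min y (1 / 2)) / 2 ≤ min ((x + y) / 2) (1 / 2) := by
  apply le_min
  · have h1 := min_le_left x (1 / 2 : ℝ)
    have h2 := min_le_left y (1 / 2 : ℝ)
    linarith
  · have h1 := min_le_right x (1 / 2 : ℝ)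
    have h2 := min_le_right y (1 / 2 : ℝ)
    linarith

lemma isProfile_HC : IsProfile HC := by
  constructor
  · intro x y h0 h1 h2 h3
    have h4 := H_midpoint (u := x) (v := y) ⟨h0, h1⟩ ⟨h2, h3⟩
    have h5 := min_half_midpoint x y
    unfold HC
    linarith
  · intro u v hu huv hv
    unfold HC
    rcases le_total v (1 / 2) with h1 | h1
    · have h2 := H_sub_ge_half hu huv h1
      rw [min_eq_left h1, min_eq_left (huv.trans h1)]
      linarith
    · rcases le_total u (1 / 2) with h3 | h3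
      · have h4 := H_sub_ge_half hu h3 le_rfl
        have h5 := H_sub_ge (by norm_num : (0 : ℝ) ≤ 1 / 2) h1 hv
        rw [min_eq_right h1, min_eq_left h3]
        linarith
      · have h5 := H_sub_ge hu huv hv
        rw [min_eq_right h1, min_eq_right h3]
        linarith

/-- The basic local quantity `N`. -/
noncomputable def NN {n : ℕ} (ρ : ℝ) (f : Cube n → ℝ) (y : Cube n) : ℝ :=
  1 - T ρ f y ^ 2 + gradSq n (T ρ f) y

lemma abs_T_bool {n : ℕ} {ρ : ℝ} (hρ : |ρ| ≤ 1) {f : Cube n → ℝ} (hf : IsBool f) (y : Cube n) :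
    |T ρ f y| ≤ 1 := abs_T_le hρ (fun x => hf.abs_le x) y

lemma one_sub_T_sq_nonneg {n : ℕ} {ρ : ℝ} (hρ : |ρ| ≤ 1) {f : Cube n → ℝ} (hf : IsBool f)
    (y : Cube n) : 0 ≤ 1 - T ρ f y ^ 2 := by
  have := abs_le.mp (abs_T_bool hρ hf y)
  nlinarith

lemma NN_nonneg {n : ℕ} {ρ : ℝ} (hρ : |ρ| ≤ 1) {f : Cube n → ℝ} (hf : IsBool f) (y : Cube n) :
    0 ≤ NN ρ f y := add_nonneg (one_sub_T_sq_nonneg hρ hf y) (gradSq_nonneg _ _)

lemma b_NN_le {n : ℕ} {ρ : ℝ} (hρ : |ρ| ≤ 1) {f : Cube n → ℝ} (hf : IsBool f) (y : Cube n) :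
    (1 - ρ ^ 2) * NN ρ f y ≤ 1 - T ρ f y ^ 2 := by
  have hsq : T ρ (fun x => f x ^ 2) y = 1 := by
    have : (fun x => f x ^ 2) = fun _ => (1 : ℝ) := funext (fun x => hf.sq x)
    rw [this, T_const]
  have h := rev_poincare hρ f y
  rw [hsq] at h
  unfold NN
  nlinarith

lemma one_sub_sq_nonneg' {ρ : ℝ} (hρ : |ρ| ≤ 1) : 0 ≤ 1 - ρ ^ 2 := by
  have := abs_le.mp hρ
  nlinarith

/-- Step A: a failure of the inequality forces a bound on the average of `N`. -/
theorem far_A {ρ : ℝ} (hρ : |ρ| ≤ 1) (hb : 0 < 1 - ρ ^ 2) {n : ℕ} {f : Cube n → ℝ} (hf : IsBool f)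
    (hfail : avg (fun y => H (1 - T ρ f y ^ 2)) < H (1 - ρ ^ 2) - phi (avg f)) :
    avg (NN ρ f) < 12 := by
  set b := 1 - ρ ^ 2 with hbdef
  have hw := abs_T_bool hρ hf
  have hp0 := one_sub_T_sq_nonneg hρ hf
  have hX := b_NN_le hρ hf
  have hX0 : ∀ y, 0 ≤ b * NN ρ f y := fun y => mul_nonneg hb.le (NN_nonneg hρ hf y)
  have hX1 : ∀ y, b * NN ρ f y ≤ 1 := by
    intro y
    have := hX y
    nlinarith [sq_nonneg (T ρ f y)]
  have hB := bellman_gen (G := HC) (A := psi) (b := b) (s := 0) isProfile_HC isCorr_psi hb.le le_rfl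
    (T ρ f) hw (fun y => by
      have := hX1 y
      unfold NN at this
      simpa using this)
  rw [avg_T] at hB
  set μ := avg f with hμ
  have hμ1 : |μ| ≤ 1 := abs_avg_le_one (fun x => hf.abs_le x)
  have hμ' := abs_le.mp hμ1
  have hV0 : 0 ≤ 1 - μ ^ 2 := by nlinarith
  have hV1 : 1 - μ ^ 2 ≤ 1 := by nlinarith [sq_nonneg μ]
  have hb1 : b ≤ 1 := by rw [hbdef]; nlinarith [sq_nonneg ρ]
  -- bound the right side pointwise
  have hpt : ∀ y, ThetaG HC psi b 0 (T ρ f y) (gradSq n (T ρ f) y)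
      ≤ H (1 - T ρ f y ^ 2) - (1 / 48) * (b * NN ρ f y) + b * (log 2 - 1 / 2) := by
    intro y
    unfold ThetaG HC
    have e : 1 - T ρ f y ^ 2 + gradSq n (T ρ f) y + 0 = NN ρ f y := by
      unfold NN
      ring
    rw [e]
    have h1 : H (b * NN ρ f y) ≤ H (1 - T ρ f y ^ 2) :=
      H_mono (hX0 y) (hX y) (by nlinarith [sq_nonneg (T ρ f y)])
    have h2 : (b * NN ρ f y) / 2 ≤ min (b * NN ρ f y) (1 / 2) := by
      apply le_min
      · linarith [hX0 y]
      · linarith [hX1 y]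
    have h3 : psi (T ρ f y) ≤ log 2 - 1 / 2 := psi_le (hw y)
    have h4 : b * psi (T ρ f y) ≤ b * (log 2 - 1 / 2) := mul_le_mul_of_nonneg_left h3 hb.le
    linarith
  have hR := avg_mono hpt
  have e1 : avg (fun y => H (1 - T ρ f y ^ 2) - (1 / 48) * (b * NN ρ f y) + b * (log 2 - 1 / 2))
      = avg (fun y => H (1 - T ρ f y ^ 2)) - (1 / 48) * (b * avg (NN ρ f)) + b * (log 2 - 1 / 2) := by
    rw [avg_add, avg_sub, avg_const, avg_mul_left, avg_mul_left]
  rw [e1] at hR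
  have hL : ThetaG HC psi b 0 μ 0 ≥ H (b * (1 - μ ^ 2)) - b / 24 := by
    unfold ThetaG HC
    have e : 1 - μ ^ 2 + 0 + 0 = 1 - μ ^ 2 := by ring
    rw [e]
    have h1 : min (b * (1 - μ ^ 2)) (1 / 2) ≤ b * 1 :=
      (min_le_left _ _).trans (mul_le_mul_of_nonneg_left hV1 hb.le)
    have h2 := psi_nonneg hμ1
    have h3 : 0 ≤ b * psi μ := mul_nonneg hb.le h2
    linarith
  have hS := H_super (u := 1 - μ ^ 2) (c := b) hV0 hV1 hb.le hb1
  rw [H_one_sub_sq] at hS
  have hfin : (1 / 48) * (b * avg (NN ρ f)) < b / 24 + b * (log 2 - 1 / 2) := by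
    linarith
  have hl := Real.log_two_lt_d9
  have h5 : b * ((1 / 48) * avg (NN ρ f)) < b * (1 / 24 + (log 2 - 1 / 2)) := by
    have e : b * ((1 / 48) * avg (NN ρ f)) = (1 / 48) * (b * avg (NN ρ f)) := by ring
    rw [e]
    linarith
  have h6 := lt_of_mul_lt_mul_left h5 hb.le
  norm_num at hl
  linarith

/-! ### Scalar inequalities for the multipliers -/

lemma pow_mul_le_inv {β : ℝ} (h0 : 0 < β) (h1 : β ≤ 1) (k : ℕ) :
    (k : ℝ) * (1 - β) ^ k ≤ 1 / β := by
  have h2 : (1 - β) ^ k * (1 + β) ^ k ≤ 1 := by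
    rw [← mul_pow]
    apply pow_le_one₀
    · apply mul_nonneg <;> linarith
    · nlinarith
  have h3 := one_add_mul_le_pow (a := β) (by linarith) k
  have h4 : 0 ≤ (1 - β) ^ k := pow_nonneg (by linarith) k
  have h5 : (1 - β) ^ k * (1 + k * β) ≤ 1 :=
    (mul_le_mul_of_nonneg_left h3 h4).trans h2
  rw [le_div_iff₀ h0]
  nlinarith

/-- The multiplier inequality of the level decomposition. -/
lemma multiplier_main {r e2 : ℝ} (hr0 : 0 ≤ r) (hr1 : r ≤ 1) (he0 : 0 ≤ e2) (he1 : e2 ≤ 1) {K : ℕ}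
    (hK : 1 ≤ K) (k : ℕ) :
    2 - 2 * (if k = 0 then 1 else 0) - (if k = 1 then 1 else 0)
      ≤ (k : ℝ) * e2 ^ k + 2 * K * (1 - e2) + (4 / K) * ((k : ℝ) * r ^ k) + 6 * (1 - r ^ k) := by
  have hK0 : (0 : ℝ) < K := by exact_mod_cast hK
  have hK1 : (1 : ℝ) ≤ K := by exact_mod_cast hK
  have ht1 : 0 ≤ (k : ℝ) * e2 ^ k := by positivity
  have ht2 : 0 ≤ 2 * (K : ℝ) * (1 - e2) := by
    apply mul_nonneg (by positivity) (by linarith)
  have ht3 : 0 ≤ (4 / (K : ℝ)) * ((k : ℝ) * r ^ k) := by positivity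
  have ht4 : 0 ≤ 6 * (1 - r ^ k) := by
    have := pow_le_one₀ (n := k) hr0 hr1
    linarith
  rcases Nat.eq_zero_or_pos k with h0 | h0
  · subst h0
    simp
    nlinarith
  have hk1 : k ≠ 0 := by omega
  by_cases h1 : k = 1
  · subst h1
    simp
    nlinarith
  have hk2 : 2 ≤ k := by omega
  simp only [hk1, h1, if_false]
  rcases le_or_gt k K with hle | hgt
  · -- low levels
    have hk2' : (2 : ℝ) ≤ k := by exact_mod_cast hk2
    have hkK : (k : ℝ) ≤ K := by exact_mod_cast hle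
    have hb := one_add_mul_le_pow (a := e2 - 1) (by linarith) k
    have e : 1 + (e2 - 1) = e2 := by ring
    rw [e] at hb
    have hp : 0 ≤ e2 ^ k := pow_nonneg he0 k
    have h3 : 2 * e2 ^ k ≤ (k : ℝ) * e2 ^ k := mul_le_mul_of_nonneg_right hk2' hp
    have h4 : (k : ℝ) * (1 - e2) ≤ K * (1 - e2) := mul_le_mul_of_nonneg_right hkK (by linarith)
    nlinarith
  · -- high levels
    have hkK : (K : ℝ) ≤ k := by exact_mod_cast hgt.le
    rcases le_or_gt ((k : ℝ) * (1 - r)) (1 / 2) with hs | hs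
    · have hb := one_add_mul_le_pow (a := r - 1) (by linarith) k
      have e : 1 + (r - 1) = r := by ring
      rw [e] at hb
      have h3 : 1 / 2 ≤ r ^ k := by nlinarith
      have h4 : (K : ℝ) * (1 / 2) ≤ (k : ℝ) * r ^ k :=
        mul_le_mul hkK h3 (by norm_num) (by positivity)
      have h5 : (4 / (K : ℝ)) * ((K : ℝ) * (1 / 2)) ≤ (4 / (K : ℝ)) * ((k : ℝ) * r ^ k) :=
        mul_le_mul_of_nonneg_left h4 (by positivity)
      have e2' : (4 / (K : ℝ)) * ((K : ℝ) * (1 / 2)) = 2 := by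
        field_simp
        norm_num
      linarith
    · have h3 : r ≤ exp (-(1 - r)) := by
        have := Real.add_one_le_exp (-(1 - r))
        linarith
      have h4 : r ^ k ≤ exp (-(1 - r)) ^ k := pow_le_pow_left₀ hr0 h3 k
      rw [← Real.exp_nat_mul] at h4
      have h5 : exp ((k : ℝ) * -(1 - r)) ≤ exp (-(1 / 2)) := by
        apply Real.exp_le_exp.mpr
        linarith
      have h6 : exp (-(1 / 2) : ℝ) ≤ 2 / 3 := by
        rw [Real.exp_neg, inv_le_comm₀ (exp_pos _) (by norm_num)]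
        have := Real.add_one_le_exp (1 / 2 : ℝ)
        norm_num at this ⊢
        linarith
      have h7 : r ^ k ≤ 2 / 3 := h4.trans (h5.trans h6)
      linarith

/-- The spectral inequality. -/
lemma far_spectral {ρ η : ℝ} {n : ℕ} {f : Cube n → ℝ} (hf : IsBool f) (hr1 : ρ * ρ ≤ 1)
    (he0 : 0 ≤ η * η) (he1 : η * η ≤ 1) {K : ℕ} (hK : 1 ≤ K) :
    2 * (1 - avg f ^ 2) - W1 f
      ≤ En (T η f) + 2 * K * (1 - η * η) + (4 / K) * En (T ρ f)
        + 6 * avg (fun y => 1 - T ρ f y ^ 2) := by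
  have h := Q_mono (n := n) (m₁ := fun k => 2 - 2 * (if k = 0 then 1 else 0) - (if k = 1 then 1 else 0))
    (m₂ := fun k => (k : ℝ) * (η * η) ^ k + 2 * K * (1 - η * η) + (4 / K) * ((k : ℝ) * (ρ * ρ) ^ k)
      + 6 * (1 - (ρ * ρ) ^ k))
    (fun k => multiplier_main (mul_self_nonneg ρ) hr1 he0 he1 hK k) f
  have hone : Qb n (fun _ => 1) f f = 1 := by
    rw [Qb_one]
    have : (fun x => f x * f x) = fun _ => (1 : ℝ) := by
      funext x
      have := hf.sq x
      nlinarith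
    rw [this, avg_const]
  have hc : ∀ c : ℝ, Qb n (fun _ => c) f f = c := by
    intro c
    have := Qb_mult_smul (n := n) c (fun _ => 1) f f
    simp only [mul_one] at this
    rw [this, hone, mul_one]
  have hL : Qb n (fun k => 2 - 2 * (if k = 0 then 1 else 0) - (if k = 1 then 1 else 0)) f f
      = 2 - 2 * avg f ^ 2 - W1 f := by
    have e : (fun k : ℕ => (2 : ℝ) - 2 * (if k = 0 then 1 else 0) - (if k = 1 then 1 else 0))
        = fun k => (fun _ => (2 : ℝ)) k + ((-2) * (if k = 0 then 1 else 0)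
            + (-1) * (if k = 1 then 1 else 0)) := by
      funext k
      ring
    rw [e, Qb_mult_add, Qb_mult_add, Qb_mult_smul, Qb_mult_smul, hc, Q_level0, Q_level1]
    ring
  have hE1 : ∀ θ : ℝ, En (T θ f) = Qb n (fun k => (k : ℝ) * (θ * θ) ^ k) f f := by
    intro θ
    rw [← Q_En, Qb_T]
  have hE2 : avg (fun y => 1 - T ρ f y ^ 2) = Qb n (fun k => 1 - (ρ * ρ) ^ k) f f := by
    have e0 : (fun k : ℕ => 1 - (ρ * ρ) ^ k)
        = fun k => (fun _ => (1 : ℝ)) k + (-1) * (ρ * ρ) ^ k := by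
      funext k
      ring
    rw [e0, Qb_mult_add, Qb_mult_smul, hc, avg_sub, avg_const]
    have e1 : avg (fun y => T ρ f y ^ 2) = Qb n (fun k => (ρ * ρ) ^ k) f f := by
      have h1 := Qb_one (T ρ f) (T ρ f)
      rw [Qb_T] at h1
      simp only [one_mul] at h1
      rw [h1]
      apply avg_congr
      intro x
      ring
    rw [e1]
    ring
  have hR : Qb n (fun k => (k : ℝ) * (η * η) ^ k + 2 * K * (1 - η * η) + (4 / K) * ((k : ℝ) * (ρ * ρ) ^ k)
      + 6 * (1 - (ρ * ρ) ^ k)) f f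
      = En (T η f) + 2 * K * (1 - η * η) + (4 / K) * En (T ρ f)
        + 6 * avg (fun y => 1 - T ρ f y ^ 2) := by
    rw [hE1, hE1, hE2]
    have e3 := Qb_mult_add (n := n) (fun k => (k : ℝ) * (η * η) ^ k + 2 * K * (1 - η * η) + (4 / K) * ((k : ℝ) * (ρ * ρ) ^ k))
      (fun k => 6 * (1 - (ρ * ρ) ^ k)) f f
    rw [e3]
    have e4 := Qb_mult_add (n := n) (fun k => (k : ℝ) * (η * η) ^ k + 2 * K * (1 - η * η))
      (fun k => (4 / K) * ((k : ℝ) * (ρ * ρ) ^ k)) f f
    rw [e4]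
    have e5 := Qb_mult_add (n := n) (fun k => (k : ℝ) * (η * η) ^ k)
      (fun _ => 2 * K * (1 - η * η)) f f
    rw [e5, hc, Qb_mult_smul, Qb_mult_smul]
  rw [hL, hR] at h
  linarith

end Vale.Agent.Lib.P322
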