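import Vale.Agent.Lib.P322.FarCase

/-!
The case of Boolean functions without large level-one coefficients: the conclusion.
-/

namespace Vale.Agent.Lib.P322

open Real

lemma En_T_eq {n : ℕ} (θ : ℝ) (f : Cube n → ℝ) :
    En (T θ f) = Qb n (fun k => (k : ℝ) * (θ * θ) ^ k) f f := by
  rw [← Q_En, Qb_T]

lemma En_T_le {n : ℕ} {ρ η : ℝ} (h0 : 0 ≤ η * η) (h1 : η * η ≤ ρ * ρ) (f : Cube n → ℝ) :
    En (T η f) ≤ En (T ρ f) := by
  rw [En_T_eq, En_T_eq]
  apply Q_mono
  intro k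
  apply mul_le_mul_of_nonneg_left _ (Nat.cast_nonneg k)
  exact pow_le_pow_left₀ h0 h1 k

lemma orth_T {n : ℕ} {ρ η : ℝ} (h0 : 0 ≤ η) (h1 : η ≤ ρ) (f : Cube n → ℝ) :
    En (T η f) ≤ Qb n (fun k => (k : ℝ)) (T ρ f) (T η f) := by
  rw [En_T_eq, Qb_T]
  apply Q_mono
  intro k
  apply mul_le_mul_of_nonneg_left _ (Nat.cast_nonneg k)
  apply pow_le_pow_left₀ (mul_self_nonneg η)
  exact mul_le_mul_of_nonneg_right h1 h0

lemma Q2_T_le {n : ℕ} {ρ η β : ℝ} (hβ0 : 0 < β) (hβ1 : β ≤ 1) (he : η * η = ρ * ρ * (1 - β))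
    (f : Cube n → ℝ) : Q2 (T η f) ≤ (1 / β) * En (T ρ f) := by
  unfold Q2
  rw [En_T_eq, ← Qb_mult_smul, Qb_T]
  apply Q_mono
  intro k
  rw [he, mul_pow]
  have h1 := pow_mul_le_inv hβ0 hβ1 k
  have h2 : 0 ≤ (1 - β) ^ k := pow_nonneg (by linarith) k
  have h3 : ((k : ℝ) - 1) * (1 - β) ^ k ≤ 1 / β := by nlinarith
  have hr : 0 ≤ (ρ * ρ) ^ k := pow_nonneg (mul_self_nonneg ρ) k
  have hk : (0 : ℝ) ≤ k := Nat.cast_nonneg k
  have h4 := mul_le_mul_of_nonneg_left h3 (mul_nonneg hk hr)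
  calc (k : ℝ) * ((k : ℝ) - 1) * ((ρ * ρ) ^ k * (1 - β) ^ k)
      = (k : ℝ) * (ρ * ρ) ^ k * (((k : ℝ) - 1) * (1 - β) ^ k) := by ring
    _ ≤ (k : ℝ) * (ρ * ρ) ^ k * (1 / β) := h4
    _ = 1 / β * ((k : ℝ) * (ρ * ρ) ^ k) := by ring

/-- The energy of `g` on the complement of a small set. -/
lemma bulk_energy {n : ℕ} (w g χ : Cube n → ℝ) (hχ : ∀ x, χ x = 0 ∨ χ x = 1)
    (hO : En g ≤ Qb n (fun k => (k : ℝ)) w g) :
    En g - avg (fun y => gradSq n g y * χ y)
        - 2 * √(avg (fun y => gradSq n g y * χ y) * En w)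
      ≤ avg (fun y => gradSq n w y * (1 - χ y)) := by
  set h : Cube n → ℝ := fun x => w x - g x with hh
  have hEh : En h = En w - 2 * Qb n (fun k => (k : ℝ)) w g + En g := by
    rw [← Qb_En_add w g, Q_En]
  have hEg0 := En_nonneg g
  have hEh2 : En h ≤ En w := by linarith
  have hw : w = fun z => 1 * g z + 1 * h z := by
    funext z
    simp only [hh]
    ring
  have hpt : ∀ y, gradSq n w y - gradSq n g y - gradSq n h y
      ≤ 2 * (√(gradSq n g y) * √(gradSq n h y)) := by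
    intro y
    have h1 := sqrt_gradSq_add_le g h (α := 1) (β := 1) (by norm_num) (by norm_num) y
    rw [← hw] at h1
    simp only [one_mul] at h1
    have h2 := pow_le_pow_left₀ (Real.sqrt_nonneg _) h1 2
    rw [Real.sq_sqrt (gradSq_nonneg _ _)] at h2
    have h3 := Real.sq_sqrt (gradSq_nonneg g y)
    have h4 := Real.sq_sqrt (gradSq_nonneg h y)
    nlinarith
  have hχ0 : ∀ x, 0 ≤ χ x := fun x => by
    rcases hχ x with h | h <;> rw [h] <;> norm_num
  have hχ1 : ∀ x, 0 ≤ 1 - χ x := fun x => by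
    rcases hχ x with h | h <;> rw [h] <;> norm_num
  have hχs : ∀ x, χ x * χ x = χ x := fun x => by
    rcases hχ x with h | h <;> rw [h] <;> norm_num
  set e := avg (fun y => gradSq n g y * χ y) with he
  have he0 : 0 ≤ e := avg_nonneg (fun y => mul_nonneg (gradSq_nonneg _ _) (hχ0 y))
  have hP0 : 0 ≤ avg (fun y => gradSq n w y - gradSq n g y - gradSq n h y) := by
    rw [avg_sub, avg_sub]
    change 0 ≤ En w - En g - En h
    rw [hEh]
    linarith
  -- the Cauchy-Schwarz estimate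
  have hCS : avg (fun y => √(gradSq n g y) * √(gradSq n h y) * χ y) ≤ √(e * En w) := by
    apply Real.le_sqrt_of_sq_le
    have h1 := avg_mul_sq_le (fun y => √(gradSq n g y) * χ y) (fun y => √(gradSq n h y) * χ y)
    have e1 : (fun y => √(gradSq n g y) * χ y * (√(gradSq n h y) * χ y))
        = fun y => √(gradSq n g y) * √(gradSq n h y) * χ y := by
      funext y
      have := hχs y
      calc √(gradSq n g y) * χ y * (√(gradSq n h y) * χ y)
          = √(gradSq n g y) * √(gradSq n h y) * (χ y * χ y) := by ring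
        _ = _ := by rw [this]
    have e2 : (fun y => (√(gradSq n g y) * χ y) ^ 2) = fun y => gradSq n g y * χ y := by
      funext y
      rw [mul_pow, Real.sq_sqrt (gradSq_nonneg _ _), sq, hχs]
    have e3 : avg (fun y => (√(gradSq n h y) * χ y) ^ 2) ≤ En w := by
      refine le_trans ?_ hEh2
      apply avg_mono
      intro y
      rw [mul_pow, Real.sq_sqrt (gradSq_nonneg _ _), sq, hχs]
      rcases hχ y with h | h <;> rw [h] <;> simp [gradSq_nonneg]
    rw [e1, e2] at h1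
    refine h1.trans ?_
    exact mul_le_mul_of_nonneg_left e3 he0
  -- split the average
  have hsplit : ∀ y, gradSq n w y * (1 - χ y)
      ≥ gradSq n g y - gradSq n g y * χ y
        + ((gradSq n w y - gradSq n g y - gradSq n h y)
        - 2 * (√(gradSq n g y) * √(gradSq n h y) * χ y)) := by
    intro y
    have h1 := hpt y
    have h2 := hχ y
    have h3 := gradSq_nonneg h y
    rcases h2 with h2 | h2
    · rw [h2]
      have : 0 ≤ √(gradSq n g y) * √(gradSq n h y) := by positivity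
      nlinarith
    · rw [h2]
      nlinarith
  have h5 := avg_mono hsplit
  have e5 : avg (fun y => gradSq n g y - gradSq n g y * χ y
        + ((gradSq n w y - gradSq n g y - gradSq n h y)
        - 2 * (√(gradSq n g y) * √(gradSq n h y) * χ y)))
      = En g - e + (avg (fun y => gradSq n w y - gradSq n g y - gradSq n h y)
        - 2 * avg (fun y => √(gradSq n g y) * √(gradSq n h y) * χ y)) := by
    rw [avg_add, avg_sub, avg_sub, avg_mul_left]
    rfl
  rw [e5] at h5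
  linarith

lemma log_le_two_sqrt {z : ℝ} (hz : 0 < z) : log z ≤ 2 * √z := by
  have h1 := Real.log_le_sub_one_of_pos (Real.sqrt_pos.mpr hz)
  rw [Real.log_sqrt hz.le] at h1
  linarith

lemma H_small {b : ℝ} (h0 : 0 < b) (h1 : b ≤ 1) : H b ≤ 3 * √b := by
  have h2 := H_upper h0 h1
  have h3 := log_le_two_sqrt (z := 4 / b) (by positivity)
  have hs : √(4 / b) = 2 / √b := by
    rw [Real.sqrt_div (by norm_num), show (4 : ℝ) = 2 ^ 2 by norm_num, Real.sqrt_sq (by norm_num)]
  rw [hs] at h3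
  have hsb : 0 < √b := Real.sqrt_pos.mpr h0
  have hsb2 : √b * √b = b := Real.mul_self_sqrt h0.le
  have hsb1 : √b ≤ 1 := Real.sqrt_le_one.mpr h1
  have h4 : b / 4 * (1 + b) ≤ b / 2 := by nlinarith
  have h5 : 0 ≤ log (4 / b) + 1 := by
    have : 1 ≤ 4 / b := by
      rw [le_div_iff₀ h0]
      linarith
    have := Real.log_nonneg this
    linarith
  calc H b ≤ b / 4 * (1 + b) * (log (4 / b) + 1) := h2
    _ ≤ b / 2 * (log (4 / b) + 1) := mul_le_mul_of_nonneg_right h4 h5
    _ ≤ b / 2 * (2 * (2 / √b) + 1) := by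
        apply mul_le_mul_of_nonneg_left _ (by positivity)
        linarith
    _ = 2 * (b / √b) + b / 2 := by ring
    _ = 2 * √b + b / 2 := by
        congr 2
        rw [div_eq_iff hsb.ne']
        exact hsb2.symm
    _ ≤ 3 * √b := by nlinarith

/-- The smoothing parameter. -/
noncomputable def etaOf (ρ : ℝ) : ℝ := ρ * √(1 - 1 / 4000000)

lemma etaOf_sq (ρ : ℝ) : etaOf ρ * etaOf ρ = ρ * ρ * (1 - 1 / 4000000) := by
  have hsq1 : √(1 - 1 / 4000000 : ℝ) * √(1 - 1 / 4000000) = 1 - 1 / 4000000 :=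
    Real.mul_self_sqrt (by norm_num)
  unfold etaOf
  calc ρ * √(1 - 1 / 4000000) * (ρ * √(1 - 1 / 4000000))
      = ρ * ρ * (√(1 - 1 / 4000000) * √(1 - 1 / 4000000)) := by ring
    _ = _ := by rw [hsq1]

lemma etaOf_nonneg {ρ : ℝ} (hρ0 : 0 ≤ ρ) : 0 ≤ etaOf ρ :=
  mul_nonneg hρ0 (Real.sqrt_nonneg _)

lemma etaOf_le {ρ : ℝ} (hρ0 : 0 ≤ ρ) : etaOf ρ ≤ ρ := by
  unfold etaOf
  exact mul_le_of_le_one_right hρ0 (Real.sqrt_le_one.mpr (by norm_num))

/-- The energy of the smoothed function is large. -/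
lemma far_energy {ρ : ℝ} (hρ0 : 0 ≤ ρ) (hρ1 : ρ ≤ 1) (hb3 : 1 - ρ ^ 2 ≤ 1 / 10 ^ 8) {n : ℕ}
    {f : Cube n → ℝ} (hf : IsBool f) (hW : W1 f < 4 / 5) (hμ : avg f ^ 2 ≤ 1 / 20)
    (hEw : En (T ρ f) < 12) (hp : avg (fun y => 1 - T ρ f y ^ 2) ≤ 1 / 10 ^ 5) :
    108 / 100 ≤ En (T (etaOf ρ) f) := by
  have hηη := etaOf_sq ρ
  have hrr : ρ * ρ ≤ 1 := by nlinarith
  have hr0 : 0 ≤ ρ * ρ := mul_self_nonneg ρ
  have hηη1 : etaOf ρ * etaOf ρ ≤ 1 := by
    rw [hηη]
    nlinarith
  have hspec := far_spectral (ρ := ρ) (η := etaOf ρ) hf hrr (mul_self_nonneg _) hηη1 (K := 4800)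
    (by norm_num)
  have h1 : 1 - etaOf ρ * etaOf ρ ≤ (1 - ρ ^ 2) + 1 / 4000000 := by
    rw [hηη]
    have : ρ * ρ = ρ ^ 2 := by ring
    rw [this]
    nlinarith [sq_nonneg ρ]
  push_cast at hspec
  have hE0 := En_nonneg (T ρ f)
  norm_num at hb3 h1 hp hspec ⊢
  nlinarith

/-- The indicator of the set where `N` is large. -/
noncomputable def chiN {n : ℕ} (ρ N₁ : ℝ) (f : Cube n → ℝ) (y : Cube n) : ℝ :=
  if N₁ < NN ρ f y then 1 else 0

lemma chiN_values {n : ℕ} (ρ N₁ : ℝ) (f : Cube n → ℝ) (y : Cube n) :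
    chiN ρ N₁ f y = 0 ∨ chiN ρ N₁ f y = 1 := by
  unfold chiN
  split_ifs <;> simp

lemma chiN_nonneg {n : ℕ} (ρ N₁ : ℝ) (f : Cube n → ℝ) (y : Cube n) : 0 ≤ chiN ρ N₁ f y := by
  rcases chiN_values ρ N₁ f y with h | h <;> rw [h] <;> norm_num

lemma chiN_avg {n : ℕ} {ρ N₁ : ℝ} (hρ : |ρ| ≤ 1) {f : Cube n → ℝ} (hf : IsBool f)
    (hN₁0 : 0 < N₁) (hD : avg (NN ρ f) < 12) : avg (chiN ρ N₁ f) ≤ 12 / N₁ := by
  have h1 : avg (chiN ρ N₁ f) ≤ avg (fun y => (1 / N₁) * NN ρ f y) := by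
    apply avg_mono
    intro y
    unfold chiN
    split_ifs with h
    · rw [one_div, inv_mul_eq_div, le_div_iff₀ hN₁0]
      linarith
    · have := NN_nonneg hρ hf y
      positivity
  rw [avg_mul_left] at h1
  have h2 : (1 / N₁) * avg (NN ρ f) ≤ (1 / N₁) * 12 :=
    mul_le_mul_of_nonneg_left hD.le (by positivity)
  calc avg (chiN ρ N₁ f) ≤ _ := h1
    _ ≤ _ := h2
    _ = 12 / N₁ := by ring

/-- The energy of the smoothed function on the small set is small. -/
lemma far_small {ρ : ℝ} (hρ0 : 0 ≤ ρ) (hρ1 : ρ ≤ 1) {n : ℕ} {f : Cube n → ℝ} (hf : IsBool f)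
    (hD : avg (NN ρ f) < 12) (hEw : En (T ρ f) < 12) :
    avg (fun y => gradSq n (T (etaOf ρ) f) y * chiN ρ (exp (7 * 10 ^ 12)) f y) ≤ 14 / 10 ^ 6 := by
  have hρ : |ρ| ≤ 1 := by rw [abs_of_nonneg hρ0]; exact hρ1
  set N₁ : ℝ := exp (7 * 10 ^ 12) with hN₁
  have hN₁0 : 0 < N₁ := exp_pos _
  set χ := chiN ρ N₁ f with hχ
  set g := T (etaOf ρ) f with hg
  have hχv := chiN_values ρ N₁ f
  have hχ0 := chiN_nonneg ρ N₁ f
  have hP := chiN_avg hρ hf hN₁0 hD
  have hP0 : 0 ≤ avg χ := avg_nonneg hχ0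
  set e := avg (fun y => gradSq n g y * χ y) with he
  have he0 : 0 ≤ e := avg_nonneg (fun y => mul_nonneg (gradSq_nonneg _ _) (hχ0 y))
  rcases hP0.eq_or_lt with h0 | hPpos
  · have hz : ∀ y, χ y = 0 := avg_eq_zero_fun hχ0 h0.symm
    have : (fun y => gradSq n g y * χ y) = fun _ => 0 := by
      funext y
      rw [hz y]
      ring
    rw [he, this, avg_const]
    positivity
  · have hconc := conc_Ent (A := gradSq n g) (χ := χ) (fun y => gradSq_nonneg _ _) hχv hPpos
    have hEnt := Ent_gradSq_le g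
    have hQ2 : Q2 g ≤ (1 / (1 / 4000000)) * En (T ρ f) :=
      Q2_T_le (by norm_num) (by norm_num) (etaOf_sq ρ) f
    have hEgw : En g ≤ En (T ρ f) := En_T_le (mul_self_nonneg _) (by
      rw [etaOf_sq]
      have : 0 ≤ ρ * ρ := mul_self_nonneg ρ
      nlinarith) f
    have hlog : 69 * 10 ^ 11 ≤ log (1 / avg χ) := by
      have h1 : N₁ / 12 ≤ 1 / avg χ := by
        rw [div_le_div_iff₀ (by norm_num) hPpos]
        have : avg χ * N₁ ≤ 12 := by
          have h2 := mul_le_mul_of_nonneg_right hP hN₁0.le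
          rwa [div_mul_cancel₀ _ hN₁0.ne'] at h2
        linarith
      have h2 := Real.log_le_log (by positivity) h1
      rw [Real.log_div hN₁0.ne' (by norm_num), hN₁, Real.log_exp] at h2
      have h3 : log 12 ≤ 11 := by
        have := Real.log_le_sub_one_of_pos (by norm_num : (0 : ℝ) < 12)
        linarith
      norm_num at h2 ⊢
      linarith
    have h4 : e * (69 * 10 ^ 11) ≤ e * log (1 / avg χ) := mul_le_mul_of_nonneg_left hlog he0
    have h7 : avg (gradSq n g) = En g := rfl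
    rw [h7] at hconc
    rw [← he] at hconc
    generalize log (1 / avg χ) = ll at *
    generalize En (T ρ f) = E1 at *
    generalize En g = E2 at *
    generalize Ent (gradSq n g) = E3 at *
    generalize Q2 g = E4 at *
    norm_num at h4 hQ2 ⊢
    linarith

/-- The pointwise lower bound on the complement of the small set. -/
lemma far_pointwise {ρ c : ℝ} (hρ : |ρ| ≤ 1) (hb : 0 < 1 - ρ ^ 2) {n : ℕ} {f : Cube n → ℝ}
    (hf : IsBool f) {N₁ : ℝ} (hc1 : 1 ≤ c) (hu : (1 - ρ ^ 2) * N₁ = exp (-c)) (y : Cube n) :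
    ((1 - ρ ^ 2) / 4 * c) * (gradSq n (T ρ f) y * (1 - chiN ρ N₁ f y))
      ≤ H (1 - T ρ f y ^ 2) := by
  set b := 1 - ρ ^ 2 with hbdef
  set w := T ρ f with hwdef
  have hp0 := one_sub_T_sq_nonneg hρ hf y
  have hp1 : 1 - w y ^ 2 ≤ 1 := by nlinarith [sq_nonneg (w y)]
  have hH0 := H_nonneg hp0 hp1
  unfold chiN
  split_ifs with h
  · simpa using hH0
  · have hN := not_lt.mp h
    have hNN0 := NN_nonneg hρ hf y
    have hX := b_NN_le hρ hf y
    rw [← hbdef, ← hwdef] at hX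
    set X := b * NN ρ f y with hXdef
    have hX0 : 0 ≤ X := mul_nonneg hb.le hNN0
    have hu' : X ≤ exp (-c) := by
      rw [← hu]
      exact mul_le_mul_of_nonneg_left hN hb.le
    have hexpc : exp (-c) ≤ 1 / 2 := by
      have h1 : exp (-c) ≤ exp (-1) := Real.exp_le_exp.mpr (by linarith)
      have h2 : exp (-1 : ℝ) ≤ 1 / 2 := by
        rw [Real.exp_neg, inv_eq_one_div]
        apply one_div_le_one_div_of_le (by norm_num)
        have := Real.add_one_le_exp (1 : ℝ)
        linarith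
      linarith
    have hG : gradSq n w y ≤ NN ρ f y := by
      have : 0 ≤ 1 - w y ^ 2 := hp0
      unfold NN
      rw [← hwdef]
      linarith
    have hHX : H X ≤ H (1 - w y ^ 2) := H_mono hX0 hX hp1
    rcases hX0.eq_or_lt with hz | hXpos
    · have h1 : b * gradSq n w y ≤ 0 := by
        have := mul_le_mul_of_nonneg_left hG hb.le
        linarith
      have h2 : (b / 4 * c) * (gradSq n w y * (1 - 0)) = (c / 4) * (b * gradSq n w y) := by ring
      rw [h2]
      have h3 : (c / 4) * (b * gradSq n w y) ≤ 0 :=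
        mul_nonpos_of_nonneg_of_nonpos (by positivity) h1
      linarith
    · have hlow := H_lower hXpos (by linarith)
      have hlog : c ≤ log (4 / X) := by
        have h1 : exp c ≤ 4 / X := by
          rw [le_div_iff₀ hXpos]
          have h2 := mul_le_mul_of_nonneg_left hu' (exp_pos c).le
          rw [← Real.exp_add, add_neg_cancel, Real.exp_zero] at h2
          linarith
        have h2 := Real.log_le_log (exp_pos c) h1
        rwa [Real.log_exp] at h2
      have h3 : X / 4 * c ≤ X / 4 * (log (4 / X) + 1) :=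
        mul_le_mul_of_nonneg_left (by linarith) (by positivity)
      have h4 : (b * gradSq n w y) / 4 * c ≤ X / 4 * c := by
        apply mul_le_mul_of_nonneg_right _ (by linarith)
        have := mul_le_mul_of_nonneg_left hG hb.le
        linarith
      have h5 : (b / 4 * c) * (gradSq n w y * (1 - 0)) = (b * gradSq n w y) / 4 * c := by ring
      rw [h5]
      linarith

/-- The final numerical contradiction. -/
lemma far_numeric {b c Λb : ℝ} (hb : 0 < b) (hb1 : b ≤ 1 / 10 ^ 8) (hΛb : Λb = log (1 / b))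
    (hΛb1 : 2 * 10 ^ 14 ≤ Λb) (hc : c = Λb - 7 * 10 ^ 12)
    (hfinal : (b / 4 * c) * (105 / 100) ≤ H b) : False := by
  have hb1' : b ≤ 1 := hb1.trans (by norm_num)
  have hup := H_upper hb hb1'
  have hlog4 : log (4 / b) = Λb + log 4 := by
    rw [hΛb, Real.log_div (by norm_num) hb.ne', one_div, Real.log_inv]
    ring
  have hlog4' : log 4 ≤ 3 := by
    have := Real.log_le_sub_one_of_pos (by norm_num : (0 : ℝ) < 4)
    linarith
  rw [hlog4] at hup
  have hcontra : c * (105 / 100) ≤ (1 + b) * (Λb + log 4 + 1) := by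
    have h1 : (b / 4) * (c * (105 / 100)) ≤ (b / 4) * ((1 + b) * (Λb + log 4 + 1)) := by
      calc (b / 4) * (c * (105 / 100)) = (b / 4 * c) * (105 / 100) := by ring
        _ ≤ H b := hfinal
        _ ≤ _ := hup
        _ = _ := by ring
    exact le_of_mul_le_mul_left h1 (by positivity)
  have hsb0 : 0 < √b := Real.sqrt_pos.mpr hb
  have hsb2 : √b * √b = b := Real.mul_self_sqrt hb.le
  have hsb1 : √b ≤ 1 := Real.sqrt_le_one.mpr hb1'
  have hbΛ : b * Λb ≤ 2 := by
    have h1 := log_le_two_sqrt (z := 1 / b) (by positivity)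
    have hs : √(1 / b) = 1 / √b := by
      rw [Real.sqrt_div (by norm_num), Real.sqrt_one]
    rw [hs, ← hΛb] at h1
    have h2 : b * Λb ≤ b * (2 * (1 / √b)) := mul_le_mul_of_nonneg_left h1 hb.le
    have h3 : b * (2 * (1 / √b)) = 2 * √b := by
      have h4 : b / √b = √b := by
        rw [div_eq_iff hsb0.ne']
        exact hsb2.symm
      calc b * (2 * (1 / √b)) = 2 * (b / √b) := by ring
        _ = 2 * √b := by rw [h4]
    rw [h3] at h2
    linarith
  have hlog4'' : 0 ≤ log 4 := Real.log_nonneg (by norm_num)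
  rw [hc] at hcontra
  norm_num at hb1 hΛb1 hcontra
  nlinarith

/-- **The far case.** -/
theorem far_case {ρ : ℝ} (hρ0 : 0 ≤ ρ) (hρ1 : ρ ≤ 1) (hb : 0 < 1 - ρ ^ 2)
    (hb2 : 1 - ρ ^ 2 ≤ exp (-(2 * 10 ^ 14))) {n : ℕ} {f : Cube n → ℝ} (hf : IsBool f)
    (hW : W1 f < 4 / 5) (hμ : avg f ^ 2 ≤ 1 / 20) :
    avg (fun y => phi (T ρ f y)) - phi (avg f) ≤ phi ρ := by
  by_contra hcon
  have hcon' := not_le.mp hcon
  have hρ : |ρ| ≤ 1 := by rw [abs_of_nonneg hρ0]; exact hρ1
  set b := 1 - ρ ^ 2 with hbdef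
  set w := T ρ f with hwdef
  have hb1 : b ≤ 1 := by rw [hbdef]; nlinarith [sq_nonneg ρ]
  have hHb : H b = log 2 - phi ρ := by rw [hbdef, H_one_sub_sq]
  have hμ1 : |avg f| ≤ 1 := abs_avg_le_one (fun x => hf.abs_le x)
  have hφμ := phi_nonneg hμ1
  have havgH : avg (fun y => H (1 - w y ^ 2)) = log 2 - avg (fun y => phi (w y)) := by
    have : (fun y => H (1 - w y ^ 2)) = fun y => log 2 - phi (w y) := by
      funext y
      rw [H_one_sub_sq]
    rw [this, avg_sub, avg_const]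
  have hfail : avg (fun y => H (1 - w y ^ 2)) < H b - phi (avg f) := by
    rw [havgH, hHb]
    linarith
  have hD := far_A hρ hb hf hfail
  have hEw : En w < 12 := by
    refine lt_of_le_of_lt ?_ hD
    apply avg_mono
    intro y
    have := one_sub_T_sq_nonneg hρ hf y
    unfold NN
    linarith
  have hEw0 := En_nonneg w
  -- smallness of `b`
  have hexp : exp (-(2 * 10 ^ 14 : ℝ)) ≤ 1 / (2 * 10 ^ 14) := by
    rw [Real.exp_neg, inv_eq_one_div]
    apply one_div_le_one_div_of_le (by norm_num)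
    have := Real.add_one_le_exp (2 * 10 ^ 14 : ℝ)
    linarith
  have hb3 : b ≤ 1 / (2 * 10 ^ 14) := hb2.trans hexp
  have hb4 : b ≤ 1 / 10 ^ 8 := hb3.trans (by norm_num)
  have hsb : √b ≤ 1 / 10 ^ 7 := by
    rw [Real.sqrt_le_iff]
    constructor
    · positivity
    · refine hb3.trans ?_
      norm_num
  have hHsmall : H b ≤ 3 / 10 ^ 7 := by
    have := H_small hb hb1
    linarith
  -- the average of `p`
  have hp : avg (fun y => 1 - w y ^ 2) ≤ 1 / 10 ^ 5 := by
    have h1 : avg (fun y => (1 - w y ^ 2) / 2) ≤ avg (fun y => H (1 - w y ^ 2)) := by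
      apply avg_mono
      intro y
      exact H_ge_half (one_sub_T_sq_nonneg hρ hf y) (by nlinarith [sq_nonneg (w y)])
    have e : (fun y => (1 - w y ^ 2) / 2) = fun y => (1 / 2) * (1 - w y ^ 2) := by
      funext y; ring
    rw [e, avg_mul_left] at h1
    norm_num at hHsmall ⊢
    linarith
  have hEg := far_energy hρ0 hρ1 hb4 hf hW hμ hEw hp
  have he := far_small hρ0 hρ1 hf hD hEw
  set g := T (etaOf ρ) f with hg
  set N₁ : ℝ := exp (7 * 10 ^ 12) with hN₁
  set χ := chiN ρ N₁ f with hχ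
  have hO : En g ≤ Qb n (fun k => (k : ℝ)) w g := orth_T (etaOf_nonneg hρ0) (etaOf_le hρ0) f
  have hbulk := bulk_energy w g χ (chiN_values ρ N₁ f) hO
  set e := avg (fun y => gradSq n g y * χ y) with hedef
  have he0 : 0 ≤ e := avg_nonneg (fun y => mul_nonneg (gradSq_nonneg _ _) (chiN_nonneg ρ N₁ f y))
  have hsq : √(e * En w) ≤ 13 / 1000 := by
    rw [Real.sqrt_le_iff]
    constructor
    · norm_num
    · norm_num at he
      nlinarith
  have hB₁ : 105 / 100 ≤ avg (fun y => gradSq n w y * (1 - χ y)) := by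
    norm_num at he hEg
    linarith
  set Λb : ℝ := log (1 / b) with hΛb
  have hΛb1 : 2 * 10 ^ 14 ≤ Λb := by
    rw [hΛb, one_div, Real.log_inv]
    have := Real.log_le_log hb hb2
    rw [Real.log_exp] at this
    linarith
  set c := Λb - 7 * 10 ^ 12 with hc
  have hc0 : 1 ≤ c := by
    rw [hc]
    norm_num at hΛb1 ⊢
    linarith
  have hu : b * N₁ = exp (-c) := by
    rw [hc, hN₁, neg_sub, Real.exp_sub, hΛb, one_div, Real.log_inv, Real.exp_neg, Real.exp_log hb]
    field_simp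
  have hpt := far_pointwise hρ hb hf hc0 hu
  rw [← hbdef, ← hwdef] at hpt
  have hav := avg_mono hpt
  rw [avg_mul_left] at hav
  refine far_numeric hb hb4 rfl hΛb1 hc ?_
  have h1 : (b / 4 * c) * (105 / 100) ≤ (b / 4 * c) * avg (fun y => gradSq n w y * (1 - χ y)) :=
    mul_le_mul_of_nonneg_left hB₁ (by positivity)
  linarith

end Vale.Agent.Lib.P322
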