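import Vale.Agent.Lib.P322.Cube

/-!
Level-one coefficients, the second moment of the noise operator and the (2,4) hypercontractive
inequality.
-/

namespace Vale.Agent.Lib.P322

open Finset

/-- The level-one Fourier coefficient at `i`. -/
noncomputable def coef {n : ℕ} (i : Fin n) (g : Cube n → ℝ) : ℝ := avg (fun x => g x * sgn (x i))

/-- The level-one Fourier weight. -/
noncomputable def W1 {n : ℕ} (g : Cube n → ℝ) : ℝ := ∑ i, coef i g ^ 2

lemma coef_same {n : ℕ} (p : Fin (n + 1)) (g : Cube (n + 1) → ℝ) :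
    coef p g = avg (od p g) := by
  unfold coef
  rw [avg_split' p]
  apply avg_congr
  intro x
  simp only [ins_same, sgn_true, sgn_false, od]
  ring

lemma coef_succAbove {n : ℕ} (p : Fin (n + 1)) (i : Fin n) (g : Cube (n + 1) → ℝ) :
    coef (p.succAbove i) g = coef i (ev p g) := by
  unfold coef
  rw [avg_split' p]
  apply avg_congr
  intro x
  simp only [ins_succAbove, ev]
  ring

lemma W1_split {n : ℕ} (p : Fin (n + 1)) (g : Cube (n + 1) → ℝ) :
    W1 g = avg (od p g) ^ 2 + W1 (ev p g) := by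
  unfold W1
  rw [Fin.sum_univ_succAbove _ p, coef_same]
  congr 1
  apply Finset.sum_congr rfl
  intro i _
  rw [coef_succAbove]

lemma avg_T {n : ℕ} (ρ : ℝ) (g : Cube n → ℝ) : avg (T ρ g) = avg g := by
  induction n with
  | zero =>
    have x : Cube 0 := fun i => i.elim0
    rw [avg_zero_dim _ x, avg_zero_dim _ x, T_zero_dim]
  | succ n ih =>
    rw [avg_split 0 (T ρ g), avg_split 0 g]
    simp only [T_ins, sgn_true, sgn_false]
    rw [avg_add, avg_add]
    have h1 : avg (fun x => ρ * 1 * T ρ (od 0 g) x) = ρ * avg (od 0 g) := by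
      have := avg_mul_left (ρ * 1) (T ρ (od 0 g)); rw [ih] at this; rw [this]; ring
    have h2 : avg (fun x => ρ * -1 * T ρ (od 0 g) x) = - ρ * avg (od 0 g) := by
      have := avg_mul_left (ρ * -1) (T ρ (od 0 g)); rw [ih] at this; rw [this]; ring
    rw [h1, h2, ih]
    rw [avg_ev]
    rw [avg_split 0 g]
    ring

/-- The square of the noise operator splits orthogonally. -/
lemma avg_T_sq_split {n : ℕ} (ρ : ℝ) (p : Fin (n + 1)) (g : Cube (n + 1) → ℝ) :
    avg (fun y => T ρ g y ^ 2)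
      = avg (fun y => T ρ (ev p g) y ^ 2) + ρ ^ 2 * avg (fun y => T ρ (od p g) y ^ 2) := by
  rw [avg_split' p (fun y => T ρ g y ^ 2), ← avg_mul_left, ← avg_add]
  apply avg_congr
  intro y
  simp only [T_ins, sgn_true, sgn_false]
  ring

/-- Poincaré-type contraction of the noise operator. -/
lemma avg_T_sq_le_poincare {n : ℕ} {ρ : ℝ} (h0 : ρ ^ 2 ≤ 1) (g : Cube n → ℝ) :
    avg (fun y => T ρ g y ^ 2)
      ≤ avg g ^ 2 + ρ ^ 2 * (avg (fun x => g x ^ 2) - avg g ^ 2) := by
  induction n with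
  | zero =>
    have x : Cube 0 := fun i => i.elim0
    rw [avg_zero_dim _ x, avg_zero_dim _ x, avg_zero_dim _ x, T_zero_dim]
    ring_nf
    nlinarith
  | succ n ih =>
    rw [avg_T_sq_split ρ 0 g, avg_sq_split 0 g, ← avg_ev 0 g]
    have h1 := ih (ev 0 g)
    have h2 := ih (od 0 g)
    have h3 := avg_sq_le (od 0 g)
    have h4 := sq_nonneg ρ
    have h5 : avg (fun y => T ρ (od 0 g) y ^ 2) ≤ avg (fun x => od 0 g x ^ 2) := by
      nlinarith
    nlinarith

/-- The second moment of the noise operator, separating level one. -/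
lemma avg_T_sq_le {n : ℕ} {ρ : ℝ} (h0 : ρ ^ 2 ≤ 1) (g : Cube n → ℝ) :
    avg (fun y => T ρ g y ^ 2)
      ≤ avg g ^ 2 + ρ ^ 2 * W1 g + ρ ^ 4 * (avg (fun x => g x ^ 2) - avg g ^ 2 - W1 g) := by
  induction n with
  | zero =>
    have x : Cube 0 := fun i => i.elim0
    rw [avg_zero_dim _ x, avg_zero_dim _ x, avg_zero_dim _ x, T_zero_dim]
    simp [W1]
  | succ n ih =>
    rw [avg_T_sq_split ρ 0 g, avg_sq_split 0 g, W1_split 0 g, ← avg_ev 0 g]
    have h1 := ih (ev 0 g)
    have h2 := avg_T_sq_le_poincare h0 (od 0 g)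
    have h4 := sq_nonneg ρ
    have h5 := mul_le_mul_of_nonneg_left h2 h4
    nlinarith

/-- Hypercontractivity from 2 to 4. -/
lemma bonami {n : ℕ} {r r' : ℝ} (hr : 3 * r ^ 2 ≤ r' ^ 2) (g : Cube n → ℝ) :
    avg (fun y => T r g y ^ 4) ≤ avg (fun y => T r' g y ^ 2) ^ 2 := by
  induction n with
  | zero =>
    have x : Cube 0 := fun i => i.elim0
    rw [avg_zero_dim _ x, avg_zero_dim _ x, T_zero_dim, T_zero_dim]
    apply le_of_eq; ring
  | succ n ih =>
    have hsplit : avg (fun y => T r g y ^ 4)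
        = avg (fun y => T r (ev 0 g) y ^ 4)
          + 6 * r ^ 2 * avg (fun y => T r (ev 0 g) y ^ 2 * T r (od 0 g) y ^ 2)
          + r ^ 4 * avg (fun y => T r (od 0 g) y ^ 4) := by
      rw [avg_split' 0 (fun y => T r g y ^ 4), ← avg_mul_left, ← avg_mul_left, ← avg_add, ← avg_add]
      apply avg_congr
      intro y
      simp only [T_ins, sgn_true, sgn_false]
      ring
    rw [hsplit, avg_T_sq_split r' 0 g]
    set A := avg (fun y => T r' (ev 0 g) y ^ 2) with hA
    set B := avg (fun y => T r' (od 0 g) y ^ 2) with hB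
    have hA0 : 0 ≤ A := avg_nonneg (fun y => sq_nonneg _)
    have hB0 : 0 ≤ B := avg_nonneg (fun y => sq_nonneg _)
    have h1 := ih (ev 0 g)
    have h2 := ih (od 0 g)
    have hcs : avg (fun y => T r (ev 0 g) y ^ 2 * T r (od 0 g) y ^ 2) ≤ A * B := by
      have h3 := avg_mul_sq_le (fun y => T r (ev 0 g) y ^ 2) (fun y => T r (od 0 g) y ^ 2)
      have h4 : avg (fun y => (T r (ev 0 g) y ^ 2) ^ 2) = avg (fun y => T r (ev 0 g) y ^ 4) := by
        apply avg_congr; intro y; ring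
      have h5 : avg (fun y => (T r (od 0 g) y ^ 2) ^ 2) = avg (fun y => T r (od 0 g) y ^ 4) := by
        apply avg_congr; intro y; ring
      rw [h4, h5] at h3
      have h6 : avg (fun y => T r (ev 0 g) y ^ 4) * avg (fun y => T r (od 0 g) y ^ 4)
          ≤ A ^ 2 * B ^ 2 := by
        apply mul_le_mul h1 h2 (avg_nonneg (fun y => by positivity)) (by positivity)
      have h7 : avg (fun y => T r (ev 0 g) y ^ 2 * T r (od 0 g) y ^ 2) ^ 2 ≤ (A * B) ^ 2 := by
        calc _ ≤ _ := h3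
          _ ≤ A ^ 2 * B ^ 2 := h6
          _ = (A * B) ^ 2 := by ring
      exact abs_le_of_sq_le_sq' h7 (mul_nonneg hA0 hB0) |>.2
    have hr0 : 0 ≤ r ^ 2 := sq_nonneg r
    have hr4 : r ^ 4 ≤ (r' ^ 2) ^ 2 := by
      have : r ^ 4 = (r ^ 2) ^ 2 := by ring
      rw [this]
      apply pow_le_pow_left₀ hr0
      nlinarith
    have h8 : 6 * r ^ 2 * avg (fun y => T r (ev 0 g) y ^ 2 * T r (od 0 g) y ^ 2)
        ≤ 6 * r ^ 2 * (A * B) := mul_le_mul_of_nonneg_left hcs (by positivity)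
    have h9 : r ^ 4 * avg (fun y => T r (od 0 g) y ^ 4) ≤ r ^ 4 * B ^ 2 :=
      mul_le_mul_of_nonneg_left h2 (by positivity)
    have h10 : r ^ 4 * B ^ 2 ≤ (r' ^ 2) ^ 2 * B ^ 2 :=
      mul_le_mul_of_nonneg_right hr4 (by positivity)
    have h11 : 6 * r ^ 2 * (A * B) ≤ 2 * r' ^ 2 * (A * B) :=
      mul_le_mul_of_nonneg_right (by nlinarith) (mul_nonneg hA0 hB0)
    nlinarith

end Vale.Agent.Lib.P322
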