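import Vale.Agent.Lib.P322.TwoPoint
import Vale.Agent.Lib.P322.Bridge

/-!
The squared discrete gradient on the cube, its Minkowski inequality and the reverse Poincare
inequality for the noise operator.
-/

namespace Vale.Agent.Lib.P322

open Real

/-- The squared discrete gradient, defined by recursion on the dimension
(the first coordinate is split off). -/
noncomputable def gradSq : (n : ℕ) → (Cube n → ℝ) → Cube n → ℝ
  | 0, _, _ => 0
  | n + 1, w, x =>
      od 0 w (fun i => x i.succ) ^ 2 + gradSq n (fun z => w (ins 0 (x 0) z)) (fun i => x i.succ)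

lemma gradSq_ins {n : ℕ} (w : Cube (n + 1) → ℝ) (s : Bool) (y : Cube n) :
    gradSq (n + 1) w (ins 0 s y) = od 0 w y ^ 2 + gradSq n (fun z => w (ins 0 s z)) y := by
  have e : (fun i : Fin n => ins 0 s y i.succ) = y := by
    funext i
    have := ins_succAbove (0 : Fin (n + 1)) s y i
    rwa [Fin.succAbove_zero] at this
  simp only [gradSq, e, ins_same]

lemma gradSq_nonneg {n : ℕ} (w : Cube n → ℝ) (x : Cube n) : 0 ≤ gradSq n w x := by
  induction n with
  | zero => simp [gradSq]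
  | succ n ih =>
    unfold gradSq
    have := ih (fun z => w (ins 0 (x 0) z)) (fun i => x i.succ)
    positivity

lemma le_of_sq_le_sq {a b : ℝ} (h : a ^ 2 ≤ b ^ 2) (hb : 0 ≤ b) : a ≤ b :=
  (abs_le_of_sq_le_sq' h hb).2

/-- Minkowski inequality in the plane. -/
lemma minkowski_plane {α β A B C D : ℝ} (hα : 0 ≤ α) (hβ : 0 ≤ β) :
    (α * A + β * B) ^ 2 + (α * C + β * D) ^ 2
      ≤ (α * √(A ^ 2 + C ^ 2) + β * √(B ^ 2 + D ^ 2)) ^ 2 := by
  set P := √(A ^ 2 + C ^ 2) with hP
  set Q := √(B ^ 2 + D ^ 2) with hQ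
  have hP0 : 0 ≤ P := Real.sqrt_nonneg _
  have hQ0 : 0 ≤ Q := Real.sqrt_nonneg _
  have hP2 : P ^ 2 = A ^ 2 + C ^ 2 := Real.sq_sqrt (by positivity)
  have hQ2 : Q ^ 2 = B ^ 2 + D ^ 2 := Real.sq_sqrt (by positivity)
  have hcs : A * B + C * D ≤ P * Q := by
    apply le_of_sq_le_sq _ (by positivity)
    rw [mul_pow, hP2, hQ2]
    nlinarith [sq_nonneg (A * D - B * C)]
  have e : (α * P + β * Q) ^ 2 - ((α * A + β * B) ^ 2 + (α * C + β * D) ^ 2)
      = 2 * (α * β) * (P * Q - (A * B + C * D)) := by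
    have : (α * P + β * Q) ^ 2 = α ^ 2 * P ^ 2 + β ^ 2 * Q ^ 2 + 2 * (α * β) * (P * Q) := by ring
    rw [this, hP2, hQ2]
    ring
  have h0 : 0 ≤ 2 * (α * β) * (P * Q - (A * B + C * D)) :=
    mul_nonneg (by positivity) (by linarith)
  linarith

/-- Minkowski inequality for the discrete gradient. -/
lemma sqrt_gradSq_add_le {n : ℕ} (u v : Cube n → ℝ) {α β : ℝ} (hα : 0 ≤ α) (hβ : 0 ≤ β)
    (x : Cube n) :
    √(gradSq n (fun z => α * u z + β * v z) x)
      ≤ α * √(gradSq n u x) + β * √(gradSq n v x) := by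
  induction n with
  | zero => simp [gradSq]
  | succ n ih =>
    rw [eq_ins 0 x]
    set y : Cube n := fun i => x ((0 : Fin (n + 1)).succAbove i) with hy
    set s := x 0 with hs
    rw [gradSq_ins, gradSq_ins, gradSq_ins]
    have hod : od 0 (fun z => α * u z + β * v z) y = α * od 0 u y + β * od 0 v y := by
      unfold od
      ring
    rw [hod]
    have hih := ih (fun z => u (ins 0 s z)) (fun z => v (ins 0 s z)) y
    set U := gradSq n (fun z => u (ins 0 s z)) y with hU
    set V := gradSq n (fun z => v (ins 0 s z)) y with hV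
    have hU0 : 0 ≤ U := gradSq_nonneg _ _
    have hV0 : 0 ≤ V := gradSq_nonneg _ _
    set W := gradSq n (fun z => α * u (ins 0 s z) + β * v (ins 0 s z)) y with hW
    have hW0 : 0 ≤ W := gradSq_nonneg _ _
    have hW2 : W ≤ (α * √U + β * √V) ^ 2 := by
      have h1 : 0 ≤ √W := Real.sqrt_nonneg _
      have := pow_le_pow_left₀ h1 hih 2
      rwa [Real.sq_sqrt hW0] at this
    have hM := minkowski_plane (α := α) (β := β) (A := od 0 u y) (B := od 0 v y)
      (C := √U) (D := √V) hα hβ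
    rw [Real.sq_sqrt hU0, Real.sq_sqrt hV0] at hM
    apply Real.sqrt_le_iff.mpr
    refine ⟨by positivity, ?_⟩
    linarith

/-- Convexity of the squared gradient. -/
lemma gradSq_convex {n : ℕ} (u v : Cube n → ℝ) {α β : ℝ} (hα : 0 ≤ α) (hβ : 0 ≤ β)
    (hαβ : α + β = 1) (x : Cube n) :
    gradSq n (fun z => α * u z + β * v z) x ≤ α * gradSq n u x + β * gradSq n v x := by
  have h := sqrt_gradSq_add_le u v hα hβ x
  have hW0 := gradSq_nonneg (fun z => α * u z + β * v z) x
  have h2 := pow_le_pow_left₀ (Real.sqrt_nonneg _) h 2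
  rw [Real.sq_sqrt hW0] at h2
  have hU0 := gradSq_nonneg u x
  have hV0 := gradSq_nonneg v x
  have hU := Real.sq_sqrt hU0
  have hV := Real.sq_sqrt hV0
  set a := √(gradSq n u x)
  set b := √(gradSq n v x)
  have e : α * a ^ 2 + β * b ^ 2 - (α * a + β * b) ^ 2 = α * β * (a - b) ^ 2 := by
    have : β = 1 - α := by linarith
    subst this
    ring
  have h3 : 0 ≤ α * β * (a - b) ^ 2 := by positivity
  rw [hU, hV] at e
  linarith

/-- The noise operator on an inserted point as a mixture of the two restrictions. -/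
lemma T_ins_mix {n : ℕ} (ρ : ℝ) (g : Cube (n + 1) → ℝ) (s : Bool) (z : Cube n) :
    T ρ g (ins 0 s z)
      = (1 + ρ * sgn s) / 2 * T ρ (fun x => g (ins 0 true x)) z
        + (1 - ρ * sgn s) / 2 * T ρ (fun x => g (ins 0 false x)) z := by
  unfold T
  rw [sum_cube_split 0, Finset.mul_sum, Finset.mul_sum, ← Finset.sum_add_distrib]
  apply Finset.sum_congr rfl
  intro x _
  rw [krn_ins, krn_ins]
  simp only [sgn_true, sgn_false]
  ring

/-- **Reverse Poincare inequality.** -/
theorem rev_poincare {ρ : ℝ} (hρ : |ρ| ≤ 1) {n : ℕ} (g : Cube n → ℝ) (y : Cube n) :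
    (1 - ρ ^ 2) * gradSq n (T ρ g) y ≤ ρ ^ 2 * (T ρ (fun x => g x ^ 2) y - T ρ g y ^ 2) := by
  induction n with
  | zero =>
    simp only [gradSq, T_zero_dim]
    simp
  | succ n ih =>
    have hρ' := abs_le.mp hρ
    rw [eq_ins 0 y]
    set z : Cube n := fun i => y ((0 : Fin (n + 1)).succAbove i) with hz
    set s := y 0 with hs
    rw [gradSq_ins]
    set gp : Cube n → ℝ := fun x => g (ins 0 true x) with hgp
    set gm : Cube n → ℝ := fun x => g (ins 0 false x) with hgm
    set p := (1 + ρ * sgn s) / 2 with hp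
    set q := (1 - ρ * sgn s) / 2 with hq
    have hsgn : |sgn s| = 1 := abs_sgn s
    have hrs : |ρ * sgn s| ≤ 1 := by rw [abs_mul, hsgn, mul_one]; exact hρ
    have hrs' := abs_le.mp hrs
    have hp0 : 0 ≤ p := by rw [hp]; linarith [hrs'.1]
    have hq0 : 0 ≤ q := by rw [hq]; linarith [hrs'.2]
    have hpq1 : p + q = 1 := by rw [hp, hq]; ring
    have hpq : p * q = (1 - ρ ^ 2) / 4 := by
      rw [hp, hq]
      have := sgn_sq s
      have e : (1 + ρ * sgn s) / 2 * ((1 - ρ * sgn s) / 2) = (1 - ρ ^ 2 * sgn s ^ 2) / 4 := by ring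
      rw [e, this, mul_one]
    have hT : ∀ z', T ρ g (ins 0 s z') = p * T ρ gp z' + q * T ρ gm z' := fun z' => T_ins_mix ρ g s z'
    have hT2 : T ρ (fun x => g x ^ 2) (ins 0 s z)
        = p * T ρ (fun x => gp x ^ 2) z + q * T ρ (fun x => gm x ^ 2) z :=
      T_ins_mix ρ (fun x => g x ^ 2) s z
    have hod : od 0 (T ρ g) z = ρ * ((T ρ gp z - T ρ gm z) / 2) := by
      unfold od
      rw [T_ins_mix ρ g true z, T_ins_mix ρ g false z]
      simp only [sgn_true, sgn_false]
      ring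
    have hfun : (fun z' => T ρ g (ins 0 s z')) = fun z' => p * T ρ gp z' + q * T ρ gm z' :=
      funext hT
    rw [hfun, hT2, hT z, hod]
    have hconv := gradSq_convex (T ρ gp) (T ρ gm) hp0 hq0 hpq1 z
    have ih1 := ih gp z
    have ih2 := ih gm z
    set up := T ρ gp z with hup
    set um := T ρ gm z with hum
    set a := gradSq n (T ρ gp) z with ha
    set c := gradSq n (T ρ gm) z with hc
    set Ap := T ρ (fun x => gp x ^ 2) z with hAp
    set Am := T ρ (fun x => gm x ^ 2) z with hAm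
    set X := gradSq n (fun z' => p * T ρ gp z' + q * T ρ gm z') z with hX
    have hb : 0 ≤ 1 - ρ ^ 2 := by nlinarith
    have h1 : (1 - ρ ^ 2) * X ≤ (1 - ρ ^ 2) * (p * a + q * c) :=
      mul_le_mul_of_nonneg_left hconv hb
    have h2 : (1 - ρ ^ 2) * (p * a + q * c)
        ≤ p * (ρ ^ 2 * (Ap - up ^ 2)) + q * (ρ ^ 2 * (Am - um ^ 2)) := by
      have h3 := mul_le_mul_of_nonneg_left ih1 hp0
      have h4 := mul_le_mul_of_nonneg_left ih2 hq0
      linarith
    have e : ρ ^ 2 * (p * Ap + q * Am - (p * up + q * um) ^ 2)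
        = p * (ρ ^ 2 * (Ap - up ^ 2)) + q * (ρ ^ 2 * (Am - um ^ 2))
          + (1 - ρ ^ 2) * (ρ * ((up - um) / 2)) ^ 2 := by
      have e1 : p * up ^ 2 + q * um ^ 2 - (p * up + q * um) ^ 2 = p * q * (up - um) ^ 2 := by
        have hq1 : q = 1 - p := by linarith
        rw [hq1]
        ring
      have e2 : p * up ^ 2 + q * um ^ 2 - (p * up + q * um) ^ 2 = (1 - ρ ^ 2) / 4 * (up - um) ^ 2 := by
        rw [e1, hpq]
      have e3 : (p * up + q * um) ^ 2 = p * up ^ 2 + q * um ^ 2 - (1 - ρ ^ 2) / 4 * (up - um) ^ 2 := by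
        linarith
      rw [e3]
      ring
    rw [e, mul_add]
    linarith

end Vale.Agent.Lib.P322
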