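import Vale.Agent.Lib.P322.Spectral

/-!
Entropy on the cube: subadditivity, log-Sobolev inequalities for functions and for their gradients,
and concentration of mass.
-/

namespace Vale.Agent.Lib.P322

open Real

/-- The entropy functional. -/
noncomputable def Ent {n : ℕ} (A : Cube n → ℝ) : ℝ :=
  avg (fun x => A x * log (A x)) - avg A * log (avg A)

lemma Ent_split {n : ℕ} (A : Cube (n + 1) → ℝ) :
    Ent A = avg (fun y => gap (A (ins 0 true y)) (A (ins 0 false y))) + Ent (ev 0 A) := by
  unfold Ent
  rw [avg_split' 0 (fun x => A x * log (A x)), avg_ev]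
  have e : (fun y => (A (ins 0 true y) * log (A (ins 0 true y))
        + A (ins 0 false y) * log (A (ins 0 false y))) / 2)
      = fun y => gap (A (ins 0 true y)) (A (ins 0 false y)) + ev 0 A y * log (ev 0 A y) := by
    funext y
    simp only [gap, ev]
    ring
  rw [e, avg_add]
  ring

lemma avg_eq_zero_fun {n : ℕ} {A : Cube n → ℝ} (hA : ∀ x, 0 ≤ A x) (h : avg A = 0) (x : Cube n) :
    A x = 0 := by
  unfold avg at h
  have hpos : (0 : ℝ) < 2 ^ n := by positivity
  have h1 : ∑ x, A x = 0 := by
    rcases div_eq_zero_iff.mp h with h2 | h2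
    · exact h2
    · exact absurd h2 hpos.ne'
  exact (Finset.sum_eq_zero_iff_of_nonneg (fun x _ => hA x)).mp h1 x (Finset.mem_univ x)

lemma Ent_of_avg_zero {n : ℕ} {A : Cube n → ℝ} (hA : ∀ x, 0 ≤ A x) (h : avg A = 0) : Ent A = 0 := by
  unfold Ent
  rw [h]
  have : (fun x => A x * log (A x)) = fun _ => 0 := by
    funext x
    rw [avg_eq_zero_fun hA h x]
    simp
  rw [this, avg_const]
  simp

lemma mul_log_div' {a c : ℝ} (ha : 0 ≤ a) (hc : 0 < c) : a * log (a / c) = a * log a - a * log c := by
  rcases ha.eq_or_lt with h | h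
  · rw [← h]; simp
  · rw [Real.log_div h.ne' hc.ne']; ring

/-- Subadditivity of the entropy functional. -/
lemma Ent_add_le {n : ℕ} {A B : Cube n → ℝ} (hA : ∀ x, 0 ≤ A x) (hB : ∀ x, 0 ≤ B x) :
    Ent (fun x => A x + B x) ≤ Ent A + Ent B := by
  have hA0 : 0 ≤ avg A := avg_nonneg hA
  have hB0 : 0 ≤ avg B := avg_nonneg hB
  rcases hA0.eq_or_lt with h | hApos
  · have hz : (fun x => A x + B x) = B := by
      funext x
      rw [avg_eq_zero_fun hA h.symm x]
      ring
    rw [hz, Ent_of_avg_zero hA h.symm]
    simp
  rcases hB0.eq_or_lt with h | hBpos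
  · have hz : (fun x => A x + B x) = A := by
      funext x
      rw [avg_eq_zero_fun hB h.symm x]
      ring
    rw [hz, Ent_of_avg_zero hB h.symm]
    simp
  set c := avg A with hc
  set d := avg B with hd
  have hkey : ∀ x, (A x + B x) * log (A x + B x) - (A x + B x) * log (c + d)
      ≤ (A x * log (A x) - A x * log c) + (B x * log (B x) - B x * log d) := by
    intro x
    have h1 := log_sum_two (hA x) (hB x) hApos.le hBpos.le (fun h => absurd h hApos.ne')
      (fun h => absurd h hBpos.ne')
    rw [mul_log_div' (add_nonneg (hA x) (hB x)) (by positivity), mul_log_div' (hA x) hApos,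
      mul_log_div' (hB x) hBpos] at h1
    exact h1
  have h2 := avg_mono hkey
  have e1 : avg (fun x => (A x + B x) * log (A x + B x) - (A x + B x) * log (c + d))
      = avg (fun x => (A x + B x) * log (A x + B x)) - (c + d) * log (c + d) := by
    rw [avg_sub, avg_mul_right, avg_add]
  have e2 : avg (fun x => (A x * log (A x) - A x * log c) + (B x * log (B x) - B x * log d))
      = (avg (fun x => A x * log (A x)) - c * log c)
        + (avg (fun x => B x * log (B x)) - d * log d) := by
    rw [avg_add, avg_sub, avg_sub, avg_mul_right, avg_mul_right]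
  rw [e1, e2] at h2
  unfold Ent
  rw [avg_add, ← hc, ← hd]
  exact h2

/-- **Log-Sobolev inequality.** -/
lemma Ent_sq_le {n : ℕ} (u : Cube n → ℝ) : Ent (fun x => u x ^ 2) ≤ 2 * En u := by
  induction n with
  | zero =>
    have x : Cube 0 := fun i => i.elim0
    unfold Ent En
    rw [avg_zero_dim _ x, avg_zero_dim _ x, avg_zero_dim _ x]
    simp [gradSq]
  | succ n ih =>
    rw [Ent_split]
    have e : ev 0 (fun x => u x ^ 2) = fun y => ev 0 u y ^ 2 + od 0 u y ^ 2 := by
      funext y
      simp only [ev, od]
      ring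
    rw [e]
    have h1 := Ent_add_le (A := fun y => ev 0 u y ^ 2) (B := fun y => od 0 u y ^ 2)
      (fun _ => sq_nonneg _) (fun _ => sq_nonneg _)
    have h2 := ih (ev 0 u)
    have h3 := ih (od 0 u)
    have h4 : avg (fun y => gap (u (ins 0 true y) ^ 2) (u (ins 0 false y) ^ 2))
        ≤ avg (fun y => 2 * od 0 u y ^ 2) := by
      apply avg_mono
      intro y
      have h5 := gap_lsi (abs_nonneg (u (ins 0 true y))) (abs_nonneg (u (ins 0 false y)))
      rw [sq_abs, sq_abs] at h5
      have h6 : (|u (ins 0 true y)| - |u (ins 0 false y)|) ^ 2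
          ≤ (u (ins 0 true y) - u (ins 0 false y)) ^ 2 := by
        rw [← sq_abs (u (ins 0 true y) - u (ins 0 false y))]
        apply sq_le_sq'
        · have := abs_abs_sub_abs_le (u (ins 0 true y)) (u (ins 0 false y))
          have h7 := abs_le.mp this
          linarith [h7.1]
        · have := abs_abs_sub_abs_le (u (ins 0 true y)) (u (ins 0 false y))
          have h7 := abs_le.mp this
          linarith [h7.2]
      have e3 : od 0 u y = (u (ins 0 true y) - u (ins 0 false y)) / 2 := rfl
      rw [e3]
      nlinarith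
    rw [avg_mul_left] at h4
    rw [En_succ]
    linarith

/-- **Log-Sobolev inequality for the gradient.** -/
lemma Ent_gradSq_le {n : ℕ} (g : Cube n → ℝ) : Ent (gradSq n g) ≤ 2 * Q2 g := by
  induction n with
  | zero =>
    have e : gradSq 0 g = fun _ => 0 := by
      funext x
      simp [gradSq]
    rw [e]
    unfold Ent Q2
    simp [avg_const, Qb]
  | succ n ih =>
    rw [Ent_split]
    have e : ev 0 (gradSq (n + 1) g)
        = fun y => od 0 g y ^ 2 + (gradSq n (ev 0 g) y + gradSq n (od 0 g) y) := by
      funext y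
      simp only [ev]
      rw [gradSq_ins, gradSq_ins]
      have := sections_gradSq g y
      linarith
    rw [e]
    have h1 := Ent_add_le (A := fun y => od 0 g y ^ 2)
      (B := fun y => gradSq n (ev 0 g) y + gradSq n (od 0 g) y)
      (fun _ => sq_nonneg _) (fun y => add_nonneg (gradSq_nonneg _ _) (gradSq_nonneg _ _))
    have h2 := Ent_add_le (A := gradSq n (ev 0 g)) (B := gradSq n (od 0 g))
      (fun y => gradSq_nonneg _ _) (fun y => gradSq_nonneg _ _)
    have h3 := ih (ev 0 g)
    have h4 := ih (od 0 g)
    have h5 := Ent_sq_le (od 0 g)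
    have h6 : avg (fun y => gap (gradSq (n + 1) g (ins 0 true y)) (gradSq (n + 1) g (ins 0 false y)))
        ≤ avg (fun y => 2 * gradSq n (od 0 g) y) := by
      apply avg_mono
      intro y
      rw [gradSq_ins, gradSq_ins]
      set U := gradSq n (fun z => g (ins 0 true z)) y with hU
      set W := gradSq n (fun z => g (ins 0 false z)) y with hW
      have hU0 : 0 ≤ U := gradSq_nonneg _ _
      have hW0 : 0 ≤ W := gradSq_nonneg _ _
      have h7 := gap_subadd (sq_nonneg (od 0 g y)) (sq_nonneg (od 0 g y)) hU0 hW0
      rw [gap_self, zero_add] at h7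
      have h8 := gap_lsi (Real.sqrt_nonneg U) (Real.sqrt_nonneg W)
      rw [Real.sq_sqrt hU0, Real.sq_sqrt hW0] at h8
      -- Minkowski
      have hdiff : (fun z => g (ins 0 true z)) = fun z => 1 * g (ins 0 false z) + 2 * od 0 g z := by
        funext z
        simp only [od]
        ring
      have hdiff2 : (fun z => g (ins 0 false z)) = fun z => 1 * g (ins 0 true z) + (-2) * od 0 g z := by
        funext z
        simp only [od]
        ring
      have hO := gradSq_nonneg (od 0 g) y
      have hsq2 : ∀ c : ℝ, 0 ≤ c → √(gradSq n (fun z => c * od 0 g z) y) = c * √(gradSq n (od 0 g) y) := by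
        intro c hc
        rw [gradSq_smul, Real.sqrt_mul (sq_nonneg c), Real.sqrt_sq hc]
      have hm1 : √U ≤ √W + 2 * √(gradSq n (od 0 g) y) := by
        have h9 := sqrt_gradSq_add_le (fun z => g (ins 0 false z)) (od 0 g)
          (α := 1) (β := 2) (by norm_num) (by norm_num) y
        rw [← hdiff] at h9
        simpa using h9
      have hm2 : √W ≤ √U + 2 * √(gradSq n (od 0 g) y) := by
        have h9 := sqrt_gradSq_add_le (fun z => g (ins 0 true z)) (fun z => (-1) * od 0 g z)
          (α := 1) (β := 2) (by norm_num) (by norm_num) y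
        have e9 : (fun z => 1 * g (ins 0 true z) + 2 * ((-1) * od 0 g z))
            = fun z => g (ins 0 false z) := by
          funext z
          simp only [od]
          ring
        rw [e9] at h9
        rw [gradSq_smul] at h9
        simpa using h9
      have hs := Real.sq_sqrt hO
      set r := √(gradSq n (od 0 g) y) with hr
      have hr0 : 0 ≤ r := Real.sqrt_nonneg _
      have hfin : (√U - √W) ^ 2 ≤ (2 * r) ^ 2 := by
        apply sq_le_sq'
        · linarith
        · linarith
      have e10 : (od 0 g y ^ 2 + U) = U + od 0 g y ^ 2 := by ring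
      nlinarith
    rw [avg_mul_left] at h6
    rw [Q2_succ]
    have h7 : En (od 0 g) = avg (gradSq n (od 0 g)) := rfl
    rw [← h7] at h6
    linarith

/-- Young inequality. -/
lemma young_log {t s : ℝ} (ht : 0 ≤ t) : t * s ≤ t * log t - t + exp s := by
  rcases ht.eq_or_lt with h | h
  · rw [← h]
    simp
    exact (exp_pos s).le
  · have hx : 0 < exp s / t := by positivity
    have h1 := Real.log_le_sub_one_of_pos hx
    rw [Real.log_div (exp_pos s).ne' h.ne', Real.log_exp] at h1
    have h2 := mul_le_mul_of_nonneg_left h1 h.le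
    have e : t * (exp s / t - 1) = exp s - t := by
      field_simp
    rw [e] at h2
    nlinarith

/-- Concentration of mass from entropy. -/
lemma conc_Ent {n : ℕ} {A χ : Cube n → ℝ} (hA : ∀ x, 0 ≤ A x) (hχ : ∀ x, χ x = 0 ∨ χ x = 1)
    (hP : 0 < avg χ) :
    avg (fun x => A x * χ x) * log (1 / avg χ) ≤ Ent A + avg A := by
  set P := avg χ with hPdef
  have hP1 : P ≤ 1 := by
    have := avg_mono (g := χ) (h := fun _ => 1) (fun x => by
      rcases hχ x with h | h <;> rw [h] <;> norm_num)
    rwa [avg_const] at this
  set σ := log (1 / P) with hσ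
  have hexp : exp σ = 1 / P := Real.exp_log (by positivity)
  have hA0 : 0 ≤ avg A := avg_nonneg hA
  rcases hA0.eq_or_lt with h | hApos
  · have hz : ∀ x, A x = 0 := avg_eq_zero_fun hA h.symm
    have e : (fun x => A x * χ x) = fun _ => 0 := by
      funext x
      rw [hz x]
      ring
    rw [e, avg_const, Ent_of_avg_zero hA h.symm, ← h]
    simp
  set a := avg A with ha
  have hkey : ∀ x, A x * χ x * σ
      ≤ A x * log (A x) - A x * log a - A x + a * (1 + χ x * (exp σ - 1)) := by
    intro x
    have hy := young_log (t := A x / a) (s := σ * χ x) (div_nonneg (hA x) hApos.le)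
    have hmul := mul_le_mul_of_nonneg_left hy hApos.le
    have e1 : a * (A x / a * (σ * χ x)) = A x * χ x * σ := by
      field_simp
    have e2 : a * (A x / a * log (A x / a)) = A x * log (A x) - A x * log a := by
      rw [← mul_assoc, mul_div_cancel₀ _ hApos.ne', mul_log_div' (hA x) hApos]
    have e3 : a * (A x / a) = A x := mul_div_cancel₀ _ hApos.ne'
    have e4 : exp (σ * χ x) = 1 + χ x * (exp σ - 1) := by
      rcases hχ x with h | h <;> rw [h] <;> simp
    rw [mul_add, mul_sub, e1, e2, e3, e4] at hmul
    exact hmul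
  have h2 := avg_mono hkey
  have e5 : avg (fun x => A x * χ x * σ) = avg (fun x => A x * χ x) * σ := avg_mul_right _ _
  have e6 : avg (fun x => A x * log (A x) - A x * log a - A x + a * (1 + χ x * (exp σ - 1)))
      = avg (fun x => A x * log (A x)) - a * log a - a + a * (1 + P * (exp σ - 1)) := by
    rw [avg_add, avg_sub, avg_sub, avg_mul_right, avg_mul_left, avg_add, avg_const, avg_mul_right]
  rw [e5, e6, hexp] at h2
  have e7 : P * (1 / P - 1) = 1 - P := by
    field_simp
  rw [e7] at h2
  unfold Ent
  rw [← ha]
  nlinarith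

end Vale.Agent.Lib.P322
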