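import Vale.Agent.Lib.P322.Bellman

/-!
Consequences of the low-noise inequality: a super-additivity of `H`, and closed forms for the
mutual information of arbitrary Boolean functions.
-/

namespace Vale.Agent.Lib.P322

open Real

/-- The derivative of `H`. -/
lemma hasDerivAt_H {v : ℝ} (h0 : 0 < v) (h1 : v < 1) :
    HasDerivAt H ((log (1 + √(1 - v)) - log (1 - √(1 - v))) / (4 * √(1 - v))) v := by
  have ht : 0 < 1 - v := by linarith
  have htp : 0 < √(1 - v) := Real.sqrt_pos.mpr ht
  have ht1 : √(1 - v) < 1 := by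
    rw [Real.sqrt_lt' (by norm_num)]
    linarith
  set t := √(1 - v) with htdef
  have d0 : HasDerivAt (fun x : ℝ => 1 - x) (-1) v := by
    simpa using (hasDerivAt_id' v).const_sub 1
  have d1 : HasDerivAt (fun x : ℝ => √(1 - x)) (-1 / (2 * t)) v := d0.sqrt ht.ne'
  have hphi : HasDerivAt phi ((log (1 + t) - log (1 - t)) / 2)
      ((fun x : ℝ => √(1 - x)) v) := hasDerivAt_phi (t := t) (by linarith) ht1
  have d2 : HasDerivAt (fun x : ℝ => phi (√(1 - x)))
      ((log (1 + t) - log (1 - t)) / 2 * (-1 / (2 * t))) v := by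
    have h9 := HasDerivAt.comp v hphi d1
    exact h9
  have := d2.const_sub (log 2)
  refine this.congr_deriv ?_
  field_simp
  ring

/-- The auxiliary function `G t = (1 - t²) L(t) / t`. -/
noncomputable def GLfun (t : ℝ) : ℝ := (1 - t ^ 2) * (log (1 + t) - log (1 - t)) / t

lemma GLfun_antitone : AntitoneOn GLfun (Set.Ioo 0 1) := by
  have hd : ∀ t ∈ Set.Ioo (0 : ℝ) 1,
      HasDerivAt GLfun ((2 * t - (1 + t ^ 2) * (log (1 + t) - log (1 - t))) / t ^ 2) t := by
    intro t ht
    have hA : 1 + t ≠ 0 := by linarith [ht.1]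
    have hB : 1 - t ≠ 0 := by linarith [ht.2]
    have d1 : HasDerivAt (fun x : ℝ => 1 + x) 1 t := by
      simpa using (hasDerivAt_id' t).const_add 1
    have d2 : HasDerivAt (fun x : ℝ => 1 - x) (-1) t := by
      simpa using (hasDerivAt_id' t).const_sub 1
    have d3 : HasDerivAt (fun x : ℝ => 1 - x ^ 2) (-(2 * t)) t := by
      have := ((hasDerivAt_id' t).pow 2).const_sub 1
      simpa using this
    have d4 := (d1.log hA).sub (d2.log hB)
    have d5 := (d3.mul d4).div (hasDerivAt_id' t) ht.1.ne'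
    refine d5.congr_deriv ?_
    have := ht.1.ne'
    simp only [Pi.mul_apply, Pi.sub_apply]
    field_simp
    ring
  apply antitoneOn_of_deriv_nonpos (convex_Ioo 0 1)
  · intro t ht
    exact (hd t ht).continuousAt.continuousWithinAt
  · rw [interior_Ioo]
    intro t ht
    exact (hd t ht).differentiableAt.differentiableWithinAt
  · rw [interior_Ioo]
    intro t ht
    rw [(hd t ht).deriv]
    apply div_nonpos_of_nonpos_of_nonneg _ (by positivity)
    have h1 := L_ge ht.1.le ht.2
    have h2 : 0 ≤ t ^ 2 * (log (1 + t) - log (1 - t)) :=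
      mul_nonneg (by positivity) (by linarith [ht.1])
    nlinarith

lemma H_one : H 1 = log 2 := by
  unfold H
  simp [phi_zero]

lemma H_le_log_two {v : ℝ} (hv0 : 0 ≤ v) : H v ≤ log 2 := by
  unfold H
  have h1 : |√(1 - v)| ≤ 1 := by
    rw [abs_of_nonneg (Real.sqrt_nonneg _)]
    apply Real.sqrt_le_one.mpr
    linarith
  have h := phi_nonneg h1
  linarith

/-- The key monotonicity behind super-additivity. -/
lemma H_sub_mono {c : ℝ} (hc0 : 0 < c) (hc1 : c ≤ 1) :
    MonotoneOn (fun u => H u - H (c * u)) (Set.Icc 0 1) := by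
  have hcont : Continuous H := by
    unfold H
    exact continuous_const.sub
      (continuous_phi.comp (Real.continuous_sqrt.comp (continuous_const.sub continuous_id)))
  apply monotoneOn_of_deriv_nonneg (convex_Icc 0 1)
  · apply Continuous.continuousOn
    exact hcont.sub (hcont.comp (continuous_const.mul continuous_id))
  · rw [interior_Icc]
    intro u hu
    have h1 := hasDerivAt_H hu.1 hu.2
    have h2 := hasDerivAt_H (v := c * u) (by have := hu.1; positivity) (by nlinarith [hu.1, hu.2])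
    have h3 : HasDerivAt (fun x => c * x) c u := by
      simpa using (hasDerivAt_id' u).const_mul c
    have h4 := HasDerivAt.comp u h2 h3
    exact (h1.sub h4).differentiableAt.differentiableWithinAt
  · rw [interior_Icc]
    intro u hu
    have hcu0 : 0 < c * u := by have := hu.1; positivity
    have hcu1 : c * u < 1 := by nlinarith [hu.1, hu.2]
    have h1 := hasDerivAt_H hu.1 hu.2
    have h2 := hasDerivAt_H hcu0 hcu1
    have h3 : HasDerivAt (fun x => c * x) c u := by
      simpa using (hasDerivAt_id' u).const_mul c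
    have h4 := HasDerivAt.comp u h2 h3
    have h5 := h1.sub h4
    have e : (fun u => H u - H (c * u)) = H - (H ∘ fun x => c * x) := by
      funext x; simp
    rw [e, h5.deriv]
    set t₁ := √(1 - u) with ht₁
    set t₂ := √(1 - c * u) with ht₂
    have hs1 : t₁ ^ 2 = 1 - u := Real.sq_sqrt (by linarith [hu.2])
    have hs2 : t₂ ^ 2 = 1 - c * u := Real.sq_sqrt (by linarith)
    have ht₁0 : 0 < t₁ := Real.sqrt_pos.mpr (by linarith [hu.2])
    have ht₂0 : 0 < t₂ := Real.sqrt_pos.mpr (by linarith)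
    have ht₁1 : t₁ < 1 := by
      rw [ht₁, Real.sqrt_lt' (by norm_num)]
      linarith [hu.1]
    have ht₂1 : t₂ < 1 := by
      rw [ht₂, Real.sqrt_lt' (by norm_num)]
      linarith
    have hle : t₁ ≤ t₂ := Real.sqrt_le_sqrt (by nlinarith [hu.1, hu.2])
    have hG := GLfun_antitone ⟨ht₁0, ht₁1⟩ ⟨ht₂0, ht₂1⟩ hle
    unfold GLfun at hG
    rw [hs1, hs2] at hG
    have e1 : (1 - (1 - u)) * (log (1 + t₁) - log (1 - t₁)) / t₁
        = u * ((log (1 + t₁) - log (1 - t₁)) / t₁) := by ring
    have e2 : (1 - (1 - c * u)) * (log (1 + t₂) - log (1 - t₂)) / t₂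
        = u * (c * ((log (1 + t₂) - log (1 - t₂)) / t₂)) := by ring
    rw [e1, e2] at hG
    have hG2 := le_of_mul_le_mul_left hG hu.1
    have e3 : (log (1 + t₁) - log (1 - t₁)) / (4 * t₁)
        - (log (1 + t₂) - log (1 - t₂)) / (4 * t₂) * c
        = ((log (1 + t₁) - log (1 - t₁)) / t₁
          - c * ((log (1 + t₂) - log (1 - t₂)) / t₂)) / 4 := by
      field_simp
    rw [e3]
    linarith

/-- **Super-additivity of `H`.** -/
lemma H_super {u c : ℝ} (hu0 : 0 ≤ u) (hu1 : u ≤ 1) (hc0 : 0 ≤ c) (hc1 : c ≤ 1) :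
    H u + H c ≤ log 2 + H (c * u) := by
  rcases hc0.eq_or_lt with h | h
  · rw [← h]
    simp only [zero_mul]
    have := H_le_log_two hu0
    linarith
  · have h1 := H_sub_mono h hc1 ⟨hu0, hu1⟩ ⟨zero_le_one, le_refl 1⟩ hu1
    simp only [mul_one, H_one] at h1
    linarith

/-- **The basic bound.** For every Boolean function:
`ρ² (E φ(w) - φ(μ)) + ((1 - ρ²)/2) Var(w) ≤ φ(ρ)`, where `w = T_ρ f`. -/
theorem basic_bound {ρ : ℝ} (hρ : |ρ| ≤ 1) {n : ℕ} {f : Cube n → ℝ} (hf : IsBool f) :
    avg (fun y => phi (T ρ f y)) - phi (avg f)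
      ≤ phi ρ + (1 - ρ ^ 2) * (avg (fun y => psi (T ρ f y)) - psi (avg f)) := by
  have hρ' := abs_le.mp hρ
  have hb : 0 ≤ 1 - ρ ^ 2 := by nlinarith
  have hL := thm_L hρ hf
  have hμ : |avg f| ≤ 1 := abs_avg_le_one (fun x => hf.abs_le x)
  have hμ' := abs_le.mp hμ
  have hV : 0 ≤ 1 - avg f ^ 2 := by nlinarith
  have hS := H_super (u := 1 - avg f ^ 2) (c := 1 - ρ ^ 2) hV (by nlinarith [sq_nonneg (avg f)]) hb
    (by nlinarith [sq_nonneg ρ])
  rw [H_one_sub_sq, H_one_sub_sq] at hS
  have e : avg (fun y => log 2 - phi (T ρ f y) + (1 - ρ ^ 2) * psi (T ρ f y))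
      = log 2 - avg (fun y => phi (T ρ f y)) + (1 - ρ ^ 2) * avg (fun y => psi (T ρ f y)) := by
    have h1 := avg_add (fun y => log 2 - phi (T ρ f y)) (fun y => (1 - ρ ^ 2) * psi (T ρ f y))
    rw [h1, avg_sub, avg_const, avg_mul_left]
  rw [e] at hL
  nlinarith

/-- The variance form of the basic bound. -/
theorem basic_bound_var {ρ : ℝ} (hρ : |ρ| ≤ 1) {n : ℕ} {f : Cube n → ℝ} (hf : IsBool f) :
    ρ ^ 2 * (avg (fun y => phi (T ρ f y)) - phi (avg f))
        + (1 - ρ ^ 2) / 2 * (avg (fun y => T ρ f y ^ 2) - avg f ^ 2) ≤ phi ρ := by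
  have h := basic_bound hρ hf
  have e : avg (fun y => psi (T ρ f y))
      = avg (fun y => phi (T ρ f y)) - avg (fun y => T ρ f y ^ 2) / 2 := by
    unfold psi
    rw [avg_sub]
    have : (fun y => T ρ f y ^ 2 / 2) = fun y => (1 / 2) * T ρ f y ^ 2 := by
      funext y; ring
    rw [this, avg_mul_left]
    ring
  rw [e] at h
  unfold psi at h
  nlinarith

end Vale.Agent.Lib.P322
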