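import Vale.Agent.Lib.P322.Moments

/-!
The main inequality for all Boolean functions at high noise.
-/

namespace Vale.Agent.Lib.P322

open Real

/-- The corner value of the numerical bound on a box of means. -/
noncomputable def boxVal (lo hi Wb r0 κ : ℝ) : ℝ :=
  (1 / (2 * (1 - hi ^ 2)) + hi * κ / (6 * (1 - hi ^ 2) ^ 2)) * (Wb * (1 - r0) + r0 * (1 - lo ^ 2))
    + (1 / (24 * (1 + lo) ^ 3) + 1 / (6 * (1 - hi) ^ 3) + hi / (6 * κ * (1 - hi ^ 2) ^ 2))
      * r0 * (Wb * (3 - 9 * r0) + 9 * r0 * (1 - lo ^ 2)) ^ 2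

/-- Monotonicity in the box. -/
lemma num_le_boxVal {m W r lo hi Wb r0 κ : ℝ} (hκ : 0 < κ) (hlo0 : 0 ≤ lo) (hlo : lo ≤ m) (hhi : m ≤ hi)
    (hhi1 : hi < 1) (hW0 : 0 ≤ W) (hWb : W ≤ Wb) (hW2 : W ≤ 1 - m) (hr0 : 0 ≤ r) (hr : r ≤ r0)
    (hr1 : r0 ≤ 1 / 3) :
    (1 / (2 * ((1 + m) * (1 - m))) + m * κ / (6 * ((1 + m) * (1 - m)) ^ 2))
        * (W + r * ((1 + m) * (1 - m) - W))
      + (quartC m + m / (6 * κ * ((1 + m) * (1 - m)) ^ 2))
        * r * (3 * W + 9 * r * ((1 + m) * (1 - m) - W)) ^ 2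
    ≤ boxVal lo hi Wb r0 κ := by
  have hm0 : 0 ≤ m := hlo0.trans hlo
  have hV1 : 1 - hi ^ 2 ≤ (1 + m) * (1 - m) := by nlinarith
  have hV0 : 0 < 1 - hi ^ 2 := by nlinarith
  have hV2 : (1 + m) * (1 - m) ≤ 1 - lo ^ 2 := by nlinarith
  set V := (1 + m) * (1 - m) with hV
  have hVpos : 0 < V := lt_of_lt_of_le hV0 hV1
  have hVW : 0 ≤ V - W := by
    rw [hV]
    nlinarith
  have hsq : (1 - hi ^ 2) ^ 2 ≤ V ^ 2 := pow_le_pow_left₀ hV0.le hV1 2
  have a1 : 1 / (2 * V) ≤ 1 / (2 * (1 - hi ^ 2)) :=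
    one_div_le_one_div_of_le (by linarith) (by linarith)
  have a2 : m * κ / (6 * V ^ 2) ≤ hi * κ / (6 * (1 - hi ^ 2) ^ 2) := by
    have hhi0 : 0 ≤ hi := hm0.trans hhi
    apply div_le_div₀ (by positivity) _ (by positivity) (by linarith)
    exact mul_le_mul_of_nonneg_right hhi hκ.le
  have a3 : m / (6 * κ * V ^ 2) ≤ hi / (6 * κ * (1 - hi ^ 2) ^ 2) := by
    have hhi0 : 0 ≤ hi := hm0.trans hhi
    apply div_le_div₀ hhi0 hhi (by positivity)
    exact mul_le_mul_of_nonneg_left hsq (by positivity)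
  have a4 : quartC m ≤ 1 / (24 * (1 + lo) ^ 3) + 1 / (6 * (1 - hi) ^ 3) := by
    unfold quartC
    apply add_le_add
    · apply one_div_le_one_div_of_le (by positivity)
      have : (1 + lo) ^ 3 ≤ (1 + m) ^ 3 := pow_le_pow_left₀ (by linarith) (by linarith) 3
      linarith
    · apply one_div_le_one_div_of_le
      · have : 0 < 1 - hi := by linarith
        positivity
      · have : (1 - hi) ^ 3 ≤ (1 - m) ^ 3 := pow_le_pow_left₀ (by linarith) (by linarith) 3
        linarith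
  have hr01 : r0 ≤ 1 := by linarith
  have hX0 : 0 ≤ W + r * (V - W) := by positivity
  have hY0 : 0 ≤ 3 * W + 9 * r * (V - W) := by positivity
  have hX : W + r * (V - W) ≤ Wb * (1 - r0) + r0 * (1 - lo ^ 2) := by
    have b1 : r * (V - W) ≤ r0 * (V - W) := mul_le_mul_of_nonneg_right hr hVW
    have b2 : W * (1 - r0) ≤ Wb * (1 - r0) := mul_le_mul_of_nonneg_right hWb (by linarith)
    have b3 : r0 * V ≤ r0 * (1 - lo ^ 2) := mul_le_mul_of_nonneg_left hV2 (by linarith)
    nlinarith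
  have hY : 3 * W + 9 * r * (V - W) ≤ Wb * (3 - 9 * r0) + 9 * r0 * (1 - lo ^ 2) := by
    have b1 : r * (V - W) ≤ r0 * (V - W) := mul_le_mul_of_nonneg_right hr hVW
    have b2 : W * (3 - 9 * r0) ≤ Wb * (3 - 9 * r0) := mul_le_mul_of_nonneg_right hWb (by linarith)
    have b3 : r0 * V ≤ r0 * (1 - lo ^ 2) := mul_le_mul_of_nonneg_left hV2 (by linarith)
    nlinarith
  have hY2 := pow_le_pow_left₀ hY0 hY 2
  have hc2 : 1 / (2 * V) + m * κ / (6 * V ^ 2)
      ≤ 1 / (2 * (1 - hi ^ 2)) + hi * κ / (6 * (1 - hi ^ 2) ^ 2) := add_le_add a1 a2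
  have hc4 : quartC m + m / (6 * κ * V ^ 2)
      ≤ 1 / (24 * (1 + lo) ^ 3) + 1 / (6 * (1 - hi) ^ 3) + hi / (6 * κ * (1 - hi ^ 2) ^ 2) :=
    add_le_add a4 a3
  have hc20 : 0 ≤ 1 / (2 * V) + m * κ / (6 * V ^ 2) := by positivity
  have hc40 : 0 ≤ quartC m + m / (6 * κ * V ^ 2) := by
    have : 0 ≤ quartC m := by
      unfold quartC
      have : 0 < 1 - m := by linarith
      positivity
    positivity
  unfold boxVal
  apply add_le_add
  · exact mul_le_mul hc2 hX hX0 (hc20.trans hc2)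
  · apply mul_le_mul _ hY2 (by positivity) _
    · exact mul_le_mul hc4 hr hr0 (hc40.trans hc4)
    · exact mul_nonneg (hc40.trans hc4) (by linarith)

lemma box_ok {m W r : ℝ} (lo hi Wb : ℝ) (hlo0 : 0 ≤ lo) (hlo : lo ≤ m) (hhi : m ≤ hi)
    (hhi1 : hi < 1) (hW0 : 0 ≤ W) (hWb : W ≤ Wb) (hW2 : W ≤ 1 - m) (hr0 : 0 ≤ r)
    (hr : r ≤ (4 / 25) ^ 2)
    (h : boxVal lo hi Wb ((4 / 25) ^ 2) (2 / 5) ≤ 1 / 2) :
    (1 / (2 * ((1 + m) * (1 - m))) + m * (2 / 5) / (6 * ((1 + m) * (1 - m)) ^ 2))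
        * (W + r * ((1 + m) * (1 - m) - W))
      + (quartC m + m / (6 * (2 / 5) * ((1 + m) * (1 - m)) ^ 2))
        * r * (3 * W + 9 * r * ((1 + m) * (1 - m) - W)) ^ 2
    ≤ 1 / 2 :=
  (num_le_boxVal (by norm_num) hlo0 hlo hhi hhi1 hW0 hWb hW2 hr0 hr (by norm_num)).trans h

/-- The numerical inequality for the far range. -/
lemma far_numeric {m W r : ℝ} (hm0 : 0 ≤ m) (hm1 : m ≤ 61 / 100) (hW0 : 0 ≤ W) (hW1 : W ≤ 4 / 5)
    (hW2 : W ≤ 1 - m) (hr0 : 0 ≤ r) (hr1 : r ≤ (4 / 25) ^ 2) :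
    (1 / (2 * ((1 + m) * (1 - m))) + m * (2 / 5) / (6 * ((1 + m) * (1 - m)) ^ 2))
        * (W + r * ((1 + m) * (1 - m) - W))
      + (quartC m + m / (6 * (2 / 5) * ((1 + m) * (1 - m)) ^ 2))
        * r * (3 * W + 9 * r * ((1 + m) * (1 - m) - W)) ^ 2
    ≤ 1 / 2 := by
  rcases le_total m (197/1000) with h1 | h1
  · exact box_ok (0) (197/1000) (4/5) (by norm_num) hm0 h1 (by norm_num) hW0 hW1 hW2 hr0 hr1 (by norm_num [boxVal])
  rcases le_total m (41/200) with h2 | h2
  · exact box_ok (197/1000) (41/200) (4/5) (by norm_num) h1 h2 (by norm_num) hW0 hW1 hW2 hr0 hr1 (by norm_num [boxVal])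
  rcases le_total m (211/1000) with h3 | h3
  · exact box_ok (41/200) (211/1000) (159/200) (by norm_num) h2 h3 (by norm_num) hW0 (by linarith) hW2 hr0 hr1 (by norm_num [boxVal])
  rcases le_total m (219/1000) with h4 | h4
  · exact box_ok (211/1000) (219/1000) (789/1000) (by norm_num) h3 h4 (by norm_num) hW0 (by linarith) hW2 hr0 hr1 (by norm_num [boxVal])
  rcases le_total m (23/100) with h5 | h5
  · exact box_ok (219/1000) (23/100) (781/1000) (by norm_num) h4 h5 (by norm_num) hW0 (by linarith) hW2 hr0 hr1 (by norm_num [boxVal])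
  rcases le_total m (243/1000) with h6 | h6
  · exact box_ok (23/100) (243/1000) (77/100) (by norm_num) h5 h6 (by norm_num) hW0 (by linarith) hW2 hr0 hr1 (by norm_num [boxVal])
  rcases le_total m (259/1000) with h7 | h7
  · exact box_ok (243/1000) (259/1000) (757/1000) (by norm_num) h6 h7 (by norm_num) hW0 (by linarith) hW2 hr0 hr1 (by norm_num [boxVal])
  rcases le_total m (139/500) with h8 | h8
  · exact box_ok (259/1000) (139/500) (741/1000) (by norm_num) h7 h8 (by norm_num) hW0 (by linarith) hW2 hr0 hr1 (by norm_num [boxVal])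
  rcases le_total m (3/10) with h9 | h9
  · exact box_ok (139/500) (3/10) (361/500) (by norm_num) h8 h9 (by norm_num) hW0 (by linarith) hW2 hr0 hr1 (by norm_num [boxVal])
  rcases le_total m (13/40) with h10 | h10
  · exact box_ok (3/10) (13/40) (7/10) (by norm_num) h9 h10 (by norm_num) hW0 (by linarith) hW2 hr0 hr1 (by norm_num [boxVal])
  rcases le_total m (44/125) with h11 | h11
  · exact box_ok (13/40) (44/125) (27/40) (by norm_num) h10 h11 (by norm_num) hW0 (by linarith) hW2 hr0 hr1 (by norm_num [boxVal])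
  rcases le_total m (19/50) with h12 | h12
  · exact box_ok (44/125) (19/50) (81/125) (by norm_num) h11 h12 (by norm_num) hW0 (by linarith) hW2 hr0 hr1 (by norm_num [boxVal])
  rcases le_total m (51/125) with h13 | h13
  · exact box_ok (19/50) (51/125) (31/50) (by norm_num) h12 h13 (by norm_num) hW0 (by linarith) hW2 hr0 hr1 (by norm_num [boxVal])
  rcases le_total m (87/200) with h14 | h14
  · exact box_ok (51/125) (87/200) (74/125) (by norm_num) h13 h14 (by norm_num) hW0 (by linarith) hW2 hr0 hr1 (by norm_num [boxVal])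
  rcases le_total m (23/50) with h15 | h15
  · exact box_ok (87/200) (23/50) (113/200) (by norm_num) h14 h15 (by norm_num) hW0 (by linarith) hW2 hr0 hr1 (by norm_num [boxVal])
  rcases le_total m (121/250) with h16 | h16
  · exact box_ok (23/50) (121/250) (27/50) (by norm_num) h15 h16 (by norm_num) hW0 (by linarith) hW2 hr0 hr1 (by norm_num [boxVal])
  rcases le_total m (101/200) with h17 | h17
  · exact box_ok (121/250) (101/200) (129/250) (by norm_num) h16 h17 (by norm_num) hW0 (by linarith) hW2 hr0 hr1 (by norm_num [boxVal])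
  rcases le_total m (131/250) with h18 | h18
  · exact box_ok (101/200) (131/250) (99/200) (by norm_num) h17 h18 (by norm_num) hW0 (by linarith) hW2 hr0 hr1 (by norm_num [boxVal])
  rcases le_total m (541/1000) with h19 | h19
  · exact box_ok (131/250) (541/1000) (119/250) (by norm_num) h18 h19 (by norm_num) hW0 (by linarith) hW2 hr0 hr1 (by norm_num [boxVal])
  rcases le_total m (139/250) with h20 | h20
  · exact box_ok (541/1000) (139/250) (459/1000) (by norm_num) h19 h20 (by norm_num) hW0 (by linarith) hW2 hr0 hr1 (by norm_num [boxVal])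
  rcases le_total m (569/1000) with h21 | h21
  · exact box_ok (139/250) (569/1000) (111/250) (by norm_num) h20 h21 (by norm_num) hW0 (by linarith) hW2 hr0 hr1 (by norm_num [boxVal])
  rcases le_total m (29/50) with h22 | h22
  · exact box_ok (569/1000) (29/50) (431/1000) (by norm_num) h21 h22 (by norm_num) hW0 (by linarith) hW2 hr0 hr1 (by norm_num [boxVal])
  rcases le_total m (59/100) with h23 | h23
  · exact box_ok (29/50) (59/100) (21/50) (by norm_num) h22 h23 (by norm_num) hW0 (by linarith) hW2 hr0 hr1 (by norm_num [boxVal])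
  rcases le_total m (299/500) with h24 | h24
  · exact box_ok (59/100) (299/500) (41/100) (by norm_num) h23 h24 (by norm_num) hW0 (by linarith) hW2 hr0 hr1 (by norm_num [boxVal])
  rcases le_total m (121/200) with h25 | h25
  · exact box_ok (299/500) (121/200) (201/500) (by norm_num) h24 h25 (by norm_num) hW0 (by linarith) hW2 hr0 hr1 (by norm_num [boxVal])
  exact box_ok (121/200) (61/100) (79/200) (by norm_num) h25 hm1 (by norm_num) hW0 (by linarith) hW2 hr0 hr1 (by norm_num [boxVal])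

/-- The main inequality for Boolean functions in the far range. -/
theorem far_bound {n : ℕ} {f : Cube n → ℝ} (hf : IsBool f) {ρ : ℝ} (hρ : |ρ| ≤ 4 / 25)
    (hm : |avg f| ≤ 61 / 100) (hW : W1 f ≤ 4 / 5) :
    avg (fun y => phi (T ρ f y)) - phi (avg f) ≤ phi ρ := by
  have hρ1 : |ρ| ≤ 1 := by linarith
  have hr0 : 0 ≤ ρ ^ 2 := sq_nonneg ρ
  have hr1 : ρ ^ 2 ≤ (4 / 25) ^ 2 := by
    have h := abs_le.mp hρ
    nlinarith [sq_abs ρ, abs_nonneg ρ]
  have hcore := far_core hf.abs_le hρ1 (κ := 2 / 5) (by norm_num) (by linarith)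
  have hm0 := abs_nonneg (avg f)
  have hW0 := W1_nonneg f
  have hW2 := W1_le_one_sub_abs hf.abs_le
  have hnum := far_numeric hm0 hm hW0 hW hW2 hr0 hr1
  have hsq : avg (fun x => f x ^ 2) = 1 := by
    have : (fun x => f x ^ 2) = fun _ => (1 : ℝ) := funext hf.sq
    rw [this, avg_const]
  have h2 := second_moment (ρ := ρ) (by nlinarith) f
  have h4 := fourth_moment (ρ := ρ) (by nlinarith) f
  rw [hsq] at h2 h4
  have hV : 1 - avg f ^ 2 = (1 + |avg f|) * (1 - |avg f|) := by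
    have : avg f ^ 2 = |avg f| ^ 2 := (sq_abs _).symm
    rw [this]; ring
  rw [hV] at h2 h4
  set m := |avg f| with hmdef
  set W := W1 f with hWdef
  set V := (1 + m) * (1 - m) with hVdef
  have hVpos : 0 < V := by
    apply mul_pos <;> linarith
  have hq : 0 ≤ quartC m := by
    unfold quartC
    have : 0 < 1 - m := by linarith
    positivity
  have hc2 : 0 ≤ 1 / (2 * V) + m * (2 / 5) / (6 * V ^ 2) := by positivity
  have hc4 : 0 ≤ quartC m + m / (6 * (2 / 5) * V ^ 2) := by positivity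
  have h5 := mul_le_mul_of_nonneg_left h2 hc2
  have h6 := mul_le_mul_of_nonneg_left h4 hc4
  have e1 : ρ ^ 2 * W + ρ ^ 4 * (V - W) = ρ ^ 2 * (W + ρ ^ 2 * (V - W)) := by ring
  have e2 : (3 * ρ ^ 2 * W + 9 * ρ ^ 4 * (V - W)) ^ 2
      = ρ ^ 2 * (ρ ^ 2 * (3 * W + 9 * ρ ^ 2 * (V - W)) ^ 2) := by ring
  rw [e1] at h5
  rw [e2] at h6
  have h7 := mul_le_mul_of_nonneg_left hnum hr0
  have h8 := phi_ge hρ1
  have h9 : 0 ≤ ρ ^ 4 / 12 := by positivity
  calc avg (fun y => phi (T ρ f y)) - phi (avg f)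
      ≤ ρ ^ 2 * (1 / 2) := by
        refine hcore.trans ?_
        refine (add_le_add h5 h6).trans ?_
        refine le_trans (le_of_eq ?_) h7
        ring
    _ ≤ phi ρ := by linarith

/-- The main inequality when the mean is large: strong data processing. -/
theorem large_mean_bound {n : ℕ} {f : Cube n → ℝ} (hf : IsBool f) {ρ : ℝ} (hρ : |ρ| ≤ 1)
    (hm : 61 / 100 ≤ |avg f|) :
    avg (fun y => phi (T ρ f y)) - phi (avg f) ≤ phi ρ := by
  have h1 := sdpi hρ f hf.abs_le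
  have h2 : avg (fun x => phi (f x)) = log 2 := by
    have : (fun x => phi (f x)) = fun _ => log 2 := by
      funext x
      rcases hf x with h | h <;> rw [h]
      · exact phi_one
      · exact phi_neg_one
    rw [this, avg_const]
  rw [h2] at h1
  have hm1 := abs_avg_le_one hf.abs_le
  have h3 := phi_ge (t := |avg f|) (by rw [abs_abs]; exact hm1)
  rw [phi_abs] at h3
  have h4 : (61 / 100 : ℝ) ^ 2 ≤ |avg f| ^ 2 := pow_le_pow_left₀ (by norm_num) hm 2
  have h5 : (61 / 100 : ℝ) ^ 4 ≤ |avg f| ^ 4 := pow_le_pow_left₀ (by norm_num) hm 4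
  have h6 := Real.log_two_lt_d9
  have h7 : log 2 - phi (avg f) ≤ 1 / 2 := by
    rw [sq_abs] at h3 h4
    norm_num at h4 h5 h6
    linarith
  have h8 := phi_ge hρ
  have h9 : 0 ≤ ρ ^ 4 / 12 := by positivity
  have h10 : 0 ≤ ρ ^ 2 := sq_nonneg ρ
  nlinarith

/-- **The Courtade–Kumar inequality at high noise**, in `nats` and in terms of the noise operator. -/
theorem conj_avg {n : ℕ} {f : Cube n → ℝ} (hf : IsBool f) {ρ : ℝ} (hρ : |ρ| ≤ 4 / 25) :
    avg (fun y => phi (T ρ f y)) - phi (avg f) ≤ phi ρ := by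
  have hρ1 : |ρ| ≤ 1 := by linarith
  by_cases hm : 61 / 100 ≤ |avg f|
  · exact large_mean_bound hf hρ1 hm
  have hm' : |avg f| ≤ 61 / 100 := (not_le.mp hm).le
  by_cases hc : ∀ i, |coef i f| ≤ 9 / 20
  · exact far_bound hf hρ hm' (W1_lt_of_small_coef hf.abs_le hc).le
  · simp only [not_forall, not_le] at hc
    obtain ⟨i, hi⟩ := hc
    cases n with
    | zero => exact i.elim0
    | succ n =>
      apply near_dictator_N1 i hf hρ1
      have hr0 : 0 ≤ ρ ^ 2 := sq_nonneg ρ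
      have hr1 : ρ ^ 2 ≤ (4 / 25) ^ 2 := by
        have h := abs_le.mp hρ
        nlinarith [sq_abs ρ, abs_nonneg ρ]
      have h8 := phi_ge hρ1
      have h9 : 0 ≤ ρ ^ 4 / 12 := by positivity
      have h6 := Real.log_two_lt_d9
      have h10 : 1 + (1 - (4 / 25 : ℝ) ^ 2) * (9 / 20) ≤ 1 + (1 - ρ ^ 2) * |coef i f| := by
        have : (1 - (4 / 25 : ℝ) ^ 2) * (9 / 20) ≤ (1 - ρ ^ 2) * |coef i f| := by
          apply mul_le_mul (by linarith) hi.le (by norm_num) (by nlinarith)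
        linarith
      have h11 : 0 ≤ phi ρ := phi_nonneg hρ1
      have h12 : phi ρ * (1 + (1 - (4 / 25 : ℝ) ^ 2) * (9 / 20)) ≤ phi ρ * (1 + (1 - ρ ^ 2) * |coef i f|) :=
        mul_le_mul_of_nonneg_left h10 h11
      have h13 : ρ ^ 2 * log 2 ≤ (ρ ^ 2 / 2) * (1 + (1 - (4 / 25 : ℝ) ^ 2) * (9 / 20)) := by
        have h15 : log 2 ≤ (1 / 2) * (1 + (1 - (4 / 25 : ℝ) ^ 2) * (9 / 20)) := by
          norm_num at h6 ⊢
          linarith
        calc ρ ^ 2 * log 2 ≤ ρ ^ 2 * ((1 / 2) * (1 + (1 - (4 / 25 : ℝ) ^ 2) * (9 / 20))) :=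
              mul_le_mul_of_nonneg_left h15 hr0
          _ = _ := by ring
      have h14 : (ρ ^ 2 / 2) * (1 + (1 - (4 / 25 : ℝ) ^ 2) * (9 / 20))
          ≤ phi ρ * (1 + (1 - (4 / 25 : ℝ) ^ 2) * (9 / 20)) := by
        apply mul_le_mul_of_nonneg_right (by linarith) (by norm_num)
      linarith

end Vale.Agent.Lib.P322
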