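import Vale.Agent.Lib.P322.Far

/-!
Moments of the noise operator applied to a Boolean function, centred at its mean.
-/

namespace Vale.Agent.Lib.P322

open Real

lemma avg_sgn {n : ℕ} (i : Fin n) : avg (fun x : Cube n => sgn (x i)) = 0 := by
  have h := avg_flip (fun x : Cube n => sgn (x i))
  have h2 : avg (fun x : Cube n => sgn (flipBits x i)) = - avg (fun x : Cube n => sgn (x i)) := by
    rw [← avg_neg]
    apply avg_congr
    intro x
    simp [flipBits, sgn_not]
  linarith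

lemma coef_sub_const {n : ℕ} (i : Fin n) (g : Cube n → ℝ) (c : ℝ) :
    coef i (fun x => g x - c) = coef i g := by
  unfold coef
  have e : (fun x => (g x - c) * sgn (x i)) = fun x => g x * sgn (x i) - c * sgn (x i) := by
    funext x; ring
  rw [e, avg_sub, avg_mul_left, avg_sgn]
  ring

lemma W1_sub_const {n : ℕ} (g : Cube n → ℝ) (c : ℝ) : W1 (fun x => g x - c) = W1 g := by
  unfold W1
  apply Finset.sum_congr rfl
  intro i _
  rw [coef_sub_const]

lemma T_sub_const {n : ℕ} (ρ : ℝ) (g : Cube n → ℝ) (c : ℝ) (y : Cube n) :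
    T ρ (fun x => g x - c) y = T ρ g y - c := by
  rw [T_sub, T_const]

lemma avg_sub_const_sq {n : ℕ} (g : Cube n → ℝ) :
    avg (fun x => (g x - avg g) ^ 2) = avg (fun x => g x ^ 2) - avg g ^ 2 := by
  have e : (fun x => (g x - avg g) ^ 2)
      = fun x => g x ^ 2 + (- (2 * avg g) * g x + avg g ^ 2) := by
    funext x; ring
  rw [e, avg_add, avg_add, avg_mul_left, avg_const]
  ring

lemma avg_sub_self {n : ℕ} (g : Cube n → ℝ) : avg (fun x => g x - avg g) = 0 := by
  rw [avg_sub, avg_const]; ring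

/-- Second moment of the centred noisy function. -/
lemma second_moment {n : ℕ} {ρ : ℝ} (h0 : ρ ^ 2 ≤ 1) (g : Cube n → ℝ) :
    avg (fun y => (T ρ g y - avg g) ^ 2)
      ≤ ρ ^ 2 * W1 g + ρ ^ 4 * (avg (fun x => g x ^ 2) - avg g ^ 2 - W1 g) := by
  have h := avg_T_sq_le h0 (fun x => g x - avg g)
  rw [avg_sub_self, W1_sub_const, avg_sub_const_sq] at h
  simp only [T_sub_const] at h
  have e : (0 : ℝ) ^ 2 = 0 := by norm_num
  rw [e] at h
  have e2 : (avg (fun x => g x ^ 2) - avg g ^ 2 - 0 - W1 g)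
      = avg (fun x => g x ^ 2) - avg g ^ 2 - W1 g := by ring
  rw [e2, zero_add] at h
  exact h

/-- Fourth moment of the centred noisy function. -/
lemma fourth_moment {n : ℕ} {ρ : ℝ} (h0 : 3 * ρ ^ 2 ≤ 1) (g : Cube n → ℝ) :
    avg (fun y => (T ρ g y - avg g) ^ 4)
      ≤ (3 * ρ ^ 2 * W1 g + 9 * ρ ^ 4 * (avg (fun x => g x ^ 2) - avg g ^ 2 - W1 g)) ^ 2 := by
  set r' : ℝ := Real.sqrt 3 * ρ with hr'
  have hr2 : r' ^ 2 = 3 * ρ ^ 2 := by
    rw [hr', mul_pow, Real.sq_sqrt (by norm_num)]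
  have hb := bonami (r := ρ) (r' := r') (by rw [hr2]) (fun x => g x - avg g)
  simp only [T_sub_const] at hb
  have h2 := second_moment (ρ := r') (by rw [hr2]; exact h0) g
  have e : avg (fun y => (T r' (fun x => g x - avg g) y) ^ 2) = avg (fun y => (T r' g y - avg g) ^ 2) := by
    simp only [T_sub_const]
  have h3 : r' ^ 4 = 9 * ρ ^ 4 := by
    have : r' ^ 4 = (r' ^ 2) ^ 2 := by ring
    rw [this, hr2]; ring
  rw [hr2, h3] at h2
  refine hb.trans ?_
  apply pow_le_pow_left₀ (avg_nonneg (fun y => sq_nonneg _)) h2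

/-- `|t|³` absorbed by the second and fourth powers. -/
lemma abs_cube_le {κ : ℝ} (hκ : 0 < κ) (t : ℝ) :
    |t| ^ 3 ≤ κ / 2 * t ^ 2 + t ^ 4 / (2 * κ) := by
  have e : κ / 2 * t ^ 2 + t ^ 4 / (2 * κ) - |t| ^ 3 = t ^ 2 / (2 * κ) * (κ - |t|) ^ 2 := by
    have h2 : t ^ 2 = |t| ^ 2 := (sq_abs t).symm
    have h4 : t ^ 4 = |t| ^ 4 := by
      have e4 : t ^ 4 = (t ^ 2) ^ 2 := by ring
      rw [e4, h2]; ring
    rw [h2, h4]
    field_simp
    ring
  have h : 0 ≤ t ^ 2 / (2 * κ) * (κ - |t|) ^ 2 := by positivity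
  linarith

/-- The general estimate in the range where neither the mean nor a coefficient is large. -/
theorem far_core {n : ℕ} {f : Cube n → ℝ} (hf : ∀ x, |f x| ≤ 1) {ρ κ : ℝ} (hρ : |ρ| ≤ 1)
    (hκ : 0 < κ) (hm : |avg f| < 1) :
    avg (fun y => phi (T ρ f y)) - phi (avg f)
      ≤ (1 / (2 * ((1 + |avg f|) * (1 - |avg f|)))
            + |avg f| * κ / (6 * ((1 + |avg f|) * (1 - |avg f|)) ^ 2))
          * avg (fun y => (T ρ f y - avg f) ^ 2)
        + (quartC |avg f| + |avg f| / (6 * κ * ((1 + |avg f|) * (1 - |avg f|)) ^ 2))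
          * avg (fun y => (T ρ f y - avg f) ^ 4) := by
  set m := avg f with hmdef
  have hTbound : ∀ y, |T ρ f y| ≤ 1 := by
    intro y
    have hk : ∀ x, 0 ≤ krn ρ x y := by
      intro x
      unfold krn
      apply Finset.prod_nonneg
      intro i _
      have h1 := abs_le.mp hρ
      have h2 : |ρ * sgn (x i) * sgn (y i)| ≤ 1 := by
        rw [abs_mul, abs_mul, abs_sgn, abs_sgn, mul_one, mul_one]; exact hρ
      have h3 := abs_le.mp h2
      linarith [h3.1]
    unfold T
    calc |∑ x, krn ρ x y * f x| ≤ ∑ x, |krn ρ x y * f x| := Finset.abs_sum_le_sum_abs _ _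
      _ ≤ ∑ x, krn ρ x y := by
        apply Finset.sum_le_sum
        intro x _
        rw [abs_mul, abs_of_nonneg (hk x)]
        have := hf x
        nlinarith [hk x]
      _ = 1 := sum_krn ρ y
  have hpt : ∀ y, phi (T ρ f y) - phi m
        - (T ρ f y - m) / 2 * (log (1 + m) - log (1 - m))
      ≤ (1 / (2 * ((1 + |m|) * (1 - |m|))) + |m| * κ / (6 * ((1 + |m|) * (1 - |m|)) ^ 2))
          * (T ρ f y - m) ^ 2
        + (quartC |m| + |m| / (6 * κ * ((1 + |m|) * (1 - |m|)) ^ 2)) * (T ρ f y - m) ^ 4 := by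
    intro y
    have h1 := xi_le (m := m) (t := T ρ f y - m) hm (by
      rw [add_sub_cancel]; exact hTbound y)
    rw [add_sub_cancel] at h1
    set t := T ρ f y - m
    have h2 := abs_cube_le hκ t
    have hV : 0 < (1 + |m|) * (1 - |m|) := by
      have := abs_nonneg m
      apply mul_pos <;> linarith
    set V := (1 + |m|) * (1 - |m|)
    have h3 : |m| * |t| ^ 3 / (3 * V ^ 2) ≤ |m| * (κ / 2 * t ^ 2 + t ^ 4 / (2 * κ)) / (3 * V ^ 2) := by
      apply div_le_div_of_nonneg_right _ (by positivity)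
      exact mul_le_mul_of_nonneg_left h2 (abs_nonneg m)
    have e : |m| * (κ / 2 * t ^ 2 + t ^ 4 / (2 * κ)) / (3 * V ^ 2)
        = |m| * κ / (6 * V ^ 2) * t ^ 2 + |m| / (6 * κ * V ^ 2) * t ^ 4 := by
      field_simp
      ring
    have e2 : t ^ 2 / (2 * V) = 1 / (2 * V) * t ^ 2 := by ring
    rw [e] at h3
    rw [e2] at h1
    nlinarith
  have h := avg_mono hpt
  have e1 : avg (fun y => phi (T ρ f y) - phi m - (T ρ f y - m) / 2 * (log (1 + m) - log (1 - m)))
      = avg (fun y => phi (T ρ f y)) - phi m - 0 := by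
    rw [avg_sub, avg_sub, avg_const]
    congr 1
    have e3 : (fun y => (T ρ f y - m) / 2 * (log (1 + m) - log (1 - m)))
        = fun y => (T ρ f y - m) * ((log (1 + m) - log (1 - m)) / 2) := by
      funext y; ring
    rw [e3, avg_mul_right, avg_sub, avg_const, avg_T]
    simp [hmdef]
  rw [e1, avg_add, avg_mul_left, avg_mul_left] at h
  linarith

end Vale.Agent.Lib.P322
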