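import Mathlib

/-!
The function `phi t = ((1+t) log (1+t) + (1-t) log (1-t)) / 2`.
-/

namespace Vale.Agent.Lib.P322

open Real

/-- Capacity-type function: `phi t / log 2 = 1 - h₂((1+t)/2)`. -/
noncomputable def phi (t : ℝ) : ℝ := ((1 + t) * log (1 + t) + (1 - t) * log (1 - t)) / 2

lemma phi_neg (t : ℝ) : phi (-t) = phi t := by
  unfold phi
  rw [show (1 + -t) = 1 - t by ring, show (1 - -t) = 1 + t by ring]
  ring

lemma phi_zero : phi 0 = 0 := by
  unfold phi; simp

lemma phi_one : phi 1 = log 2 := by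
  unfold phi
  norm_num

lemma phi_neg_one : phi (-1) = log 2 := by
  rw [phi_neg, phi_one]

lemma phi_abs (t : ℝ) : phi |t| = phi t := by
  rcases abs_cases t with ⟨h, _⟩ | ⟨h, _⟩ <;> rw [h]
  exact phi_neg t

lemma continuous_phi : Continuous phi := by
  unfold phi
  have h1 : Continuous (fun t : ℝ => (1 + t) * log (1 + t)) :=
    Real.continuous_mul_log.comp (continuous_const.add continuous_id)
  have h2 : Continuous (fun t : ℝ => (1 - t) * log (1 - t)) :=
    Real.continuous_mul_log.comp (continuous_const.sub continuous_id)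
  exact (h1.add h2).div_const 2

/-- Power series coefficient of `phi`. -/
noncomputable def phiCoef (k : ℕ) : ℝ := 1 / ((2 * k + 1) * (2 * k + 2))

lemma phiCoef_nonneg (k : ℕ) : 0 ≤ phiCoef k := by
  unfold phiCoef; positivity

lemma hasSum_phi {t : ℝ} (ht : |t| < 1) :
    HasSum (fun k : ℕ => phiCoef k * t ^ (2 * k + 2)) (phi t) := by
  have h1 : HasSum (fun n : ℕ => (t ^ 2) ^ (n + 1) / ((n : ℝ) + 1)) (-log (1 - t ^ 2)) := by
    apply Real.hasSum_pow_div_log_of_abs_lt_one
    rw [abs_pow]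
    have := abs_nonneg t
    nlinarith
  have h2 := Real.hasSum_log_sub_log_of_abs_lt_one ht
  have h3 := h2.mul_left (t / 2)
  have h4 := h1.mul_left (1 / 2 : ℝ)
  have h5 := h3.sub h4
  have hpos : 0 < 1 + t := by have := (abs_lt.mp ht).1; linarith
  have hpos2 : 0 < 1 - t := by have := (abs_lt.mp ht).2; linarith
  have heq : t / 2 * (log (1 + t) - log (1 - t)) - 1 / 2 * -log (1 - t ^ 2) = phi t := by
    have : 1 - t ^ 2 = (1 + t) * (1 - t) := by ring
    rw [this, Real.log_mul hpos.ne' hpos2.ne']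
    unfold phi
    ring
  rw [heq] at h5
  have e : (fun k : ℕ => phiCoef k * t ^ (2 * k + 2))
      = fun k : ℕ => t / 2 * (2 * (1 / (2 * (k : ℝ) + 1)) * t ^ (2 * k + 1))
          - 1 / 2 * ((t ^ 2) ^ (k + 1) / ((k : ℝ) + 1)) := by
    funext k
    unfold phiCoef
    have h6 : (k : ℝ) + 1 ≠ 0 := by positivity
    have h7 : (2 * (k : ℝ) + 1) ≠ 0 := by positivity
    have h8 : (2 * (k : ℝ) + 2) ≠ 0 := by positivity
    have e1 : t ^ (2 * k + 2) = t * t ^ (2 * k + 1) := by ring
    have e2 : (t ^ 2) ^ (k + 1) = t * t ^ (2 * k + 1) := by ring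
    rw [e1, e2]
    field_simp
    ring
  rw [e]
  exact h5

lemma phi_scale_of_lt {r t : ℝ} (hr : |r| ≤ 1) (ht : |t| < 1) : phi (r * t) ≤ r ^ 2 * phi t := by
  have hrt : |r * t| < 1 := by
    rw [abs_mul]
    have := abs_nonneg t
    have := abs_nonneg r
    nlinarith
  have h1 := hasSum_phi hrt
  have h2 := (hasSum_phi ht).mul_left (r ^ 2)
  apply hasSum_le _ h1 h2
  intro k
  have h3 : (r * t) ^ (2 * k + 2) = (r ^ 2) ^ (k + 1) * (t ^ 2) ^ (k + 1) := by ring
  have h4 : t ^ (2 * k + 2) = (t ^ 2) ^ (k + 1) := by ring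
  rw [h3, h4]
  have h5 : (r ^ 2) ^ (k + 1) ≤ r ^ 2 := by
    have h6 : r ^ 2 ≤ 1 := by
      have := abs_le.mp hr
      nlinarith
    have h7 : 0 ≤ r ^ 2 := sq_nonneg r
    calc (r ^ 2) ^ (k + 1) = (r ^ 2) ^ k * r ^ 2 := by ring
      _ ≤ 1 * r ^ 2 := by
        apply mul_le_mul_of_nonneg_right _ h7
        exact pow_le_one₀ h7 h6
      _ = r ^ 2 := one_mul _
  have h8 := phiCoef_nonneg k
  have h9 : 0 ≤ (t ^ 2) ^ (k + 1) := by positivity
  calc phiCoef k * ((r ^ 2) ^ (k + 1) * (t ^ 2) ^ (k + 1))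
      ≤ phiCoef k * (r ^ 2 * (t ^ 2) ^ (k + 1)) := by
        apply mul_le_mul_of_nonneg_left _ h8
        exact mul_le_mul_of_nonneg_right h5 h9
    _ = r ^ 2 * (phiCoef k * (t ^ 2) ^ (k + 1)) := by ring

/-- The scaling inequality: `phi (r t) ≤ r² phi t`. -/
lemma phi_scale {r t : ℝ} (hr : |r| ≤ 1) (ht : |t| ≤ 1) : phi (r * t) ≤ r ^ 2 * phi t := by
  rcases lt_or_eq_of_le ht with ht1 | ht1
  · exact phi_scale_of_lt hr ht1
  · -- boundary: pass to the limit along `s * t`, `s → 1⁻`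
    have hcont : Continuous (fun s : ℝ => r ^ 2 * phi (s * t) - phi (r * (s * t))) := by
      have h1 : Continuous (fun s : ℝ => phi (s * t)) :=
        continuous_phi.comp (continuous_id.mul continuous_const)
      have h2 : Continuous (fun s : ℝ => phi (r * (s * t))) :=
        continuous_phi.comp (continuous_const.mul (continuous_id.mul continuous_const))
      exact (continuous_const.mul h1).sub h2
    have hlim : Filter.Tendsto (fun s : ℝ => r ^ 2 * phi (s * t) - phi (r * (s * t)))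
        (nhdsWithin 1 (Set.Iio 1)) (nhds (r ^ 2 * phi (1 * t) - phi (r * (1 * t)))) :=
      (hcont.tendsto 1).mono_left nhdsWithin_le_nhds
    have hev : ∀ᶠ s in nhdsWithin (1 : ℝ) (Set.Iio 1),
        0 ≤ r ^ 2 * phi (s * t) - phi (r * (s * t)) := by
      have h3 : Set.Ioo (0 : ℝ) 1 ∈ nhdsWithin (1 : ℝ) (Set.Iio 1) :=
        Ioo_mem_nhdsLT (by norm_num)
      filter_upwards [h3] with s hs
      have h4 : |s * t| < 1 := by
        rw [abs_mul, ht1, mul_one, abs_of_pos hs.1]
        exact hs.2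
      have := phi_scale_of_lt hr h4
      linarith
    have := ge_of_tendsto hlim hev
    simp only [one_mul] at this
    linarith

lemma phi_ge_of_lt {t : ℝ} (ht : |t| < 1) : t ^ 2 / 2 + t ^ 4 / 12 ≤ phi t := by
  have h1 := hasSum_phi ht
  have h2 := sum_le_hasSum (Finset.range 2) (fun k _ => by
    have := phiCoef_nonneg k
    have e : t ^ (2 * k + 2) = (t ^ 2) ^ (k + 1) := by ring
    rw [e]
    positivity) h1
  simp only [Finset.sum_range_succ, Finset.sum_range_zero, zero_add] at h2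
  unfold phiCoef at h2
  norm_num at h2
  linarith

/-- `phi` dominates its first two Taylor terms on `[-1, 1]`. -/
lemma phi_ge {t : ℝ} (ht : |t| ≤ 1) : t ^ 2 / 2 + t ^ 4 / 12 ≤ phi t := by
  rcases lt_or_eq_of_le ht with ht1 | ht1
  · exact phi_ge_of_lt ht1
  · have h2 : t ^ 2 = 1 := by rw [← sq_abs, ht1]; norm_num
    have h4 : t ^ 4 = 1 := by
      have : t ^ 4 = (t ^ 2) ^ 2 := by ring
      rw [this, h2]; norm_num
    have h3 : phi t = log 2 := by
      rw [← phi_abs, ht1, phi_one]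
    rw [h2, h4, h3]
    have := Real.log_two_gt_d9
    norm_num at this ⊢
    linarith

lemma phi_nonneg {t : ℝ} (ht : |t| ≤ 1) : 0 ≤ phi t := by
  have := phi_ge ht
  have h2 : 0 ≤ t ^ 2 / 2 + t ^ 4 / 12 := by positivity
  linarith

/-- `phi` is at most `log 2` on `[-1, 1]`: scaling with `t = 1`. -/
lemma phi_le_log_two {t : ℝ} (ht : |t| ≤ 1) : phi t ≤ log 2 := by
  have h := phi_scale (r := t) (t := 1) ht (by norm_num)
  rw [mul_one, phi_one] at h
  have h2 : t ^ 2 ≤ 1 := by
    have := abs_le.mp ht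
    nlinarith
  have := Real.log_pos (by norm_num : (1:ℝ) < 2)
  nlinarith

/-- `(1 - t²) phi t ≤ t² / 2`. -/
lemma one_sub_sq_mul_phi_le {t : ℝ} (ht : |t| ≤ 1) : (1 - t ^ 2) * phi t ≤ t ^ 2 / 2 := by
  rcases lt_or_eq_of_le ht with ht1 | ht1
  · have h1 := hasSum_phi ht1
    have hq : |t ^ 2| < 1 := by
      rw [abs_pow]
      have := abs_nonneg t
      nlinarith
    have h2 : HasSum (fun k : ℕ => (1 / 2 : ℝ) * t ^ 2 * (t ^ 2) ^ k) ((1 / 2) * t ^ 2 * (1 - t ^ 2)⁻¹) :=
      (hasSum_geometric_of_abs_lt_one hq).mul_left _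
    have h3 : phi t ≤ (1 / 2) * t ^ 2 * (1 - t ^ 2)⁻¹ := by
      apply hasSum_le _ h1 h2
      intro k
      have e : t ^ (2 * k + 2) = t ^ 2 * (t ^ 2) ^ k := by ring
      rw [e]
      have h4 : phiCoef k ≤ 1 / 2 := by
        unfold phiCoef
        rw [div_le_div_iff₀ (by positivity) (by norm_num)]
        have : (0 : ℝ) ≤ k := Nat.cast_nonneg k
        nlinarith
      have h5 : 0 ≤ t ^ 2 * (t ^ 2) ^ k := by positivity
      calc phiCoef k * (t ^ 2 * (t ^ 2) ^ k) ≤ 1 / 2 * (t ^ 2 * (t ^ 2) ^ k) :=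
            mul_le_mul_of_nonneg_right h4 h5
        _ = _ := by ring
    have hpos : 0 < 1 - t ^ 2 := by
      have := abs_nonneg t
      have h6 : t ^ 2 = |t| ^ 2 := by rw [sq_abs]
      nlinarith
    calc (1 - t ^ 2) * phi t ≤ (1 - t ^ 2) * ((1 / 2) * t ^ 2 * (1 - t ^ 2)⁻¹) :=
          mul_le_mul_of_nonneg_left h3 hpos.le
      _ = t ^ 2 / 2 := by field_simp
  · have h2 : t ^ 2 = 1 := by rw [← sq_abs, ht1]; norm_num
    rw [h2]; norm_num

/-- Convexity-type expression: `t log t` along the line. -/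
lemma convexOn_phi : ConvexOn ℝ (Set.Icc (-1) 1) phi := by
  have h1 : ConvexOn ℝ (Set.Icc (-1 : ℝ) 1) (fun t : ℝ => (1 + t) * log (1 + t)) := by
    refine ⟨convex_Icc _ _, ?_⟩
    intro x hx y hy a b ha hb hab
    have hc := Real.convexOn_mul_log.2 (x := 1 + x) (y := 1 + y)
      (by simp only [Set.mem_Ici]; linarith [hx.1]) (by simp only [Set.mem_Ici]; linarith [hy.1]) ha hb hab
    have e : a • (1 + x) + b • (1 + y) = 1 + (a • x + b • y) := by
      simp only [smul_eq_mul]
      have : b = 1 - a := by linarith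
      subst this
      ring
    rw [e] at hc
    exact hc
  have h2 : ConvexOn ℝ (Set.Icc (-1 : ℝ) 1) (fun t : ℝ => (1 - t) * log (1 - t)) := by
    refine ⟨convex_Icc _ _, ?_⟩
    intro x hx y hy a b ha hb hab
    have hc := Real.convexOn_mul_log.2 (x := 1 - x) (y := 1 - y)
      (by simp only [Set.mem_Ici]; linarith [hx.2]) (by simp only [Set.mem_Ici]; linarith [hy.2]) ha hb hab
    have e : a • (1 - x) + b • (1 - y) = 1 - (a • x + b • y) := by
      simp only [smul_eq_mul]
      have : b = 1 - a := by linarith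
      subst this
      ring
    rw [e] at hc
    exact hc
  have h3 := (h1.add h2).smul (show (0 : ℝ) ≤ 1 / 2 by norm_num)
  refine ⟨convex_Icc _ _, ?_⟩
  intro x hx y hy a b ha hb hab
  have := h3.2 hx hy ha hb hab
  simp only [Pi.add_apply, smul_eq_mul] at this
  unfold phi
  simp only [smul_eq_mul]
  nlinarith [this]

end Vale.Agent.Lib.P322
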