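import Vale.Agent.Lib.P322.Fourier

/-!
Rademacher sums: moments, and bounds on the level-one weight of a bounded function.
-/

namespace Vale.Agent.Lib.P322

open Finset

/-- The Rademacher sum with coefficients `a`. -/
noncomputable def rad {n : ℕ} (a : Fin n → ℝ) (x : Cube n) : ℝ := ∑ i, a i * sgn (x i)

/-- Power sums of a vector. -/
noncomputable def pw {n : ℕ} (k : ℕ) (a : Fin n → ℝ) : ℝ := ∑ i, a i ^ k

lemma rad_ins {n : ℕ} (a : Fin (n + 1) → ℝ) (p : Fin (n + 1)) (b : Bool) (x : Cube n) :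
    rad a (ins p b x) = a p * sgn b + rad (fun i => a (p.succAbove i)) x := by
  unfold rad
  rw [Fin.sum_univ_succAbove _ p]
  simp

lemma pw_split {n : ℕ} (k : ℕ) (a : Fin (n + 1) → ℝ) (p : Fin (n + 1)) :
    pw k a = a p ^ k + pw k (fun i => a (p.succAbove i)) := by
  unfold pw
  rw [Fin.sum_univ_succAbove _ p]

lemma rad_flip {n : ℕ} (a : Fin n → ℝ) (x : Cube n) : rad a (flipBits x) = - rad a x := by
  unfold rad flipBits
  rw [← Finset.sum_neg_distrib]
  apply Finset.sum_congr rfl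
  intro i _
  rw [sgn_not]; ring

lemma avg_rad_pow_two {n : ℕ} (a : Fin n → ℝ) : avg (fun x => rad a x ^ 2) = pw 2 a := by
  induction n with
  | zero =>
    have x : Cube 0 := fun i => i.elim0
    rw [avg_zero_dim _ x]; simp [rad, pw]
  | succ n ih =>
    rw [avg_split' 0, pw_split 2 a 0, ← ih]
    have : ∀ x, ((rad a (ins 0 true x)) ^ 2 + (rad a (ins 0 false x)) ^ 2) / 2
        = a 0 ^ 2 + rad (fun i => a (Fin.succAbove 0 i)) x ^ 2 := by
      intro x
      rw [rad_ins, rad_ins]; simp only [sgn_true, sgn_false]; ring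
    simp only [this]
    rw [avg_add, avg_const]

lemma avg_rad_pow_four {n : ℕ} (a : Fin n → ℝ) :
    avg (fun x => rad a x ^ 4) = 3 * pw 2 a ^ 2 - 2 * pw 4 a := by
  induction n with
  | zero =>
    have x : Cube 0 := fun i => i.elim0
    rw [avg_zero_dim _ x]; simp [rad, pw]
  | succ n ih =>
    rw [avg_split' 0, pw_split 2 a 0, pw_split 4 a 0]
    have : ∀ x, ((rad a (ins 0 true x)) ^ 4 + (rad a (ins 0 false x)) ^ 4) / 2
        = a 0 ^ 4 + 6 * a 0 ^ 2 * rad (fun i => a (Fin.succAbove 0 i)) x ^ 2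
          + rad (fun i => a (Fin.succAbove 0 i)) x ^ 4 := by
      intro x
      rw [rad_ins, rad_ins]; simp only [sgn_true, sgn_false]; ring
    simp only [this]
    rw [avg_add, avg_add, avg_const, avg_mul_left, avg_rad_pow_two, ih]
    ring

lemma avg_rad_pow_six {n : ℕ} (a : Fin n → ℝ) :
    avg (fun x => rad a x ^ 6) = 15 * pw 2 a ^ 3 - 30 * pw 2 a * pw 4 a + 16 * pw 6 a := by
  induction n with
  | zero =>
    have x : Cube 0 := fun i => i.elim0
    rw [avg_zero_dim _ x]; simp [rad, pw]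
  | succ n ih =>
    rw [avg_split' 0, pw_split 2 a 0, pw_split 4 a 0, pw_split 6 a 0]
    have : ∀ x, ((rad a (ins 0 true x)) ^ 6 + (rad a (ins 0 false x)) ^ 6) / 2
        = a 0 ^ 6 + 15 * a 0 ^ 4 * rad (fun i => a (Fin.succAbove 0 i)) x ^ 2
          + 15 * a 0 ^ 2 * rad (fun i => a (Fin.succAbove 0 i)) x ^ 4
          + rad (fun i => a (Fin.succAbove 0 i)) x ^ 6 := by
      intro x
      rw [rad_ins, rad_ins]; simp only [sgn_true, sgn_false]; ring
    simp only [this]
    rw [avg_add, avg_add, avg_add, avg_const, avg_mul_left, avg_mul_left, avg_rad_pow_two,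
      avg_rad_pow_four, ih]
    ring

lemma avg_sum {n : ℕ} {ι : Type*} [Fintype ι] (F : ι → Cube n → ℝ) :
    avg (fun x => ∑ i, F i x) = ∑ i, avg (F i) := by
  unfold avg
  rw [← Finset.sum_div, Finset.sum_comm]

/-- The inner product of `g` with a Rademacher sum. -/
lemma avg_mul_rad {n : ℕ} (g : Cube n → ℝ) (a : Fin n → ℝ) :
    avg (fun x => g x * rad a x) = ∑ i, a i * coef i g := by
  have : (fun x => g x * rad a x) = fun x => ∑ i, a i * (g x * sgn (x i)) := by
    funext x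
    unfold rad
    rw [Finset.mul_sum]
    apply Finset.sum_congr rfl
    intro i _
    ring
  rw [this, avg_sum]
  apply Finset.sum_congr rfl
  intro i _
  rw [avg_mul_left]
  rfl

/-- The level-one part of a function. -/
noncomputable def lev1 {n : ℕ} (g : Cube n → ℝ) : Cube n → ℝ := rad (fun i => coef i g)

lemma avg_mul_lev1 {n : ℕ} (g : Cube n → ℝ) : avg (fun x => g x * lev1 g x) = W1 g := by
  unfold lev1 W1
  rw [avg_mul_rad]
  apply Finset.sum_congr rfl
  intro i _
  ring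

lemma avg_rad {n : ℕ} (a : Fin n → ℝ) : avg (rad a) = 0 := by
  have h := avg_flip (rad a)
  have h2 : avg (fun x => rad a (flipBits x)) = - avg (rad a) := by
    rw [← avg_neg]
    apply avg_congr
    intro x
    rw [rad_flip]
  rw [h2] at h
  linarith

lemma avg_lev1_sq {n : ℕ} (g : Cube n → ℝ) : avg (fun x => lev1 g x ^ 2) = W1 g := by
  unfold lev1 W1
  rw [avg_rad_pow_two]
  rfl

lemma abs_add_abs_sub_le (t : ℝ) : |t + 1 / 2| + |t - 1 / 2| ≤ 1 + t ^ 2 := by
  have h6 : (t - 1) ^ 2 ≥ 0 := sq_nonneg _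
  have h7 : (t + 1) ^ 2 ≥ 0 := sq_nonneg _
  rcases abs_cases (t + 1 / 2) with ⟨h8, h9⟩ | ⟨h8, h9⟩ <;>
  rcases abs_cases (t - 1 / 2) with ⟨h10, h11⟩ | ⟨h10, h11⟩ <;> rw [h8, h10] <;> nlinarith

/-- For `|f| ≤ 1` the level-one weight is at most `1 - μ`. -/
lemma W1_le_aux {n : ℕ} {f : Cube n → ℝ} (hf : ∀ x, |f x| ≤ 1) (q : ℝ)
    (hq : q = 1 / 2 ∨ q = - (1 / 2)) :
    W1 f + q * avg f ≤ (1 + W1 f) / 2 := by
  set L := lev1 f with hL
  have h1 : W1 f + q * avg f ≤ avg (fun x => |L x + q|) := by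
    have h2 : avg (fun x => f x * (L x + q)) = W1 f + q * avg f := by
      have : (fun x => f x * (L x + q)) = fun x => f x * L x + q * f x := by
        funext x; ring
      rw [this, avg_add, avg_mul_left, avg_mul_lev1]
    rw [← h2]
    apply avg_mono
    intro x
    calc f x * (L x + q) ≤ |f x * (L x + q)| := le_abs_self _
      _ = |f x| * |L x + q| := abs_mul _ _
      _ ≤ 1 * |L x + q| := mul_le_mul_of_nonneg_right (hf x) (abs_nonneg _)
      _ = |L x + q| := one_mul _
  have h3 : avg (fun x => |L x + q|) = avg (fun x => |L x - q|) := by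
    have h4 := avg_flip (fun x => |L x + q|)
    rw [← h4]
    apply avg_congr
    intro x
    have : L (flipBits x) = - L x := rad_flip _ x
    rw [this]
    rw [show -L x + q = -(L x - q) by ring, abs_neg]
  have h5 : avg (fun x => |L x + q|) + avg (fun x => |L x - q|) ≤ 1 + W1 f := by
    rw [← avg_add, ← avg_lev1_sq f]
    calc avg (fun x => |L x + q| + |L x - q|)
        ≤ avg (fun x => 1 + L x ^ 2) := by
          apply avg_mono
          intro x
          rcases hq with h | h <;> rw [h]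
          · exact abs_add_abs_sub_le _
          · have := abs_add_abs_sub_le (L x)
            rw [show L x + -(1/2 : ℝ) = L x - 1/2 by ring, show L x - -(1/2 : ℝ) = L x + 1/2 by ring]
            linarith
      _ = 1 + avg (fun x => L x ^ 2) := by rw [avg_add, avg_const]
  linarith

/-- The level-one weight of a function bounded by one is at most `1 - |μ|`. -/
lemma W1_le_one_sub_abs {n : ℕ} {f : Cube n → ℝ} (hf : ∀ x, |f x| ≤ 1) :
    W1 f ≤ 1 - |avg f| := by
  have h1 := W1_le_aux hf (1/2) (Or.inl rfl)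
  have h2 := W1_le_aux hf (-(1/2)) (Or.inr rfl)
  rcases abs_cases (avg f) with ⟨h3, _⟩ | ⟨h3, _⟩ <;> rw [h3] <;> linarith

lemma W1_nonneg {n : ℕ} (g : Cube n → ℝ) : 0 ≤ W1 g := by
  unfold W1
  exact Finset.sum_nonneg (fun i _ => sq_nonneg _)

/-- The moment certificate: a polynomial majorant of the absolute value. -/
lemma abs_le_certificate (t : ℝ) :
    |t| ≤ 19 / 64 + 235 / 256 * t ^ 2 - 207 / 1024 * t ^ 4 + 81 / 4096 * t ^ 6 := by
  have key : ∀ s : ℝ, 0 ≤ s →
      s ≤ 19 / 64 + 235 / 256 * s ^ 2 - 207 / 1024 * s ^ 4 + 81 / 4096 * s ^ 6 := by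
    intro s hs
    have h1 : 19 / 64 + 235 / 256 * s ^ 2 - 207 / 1024 * s ^ 4 + 81 / 4096 * s ^ 6 - s
        = 81 / 4096 * ((s - 2 / 3) ^ 2 * (s - 2) ^ 2 * (s ^ 2 + 16 / 3 * s + 76 / 9)) := by
      ring
    have h2 : 0 ≤ 81 / 4096 * ((s - 2 / 3) ^ 2 * (s - 2) ^ 2 * (s ^ 2 + 16 / 3 * s + 76 / 9)) := by
      positivity
    linarith
  rcases abs_cases t with ⟨h, h0⟩ | ⟨h, h0⟩
  · rw [h]; exact key t h0
  · rw [h]
    have := key (-t) (by linarith)
    have e2 : (-t) ^ 2 = t ^ 2 := by ring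
    have e4 : (-t) ^ 4 = t ^ 4 := by ring
    have e6 : (-t) ^ 6 = t ^ 6 := by ring
    rwa [e2, e4, e6] at this

lemma pw_four_le {n : ℕ} {a : Fin n → ℝ} {c : ℝ} (h : ∀ i, a i ^ 2 ≤ c) :
    pw 4 a ≤ c * pw 2 a := by
  unfold pw
  rw [Finset.mul_sum]
  apply Finset.sum_le_sum
  intro i _
  have : a i ^ 4 = a i ^ 2 * a i ^ 2 := by ring
  rw [this]
  exact mul_le_mul_of_nonneg_right (h i) (sq_nonneg _)

lemma pw_six_le {n : ℕ} {a : Fin n → ℝ} {c : ℝ} (h : ∀ i, a i ^ 2 ≤ c) :
    pw 6 a ≤ c * pw 4 a := by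
  unfold pw
  rw [Finset.mul_sum]
  apply Finset.sum_le_sum
  intro i _
  have : a i ^ 6 = a i ^ 2 * a i ^ 4 := by ring
  rw [this]
  exact mul_le_mul_of_nonneg_right (h i) (by positivity)

lemma pw_four_nonneg {n : ℕ} (a : Fin n → ℝ) : 0 ≤ pw 4 a := by
  unfold pw
  exact Finset.sum_nonneg (fun i _ => by positivity)

/-- If all level-one coefficients are at most `9/20` in absolute value, the level-one weight
is below `4/5`. -/
lemma W1_lt_of_small_coef {n : ℕ} {f : Cube n → ℝ} (hf : ∀ x, |f x| ≤ 1)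
    (hsmall : ∀ i, |coef i f| ≤ 9 / 20) : W1 f < 4 / 5 := by
  by_contra hW'
  have hW := not_lt.mp hW'
  set a : Fin n → ℝ := fun i => coef i f with ha
  set W := W1 f with hWdef
  have hW1 : W ≤ 1 := by
    have := W1_le_one_sub_abs hf
    have := abs_nonneg (avg f)
    linarith
  have hpw2 : pw 2 a = W := rfl
  have hle : W ≤ avg (fun x => |rad a x|) := by
    have h1 := avg_mul_lev1 f
    rw [← hWdef] at h1
    rw [← h1]
    apply avg_mono
    intro x
    calc f x * lev1 f x ≤ |f x * lev1 f x| := le_abs_self _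
      _ = |f x| * |lev1 f x| := abs_mul _ _
      _ ≤ 1 * |lev1 f x| := mul_le_mul_of_nonneg_right (hf x) (abs_nonneg _)
      _ = |rad a x| := by rw [one_mul]; rfl
  have hcert : avg (fun x => |rad a x|)
      ≤ 19 / 64 + 235 / 256 * W - 207 / 1024 * (3 * W ^ 2 - 2 * pw 4 a)
        + 81 / 4096 * (15 * W ^ 3 - 30 * W * pw 4 a + 16 * pw 6 a) := by
    calc avg (fun x => |rad a x|)
        ≤ avg (fun x => 19 / 64 + 235 / 256 * rad a x ^ 2 - 207 / 1024 * rad a x ^ 4
            + 81 / 4096 * rad a x ^ 6) := avg_mono (fun x => abs_le_certificate _)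
      _ = _ := by
        have e : (fun x => 19 / 64 + 235 / 256 * rad a x ^ 2 - 207 / 1024 * rad a x ^ 4
            + 81 / 4096 * rad a x ^ 6) = fun x => (19 / 64 + 235 / 256 * rad a x ^ 2)
            - 207 / 1024 * rad a x ^ 4 + 81 / 4096 * rad a x ^ 6 := rfl
        rw [e, avg_add, avg_sub, avg_add, avg_const, avg_mul_left, avg_mul_left, avg_mul_left,
          avg_rad_pow_two, avg_rad_pow_four, avg_rad_pow_six, hpw2]
  have hsq : ∀ i, a i ^ 2 ≤ 81 / 400 := by
    intro i
    have := hsmall i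
    have h2 := abs_le.mp this
    nlinarith [h2.1, h2.2]
  have h4 := pw_four_le hsq
  have h6 := pw_six_le hsq
  have h40 := pw_four_nonneg a
  rw [hpw2] at h4
  -- the coefficient of the fourth power sum is negative
  have hco : 2 * (207 / 1024) * pw 4 a + 81 / 4096 * (16 * (81 / 400) * pw 4 a - 30 * W * pw 4 a) ≤ 0 := by
    have : (2 * (207 / 1024) + 81 / 4096 * (16 * (81 / 400) - 30 * W)) * pw 4 a ≤ 0 := by
      apply mul_nonpos_of_nonpos_of_nonneg _ h40
      nlinarith
    nlinarith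
  have hcubic : 19 / 64 + 235 / 256 * W - 207 / 1024 * (3 * W ^ 2) + 81 / 4096 * (15 * W ^ 3) < W := by
    have h7 : 0 ≤ (W - 4 / 5) * (1 - W) := mul_nonneg (by linarith) (by linarith)
    have h8 : 0 ≤ W - 4 / 5 := by linarith
    nlinarith [mul_nonneg h7 h8, mul_nonneg h7 (by linarith : (0:ℝ) ≤ W)]
  nlinarith

end Vale.Agent.Lib.P322
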