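import Vale.Agent.Lib.P322.Rademacher
import Vale.Agent.Lib.P322.Phi

/-!
The strong data processing inequality on the cube, and its coordinate-revealing refinement.
-/

namespace Vale.Agent.Lib.P322

open Real

lemma mul_log_div_eq (x A : ℝ) (hx : 0 ≤ x) (hA : 0 < A) :
    x * log (x / A) = x * log x - x * log A := by
  rcases hx.eq_or_lt with rfl | hx'
  · simp
  · rw [Real.log_div hx'.ne' hA.ne']; ring

/-- The chain-rule form of a second difference of `phi`. -/
lemma phi_second_diff {m d : ℝ} (h : |m| + |d| ≤ 1) :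
    (phi (m + d) + phi (m - d)) / 2 - phi m
      = ((1 + m) * phi (d / (1 + m)) + (1 - m) * phi (d / (1 - m))) / 2 := by
  have hm := abs_le.mp (show |m| ≤ 1 by linarith [abs_nonneg d])
  have hd1 := le_abs_self d
  have hd2 := neg_abs_le d
  have hm1 := le_abs_self m
  have hm2 := neg_abs_le m
  rcases eq_or_lt_of_le hm.1 with hA | hA
  · -- m = -1
    have hm' : m = -1 := hA.symm
    have hd0 : d = 0 := by
      have : |m| = 1 := by rw [hm']; norm_num
      have h3 : |d| ≤ 0 := by linarith
      exact abs_nonpos_iff.mp h3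
    subst hd0
    rw [hm']
    simp [phi_zero]
  rcases eq_or_lt_of_le hm.2 with hB | hB
  · have hd0 : d = 0 := by
      have : |m| = 1 := by rw [hB]; norm_num
      have h3 : |d| ≤ 0 := by linarith
      exact abs_nonpos_iff.mp h3
    subst hd0
    rw [hB]
    simp [phi_zero]
  have hApos : 0 < 1 + m := by linarith
  have hBpos : 0 < 1 - m := by linarith
  have e1 : (1 + m) * phi (d / (1 + m))
      = ((1 + m + d) * log (1 + m + d) + (1 + m - d) * log (1 + m - d)
          - 2 * ((1 + m) * log (1 + m))) / 2 := by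
    unfold phi
    have a1 : 1 + d / (1 + m) = (1 + m + d) / (1 + m) := by field_simp
    have a2 : 1 - d / (1 + m) = (1 + m - d) / (1 + m) := by field_simp
    rw [a1, a2]
    have b1 := mul_log_div_eq (1 + m + d) (1 + m) (by linarith) hApos
    have b2 := mul_log_div_eq (1 + m - d) (1 + m) (by linarith) hApos
    have c1 : (1 + m) * ((1 + m + d) / (1 + m) * log ((1 + m + d) / (1 + m)))
        = (1 + m + d) * log ((1 + m + d) / (1 + m)) := by field_simp
    have c2 : (1 + m) * ((1 + m - d) / (1 + m) * log ((1 + m - d) / (1 + m)))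
        = (1 + m - d) * log ((1 + m - d) / (1 + m)) := by field_simp
    calc _ = ((1 + m) * ((1 + m + d) / (1 + m) * log ((1 + m + d) / (1 + m)))
          + (1 + m) * ((1 + m - d) / (1 + m) * log ((1 + m - d) / (1 + m)))) / 2 := by ring
      _ = _ := by rw [c1, c2, b1, b2]; ring
  have e2 : (1 - m) * phi (d / (1 - m))
      = ((1 - m + d) * log (1 - m + d) + (1 - m - d) * log (1 - m - d)
          - 2 * ((1 - m) * log (1 - m))) / 2 := by
    unfold phi
    have a1 : 1 + d / (1 - m) = (1 - m + d) / (1 - m) := by field_simp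
    have a2 : 1 - d / (1 - m) = (1 - m - d) / (1 - m) := by field_simp
    rw [a1, a2]
    have b1 := mul_log_div_eq (1 - m + d) (1 - m) (by linarith) hBpos
    have b2 := mul_log_div_eq (1 - m - d) (1 - m) (by linarith) hBpos
    have c1 : (1 - m) * ((1 - m + d) / (1 - m) * log ((1 - m + d) / (1 - m)))
        = (1 - m + d) * log ((1 - m + d) / (1 - m)) := by field_simp
    have c2 : (1 - m) * ((1 - m - d) / (1 - m) * log ((1 - m - d) / (1 - m)))
        = (1 - m - d) * log ((1 - m - d) / (1 - m)) := by field_simp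
    calc _ = ((1 - m) * ((1 - m + d) / (1 - m) * log ((1 - m + d) / (1 - m)))
          + (1 - m) * ((1 - m - d) / (1 - m) * log ((1 - m - d) / (1 - m)))) / 2 := by ring
      _ = _ := by rw [c1, c2, b1, b2]; ring
  rw [e1, e2]
  unfold phi
  have f1 : 1 + (m + d) = 1 + m + d := by ring
  have f2 : 1 - (m + d) = 1 - m - d := by ring
  have f3 : 1 + (m - d) = 1 + m - d := by ring
  have f4 : 1 - (m - d) = 1 - m + d := by ring
  rw [f1, f2, f3, f4]
  ring

/-- Strong data processing for a single bit. -/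
lemma one_bit_sdpi {ρ m d : ℝ} (hρ : |ρ| ≤ 1) (h : |m| + |d| ≤ 1) :
    (phi (m + ρ * d) + phi (m - ρ * d)) / 2
      ≤ (1 - ρ ^ 2) * phi m + ρ ^ 2 * ((phi (m + d) + phi (m - d)) / 2) := by
  have h' : |m| + |ρ * d| ≤ 1 := by
    rw [abs_mul]
    have := abs_nonneg d
    nlinarith
  have e1 := phi_second_diff h
  have e2 := phi_second_diff h'
  have hm := abs_le.mp (show |m| ≤ 1 by linarith [abs_nonneg d])
  have hd1 := le_abs_self m
  have hd2 := neg_abs_le m
  have hA : 0 ≤ 1 + m := by linarith
  have hB : 0 ≤ 1 - m := by linarith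
  have s1 : (1 + m) * phi (ρ * d / (1 + m)) ≤ ρ ^ 2 * ((1 + m) * phi (d / (1 + m))) := by
    rcases hA.eq_or_lt with hA0 | hA0
    · rw [← hA0]; simp
    · have h3 : |d / (1 + m)| ≤ 1 := by
        rw [abs_div, abs_of_pos hA0, div_le_one hA0]
        linarith
      have h4 := phi_scale hρ h3
      rw [mul_div_assoc]
      nlinarith
  have s2 : (1 - m) * phi (ρ * d / (1 - m)) ≤ ρ ^ 2 * ((1 - m) * phi (d / (1 - m))) := by
    rcases hB.eq_or_lt with hB0 | hB0
    · rw [← hB0]; simp
    · have h3 : |d / (1 - m)| ≤ 1 := by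
        rw [abs_div, abs_of_pos hB0, div_le_one hB0]
        linarith
      have h4 := phi_scale hρ h3
      rw [mul_div_assoc]
      nlinarith
  nlinarith

lemma eq_zero_of_avg_eq_zero {n : ℕ} {c : Cube n → ℝ} (hc : ∀ x, 0 ≤ c x) (h : avg c = 0)
    (x : Cube n) : c x = 0 := by
  unfold avg at h
  have hs : ∑ y, c y = 0 := by
    have h2 : (2 : ℝ) ^ n ≠ 0 := by positivity
    field_simp at h
    linarith
  exact (Finset.sum_eq_zero_iff_of_nonneg (fun y _ => hc y)).mp hs x (Finset.mem_univ x)

/-- The log-sum inequality for averages. -/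
lemma log_sum {n : ℕ} (p c : Cube n → ℝ) (hp : ∀ x, 0 ≤ p x) (hc : ∀ x, 0 ≤ c x)
    (hpc : ∀ x, c x = 0 → p x = 0) :
    avg p * log (avg p / avg c) ≤ avg (fun x => p x * log (p x / c x)) := by
  have hP : 0 ≤ avg p := avg_nonneg hp
  have hC : 0 ≤ avg c := avg_nonneg hc
  rcases hC.eq_or_lt with hC0 | hC0
  · -- all of `c` vanishes so all of `p` vanishes
    rw [← hC0]
    simp only [div_zero, log_zero, mul_zero]
    exact avg_nonneg (fun x => by
      have hcx : c x = 0 := eq_zero_of_avg_eq_zero hc hC0.symm x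
      rw [hpc x hcx]; simp)
  rcases hP.eq_or_lt with hP0 | hP0
  · rw [← hP0]
    simp only [zero_mul]
    exact avg_nonneg (fun x => by
      have hpx : p x = 0 := eq_zero_of_avg_eq_zero hp hP0.symm x
      rw [hpx]; simp)
  · -- the main case
    have key : ∀ x, p x * log (avg p / avg c) + p x - c x * (avg p / avg c)
        ≤ p x * log (p x / c x) := by
      intro x
      have hratio : 0 < avg p / avg c := div_pos hP0 hC0
      rcases (hp x).eq_or_lt with hp0 | hp0
      · rw [← hp0]
        have := mul_nonneg (hc x) hratio.le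
        simp only [zero_mul, add_zero, zero_sub]
        linarith
      · have hcx : 0 < c x := by
          rcases (hc x).eq_or_lt with h0 | h0
          · exact absurd (hpc x h0.symm) hp0.ne'
          · exact h0
        have hy : 0 < p x * avg c / (c x * avg p) := by positivity
        have hl := Real.one_sub_inv_le_log_of_pos hy
        have e : log (p x * avg c / (c x * avg p)) = log (p x / c x) - log (avg p / avg c) := by
          rw [Real.log_div hp0.ne' hcx.ne', Real.log_div hP0.ne' hC0.ne',
            Real.log_div (by positivity) (by positivity), Real.log_mul hp0.ne' hC0.ne',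
            Real.log_mul hcx.ne' hP0.ne']
          ring
        rw [e] at hl
        have e2 : (p x * avg c / (c x * avg p))⁻¹ = c x * avg p / (p x * avg c) := by
          rw [inv_div]
        rw [e2] at hl
        have h3 := mul_le_mul_of_nonneg_left hl hp0.le
        have e3 : p x * (1 - c x * avg p / (p x * avg c)) = p x - c x * (avg p / avg c) := by
          field_simp
        rw [e3] at h3
        nlinarith
    have hav := avg_mono key
    have e : avg (fun x => p x * log (avg p / avg c) + p x - c x * (avg p / avg c))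
        = avg p * log (avg p / avg c) := by
      have e1 : (fun x => p x * log (avg p / avg c) + p x - c x * (avg p / avg c))
          = fun x => (p x * log (avg p / avg c) + p x) - c x * (avg p / avg c) := rfl
      rw [e1, avg_sub, avg_add, avg_mul_right, avg_mul_right]
      field_simp
      ring
    rw [e] at hav
    exact hav

/-- Kullback-Leibler form of a Jensen gap of `x log x`. -/
noncomputable def klg (p q : ℝ) : ℝ :=
  p * log (p / ((p + q) / 2)) + q * log (q / ((p + q) / 2))

lemma klg_eq {p q : ℝ} (hp : 0 ≤ p) (hq : 0 ≤ q) :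
    klg p q = p * log p + q * log q - 2 * (((p + q) / 2) * log ((p + q) / 2)) := by
  unfold klg
  rcases (add_nonneg hp hq).eq_or_lt with h0 | h0
  · have hp0 : p = 0 := by linarith
    have hq0 : q = 0 := by linarith
    subst hp0; subst hq0; simp
  · have hc : 0 < (p + q) / 2 := by linarith
    rw [mul_log_div_eq p _ hp hc, mul_log_div_eq q _ hq hc]
    ring

/-- Joint convexity of the Jensen gap, in averaged form. -/
lemma klg_avg_le {n : ℕ} (p q : Cube n → ℝ) (hp : ∀ x, 0 ≤ p x) (hq : ∀ x, 0 ≤ q x) :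
    klg (avg p) (avg q) ≤ avg (fun x => klg (p x) (q x)) := by
  set c : Cube n → ℝ := fun x => (p x + q x) / 2 with hc
  have hc0 : ∀ x, 0 ≤ c x := fun x => by
    have := hp x; have := hq x; simp only [hc]; linarith
  have hcp : ∀ x, c x = 0 → p x = 0 := fun x h => by
    have := hp x; have := hq x; simp only [hc] at h; linarith
  have hcq : ∀ x, c x = 0 → q x = 0 := fun x h => by
    have := hp x; have := hq x; simp only [hc] at h; linarith
  have h1 := log_sum p c hp hc0 hcp
  have h2 := log_sum q c hq hc0 hcq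
  have havg : avg c = (avg p + avg q) / 2 := by
    have e : c = fun x => (1 / 2 : ℝ) * (p x + q x) := by
      funext x; simp only [hc]; ring
    rw [e, avg_mul_left, avg_add]; ring
  unfold klg
  rw [← havg]
  have e : avg (fun x => p x * log (p x / ((p x + q x) / 2)) + q x * log (q x / ((p x + q x) / 2)))
      = avg (fun x => p x * log (p x / c x)) + avg (fun x => q x * log (q x / c x)) := by
    rw [← avg_add]
  rw [e]
  linarith

/-- The Jensen gap of `phi` in terms of `klg`. -/
lemma phi_gap_eq_klg {u v : ℝ} (hu : |u| ≤ 1) (hv : |v| ≤ 1) :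
    (phi u + phi v) / 2 - phi ((u + v) / 2) = (klg (1 + u) (1 + v) + klg (1 - u) (1 - v)) / 4 := by
  have hu' := abs_le.mp hu
  have hv' := abs_le.mp hv
  rw [klg_eq (by linarith) (by linarith), klg_eq (by linarith) (by linarith)]
  unfold phi
  have e1 : (1 + u + (1 + v)) / 2 = 1 + (u + v) / 2 := by ring
  have e2 : (1 - u + (1 - v)) / 2 = 1 - (u + v) / 2 := by ring
  rw [e1, e2]
  ring

/-- Supermodularity of the mutual information: the Jensen gap of `phi` is jointly convex. -/
lemma phi_gap_avg_le {n : ℕ} (u v : Cube n → ℝ) (hu : ∀ x, |u x| ≤ 1) (hv : ∀ x, |v x| ≤ 1) :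
    (phi (avg u) + phi (avg v)) / 2 - phi ((avg u + avg v) / 2)
      ≤ avg (fun x => (phi (u x) + phi (v x)) / 2 - phi ((u x + v x) / 2)) := by
  have habs : ∀ (w : Cube n → ℝ), (∀ x, |w x| ≤ 1) → |avg w| ≤ 1 := by
    intro w hw
    calc |avg w| ≤ avg (fun x => |w x|) := abs_avg_le w
      _ ≤ avg (fun _ => (1 : ℝ)) := avg_mono hw
      _ = 1 := avg_const 1
  rw [phi_gap_eq_klg (habs u hu) (habs v hv)]
  have e : (fun x => (phi (u x) + phi (v x)) / 2 - phi ((u x + v x) / 2))
      = fun x => (1 / 4 : ℝ) * (klg (1 + u x) (1 + v x) + klg (1 - u x) (1 - v x)) := by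
    funext x
    rw [phi_gap_eq_klg (hu x) (hv x)]
    ring
  rw [e, avg_mul_left, avg_add]
  have h1 := klg_avg_le (fun x => 1 + u x) (fun x => 1 + v x)
    (fun x => by have := (abs_le.mp (hu x)).1; linarith)
    (fun x => by have := (abs_le.mp (hv x)).1; linarith)
  have h2 := klg_avg_le (fun x => 1 - u x) (fun x => 1 - v x)
    (fun x => by have := (abs_le.mp (hu x)).2; linarith)
    (fun x => by have := (abs_le.mp (hv x)).2; linarith)
  rw [avg_add, avg_add, avg_const] at h1
  rw [avg_sub, avg_sub, avg_const] at h2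
  linarith

lemma abs_ev_add_abs_od_le {n : ℕ} (p : Fin (n + 1)) {g : Cube (n + 1) → ℝ}
    (hg : ∀ x, |g x| ≤ 1) (x : Cube n) : |ev p g x| + |od p g x| ≤ 1 := by
  have h1 := abs_le.mp (hg (ins p true x))
  have h2 := abs_le.mp (hg (ins p false x))
  rw [g_true p g x] at h1
  rw [g_false p g x] at h2
  rcases abs_cases (ev p g x) with ⟨h3, _⟩ | ⟨h3, _⟩ <;>
  rcases abs_cases (od p g x) with ⟨h4, _⟩ | ⟨h4, _⟩ <;> rw [h3, h4] <;> linarith [h1.1, h1.2, h2.1, h2.2]

lemma abs_mix_le {n : ℕ} (p : Fin (n + 1)) {g : Cube (n + 1) → ℝ} {ρ : ℝ} (hρ : |ρ| ≤ 1)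
    (hg : ∀ x, |g x| ≤ 1) (b : Bool) (x : Cube n) : |ev p g x + ρ * sgn b * od p g x| ≤ 1 := by
  have h1 := abs_ev_add_abs_od_le p hg x
  calc |ev p g x + ρ * sgn b * od p g x| ≤ |ev p g x| + |ρ * sgn b * od p g x| := abs_add_le _ _
    _ = |ev p g x| + |ρ| * |od p g x| := by rw [abs_mul, abs_mul, abs_sgn, mul_one]
    _ ≤ |ev p g x| + 1 * |od p g x| := by
      have := abs_nonneg (od p g x)
      nlinarith
    _ ≤ 1 := by linarith

lemma T_mix {n : ℕ} (p : Fin (n + 1)) (g : Cube (n + 1) → ℝ) (ρ : ℝ) (b : Bool) (y : Cube n) :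
    T ρ g (ins p b y) = T ρ (fun x => ev p g x + ρ * sgn b * od p g x) y := by
  rw [T_ins, T_add, T_mul_left]

lemma avg_mix {n : ℕ} (p : Fin (n + 1)) (g : Cube (n + 1) → ℝ) (ρ : ℝ) (b : Bool) :
    avg (fun x => ev p g x + ρ * sgn b * od p g x) = avg g + ρ * sgn b * coef p g := by
  rw [avg_add, avg_mul_left, avg_ev, coef_same]

/-- The strong data processing inequality on the cube. -/
theorem sdpi {n : ℕ} {ρ : ℝ} (hρ : |ρ| ≤ 1) (g : Cube n → ℝ) (hg : ∀ x, |g x| ≤ 1) :
    avg (fun y => phi (T ρ g y)) ≤ (1 - ρ ^ 2) * phi (avg g) + ρ ^ 2 * avg (fun x => phi (g x)) := by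
  induction n with
  | zero =>
    have x : Cube 0 := fun i => i.elim0
    rw [avg_zero_dim _ x, avg_zero_dim _ x, avg_zero_dim _ x, T_zero_dim]
    apply le_of_eq; ring
  | succ n ih =>
    have hρ2 : 0 ≤ ρ ^ 2 := sq_nonneg ρ
    have hρ3 : ρ ^ 2 ≤ 1 := by
      have := abs_le.mp hρ
      nlinarith
    set S := avg g with hS
    set D := coef 0 g with hD
    have hSD : |S| + |D| ≤ 1 := by
      have hs : S = avg (ev 0 g) := (avg_ev 0 g).symm
      have hd : D = avg (od 0 g) := coef_same 0 g
      rw [hs, hd]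
      calc |avg (ev 0 g)| + |avg (od 0 g)|
          ≤ avg (fun x => |ev 0 g x|) + avg (fun x => |od 0 g x|) :=
            add_le_add (abs_avg_le _) (abs_avg_le _)
        _ = avg (fun x => |ev 0 g x| + |od 0 g x|) := (avg_add _ _).symm
        _ ≤ avg (fun _ => (1 : ℝ)) := avg_mono (abs_ev_add_abs_od_le 0 hg)
        _ = 1 := avg_const 1
    -- apply the induction hypothesis to the two mixtures
    have hIH : ∀ b : Bool, avg (fun y => phi (T ρ g (ins 0 b y)))
        ≤ (1 - ρ ^ 2) * phi (S + ρ * sgn b * D)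
          + ρ ^ 2 * avg (fun x => phi (ev 0 g x + ρ * sgn b * od 0 g x)) := by
      intro b
      have := ih (fun x => ev 0 g x + ρ * sgn b * od 0 g x) (abs_mix_le 0 hρ hg b)
      rw [avg_mix] at this
      simp only [T_mix]
      exact this
    have h1 := hIH true
    have h2 := hIH false
    simp only [sgn_true, sgn_false, mul_one] at h1 h2
    have hsplit : avg (fun y => phi (T ρ g y))
        = (avg (fun y => phi (T ρ g (ins 0 true y))) + avg (fun y => phi (T ρ g (ins 0 false y)))) / 2 :=
      avg_split 0 _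
    rw [hsplit]
    -- one-bit inequality at the level of means
    have h3 := one_bit_sdpi hρ hSD
    -- one-bit inequality pointwise
    have h4 : avg (fun x => (phi (ev 0 g x + ρ * od 0 g x) + phi (ev 0 g x - ρ * od 0 g x)) / 2)
        ≤ (1 - ρ ^ 2) * avg (fun x => phi (ev 0 g x))
          + ρ ^ 2 * avg (fun x => (phi (ev 0 g x + od 0 g x) + phi (ev 0 g x - od 0 g x)) / 2) := by
      rw [← avg_mul_left, ← avg_mul_left, ← avg_add]
      apply avg_mono
      intro x
      exact one_bit_sdpi hρ (abs_ev_add_abs_od_le 0 hg x)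
    -- supermodularity
    have hu : ∀ x, |ev 0 g x + od 0 g x| ≤ 1 := by
      intro x; rw [← g_true]; exact hg _
    have hv : ∀ x, |ev 0 g x - od 0 g x| ≤ 1 := by
      intro x; rw [← g_false]; exact hg _
    have h5 := phi_gap_avg_le (fun x => ev 0 g x + od 0 g x) (fun x => ev 0 g x - od 0 g x) hu hv
    have e1 : avg (fun x => ev 0 g x + od 0 g x) = S + D := by
      rw [avg_add, avg_ev, ← coef_same]
    have e2 : avg (fun x => ev 0 g x - od 0 g x) = S - D := by
      rw [avg_sub, avg_ev, ← coef_same]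
    rw [e1, e2] at h5
    have e3 : (S + D + (S - D)) / 2 = S := by ring
    rw [e3] at h5
    have e4 : (fun x => (phi (ev 0 g x + od 0 g x) + phi (ev 0 g x - od 0 g x)) / 2
          - phi ((ev 0 g x + od 0 g x + (ev 0 g x - od 0 g x)) / 2))
        = fun x => (phi (ev 0 g x + od 0 g x) + phi (ev 0 g x - od 0 g x)) / 2 - phi (ev 0 g x) := by
      funext x
      congr 2
      ring
    rw [e4, avg_sub] at h5
    have e5 : avg (fun x => phi (g x))
        = avg (fun x => (phi (ev 0 g x + od 0 g x) + phi (ev 0 g x - od 0 g x)) / 2) := by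
      rw [avg_split' 0 (fun x => phi (g x))]
      apply avg_congr
      intro x
      rw [g_true 0 g x, g_false 0 g x]
    rw [e5]
    set Y := avg (fun x => (phi (ev 0 g x + od 0 g x) + phi (ev 0 g x - od 0 g x)) / 2) with hY
    set Z := avg (fun x => phi (ev 0 g x)) with hZ
    -- combine
    have e6 : avg (fun x => phi (ev 0 g x + ρ * -1 * od 0 g x))
        = avg (fun x => phi (ev 0 g x - ρ * od 0 g x)) := by
      apply avg_congr; intro x; congr 1; ring
    have e7 : phi (S + ρ * -1 * D) = phi (S - ρ * D) := by congr 1; ring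
    rw [e6, e7] at h2
    have e8 : avg (fun x => (phi (ev 0 g x + ρ * od 0 g x) + phi (ev 0 g x - ρ * od 0 g x)) / 2)
        = (avg (fun x => phi (ev 0 g x + ρ * od 0 g x))
            + avg (fun x => phi (ev 0 g x - ρ * od 0 g x))) / 2 := by
      have e9 : (fun x => (phi (ev 0 g x + ρ * od 0 g x) + phi (ev 0 g x - ρ * od 0 g x)) / 2)
          = fun x => (1 / 2 : ℝ) * (phi (ev 0 g x + ρ * od 0 g x) + phi (ev 0 g x - ρ * od 0 g x)) := by
        funext x; ring
      rw [e9, avg_mul_left, avg_add]; ring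
    rw [e8] at h4
    have h6 := mul_le_mul_of_nonneg_left h3 (by linarith : 0 ≤ 1 - ρ ^ 2)
    have h7 := mul_le_mul_of_nonneg_left h4 hρ2
    have h8 : 0 ≤ (1 - ρ ^ 2) * ρ ^ 2 * (Y - Z - ((phi (S + D) + phi (S - D)) / 2 - phi S)) := by
      apply mul_nonneg (mul_nonneg (by linarith) hρ2)
      linarith
    nlinarith

end Vale.Agent.Lib.P322
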