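import Vale.Agent.Lib.P322.BellmanGen

/-!
Spectral multiplier forms on the cube, defined by recursion on the dimension.
-/

namespace Vale.Agent.Lib.P322

open Real

/-- The bilinear form `∑_S m(|S|) û(S) v̂(S)`, defined by recursion on the dimension. -/
noncomputable def Qb : (n : ℕ) → (ℕ → ℝ) → (Cube n → ℝ) → (Cube n → ℝ) → ℝ
  | 0, m, u, v => m 0 * (u (fun i => i.elim0) * v (fun i => i.elim0))
  | n + 1, m, u, v => Qb n m (ev 0 u) (ev 0 v) + Qb n (fun k => m (k + 1)) (od 0 u) (od 0 v)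

lemma ev_add' {n : ℕ} (u v : Cube (n + 1) → ℝ) :
    ev 0 (fun x => u x + v x) = fun y => ev 0 u y + ev 0 v y := by
  funext y; simp only [ev]; ring

lemma od_add' {n : ℕ} (u v : Cube (n + 1) → ℝ) :
    od 0 (fun x => u x + v x) = fun y => od 0 u y + od 0 v y := by
  funext y; simp only [od]; ring

lemma ev_smul' {n : ℕ} (c : ℝ) (u : Cube (n + 1) → ℝ) :
    ev 0 (fun x => c * u x) = fun y => c * ev 0 u y := by
  funext y; simp only [ev]; ring

lemma od_smul' {n : ℕ} (c : ℝ) (u : Cube (n + 1) → ℝ) :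
    od 0 (fun x => c * u x) = fun y => c * od 0 u y := by
  funext y; simp only [od]; ring

lemma Qb_comm {n : ℕ} (m : ℕ → ℝ) (u v : Cube n → ℝ) : Qb n m u v = Qb n m v u := by
  induction n generalizing m with
  | zero => simp only [Qb]; ring
  | succ n ih => simp only [Qb]; rw [ih m, ih (fun k => m (k + 1))]

lemma Qb_add_left {n : ℕ} (m : ℕ → ℝ) (u u' v : Cube n → ℝ) :
    Qb n m (fun x => u x + u' x) v = Qb n m u v + Qb n m u' v := by
  induction n generalizing m with
  | zero => simp only [Qb]; ring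
  | succ n ih =>
    simp only [Qb]
    rw [ev_add', od_add', ih, ih]
    ring

lemma Qb_smul_left {n : ℕ} (m : ℕ → ℝ) (c : ℝ) (u v : Cube n → ℝ) :
    Qb n m (fun x => c * u x) v = c * Qb n m u v := by
  induction n generalizing m with
  | zero => simp only [Qb]; ring
  | succ n ih =>
    simp only [Qb]
    rw [ev_smul', od_smul', ih, ih]
    ring

lemma Qb_add_right {n : ℕ} (m : ℕ → ℝ) (u v v' : Cube n → ℝ) :
    Qb n m u (fun x => v x + v' x) = Qb n m u v + Qb n m u v' := by
  rw [Qb_comm, Qb_add_left, Qb_comm m v, Qb_comm m v']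

lemma Qb_smul_right {n : ℕ} (m : ℕ → ℝ) (c : ℝ) (u v : Cube n → ℝ) :
    Qb n m u (fun x => c * v x) = c * Qb n m u v := by
  rw [Qb_comm, Qb_smul_left, Qb_comm]

lemma Qb_mult_add {n : ℕ} (m₁ m₂ : ℕ → ℝ) (u v : Cube n → ℝ) :
    Qb n (fun k => m₁ k + m₂ k) u v = Qb n m₁ u v + Qb n m₂ u v := by
  induction n generalizing m₁ m₂ with
  | zero => simp only [Qb]; ring
  | succ n ih =>
    simp only [Qb]
    rw [ih, ih]
    ring

lemma Qb_mult_smul {n : ℕ} (c : ℝ) (m : ℕ → ℝ) (u v : Cube n → ℝ) :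
    Qb n (fun k => c * m k) u v = c * Qb n m u v := by
  induction n generalizing m with
  | zero => simp only [Qb]; ring
  | succ n ih =>
    simp only [Qb]
    rw [ih, ih]
    ring

lemma Q_nonneg {n : ℕ} {m : ℕ → ℝ} (hm : ∀ k, 0 ≤ m k) (u : Cube n → ℝ) : 0 ≤ Qb n m u u := by
  induction n generalizing m with
  | zero =>
    simp only [Qb]
    exact mul_nonneg (hm 0) (mul_self_nonneg _)
  | succ n ih =>
    simp only [Qb]
    exact add_nonneg (ih hm _) (ih (fun k => hm (k + 1)) _)

lemma Q_mono {n : ℕ} {m₁ m₂ : ℕ → ℝ} (h : ∀ k, m₁ k ≤ m₂ k) (u : Cube n → ℝ) :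
    Qb n m₁ u u ≤ Qb n m₂ u u := by
  have h1 := Q_nonneg (m := fun k => m₂ k + (-1) * m₁ k) (fun k => by linarith [h k]) u
  rw [Qb_mult_add, Qb_mult_smul] at h1
  linarith

lemma Qb_one {n : ℕ} (u v : Cube n → ℝ) : Qb n (fun _ => 1) u v = avg (fun x => u x * v x) := by
  induction n with
  | zero =>
    have x : Cube 0 := fun i => i.elim0
    rw [avg_zero_dim _ x]
    simp only [Qb]
    have e : (fun i : Fin 0 => i.elim0) = x := Subsingleton.elim _ _
    rw [e]
    ring
  | succ n ih =>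
    simp only [Qb]
    rw [ih, ih, ← avg_add, avg_split' 0 (fun x => u x * v x)]
    apply avg_congr
    intro x
    simp only [ev, od]
    ring

lemma ev_T {n : ℕ} (ρ : ℝ) (u : Cube (n + 1) → ℝ) : ev 0 (T ρ u) = T ρ (ev 0 u) := by
  funext y
  simp only [ev]
  rw [T_ins, T_ins]
  simp only [sgn_true, sgn_false]
  ring

lemma od_T {n : ℕ} (ρ : ℝ) (u : Cube (n + 1) → ℝ) : od 0 (T ρ u) = fun y => ρ * T ρ (od 0 u) y := by
  funext y
  simp only [od]
  rw [T_ins, T_ins]
  simp only [sgn_true, sgn_false]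
  ring

lemma Qb_T {n : ℕ} (m : ℕ → ℝ) (ρ η : ℝ) (u v : Cube n → ℝ) :
    Qb n m (T ρ u) (T η v) = Qb n (fun k => m k * (ρ * η) ^ k) u v := by
  induction n generalizing m with
  | zero =>
    simp only [Qb, T_zero_dim]
    ring
  | succ n ih =>
    simp only [Qb]
    rw [ev_T, ev_T, od_T, od_T, Qb_smul_left, Qb_smul_right, ih, ih]
    rw [← mul_assoc, ← Qb_mult_smul]
    congr 1
    congr 1
    funext k
    ring

/-- Parallelogram law for the gradient. -/
lemma gradSq_parallel {n : ℕ} (u v : Cube n → ℝ) (x : Cube n) :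
    gradSq n (fun z => u z + v z) x + gradSq n (fun z => u z - v z) x
      = 2 * gradSq n u x + 2 * gradSq n v x := by
  induction n with
  | zero => simp [gradSq]
  | succ n ih =>
    rw [eq_ins 0 x]
    set y : Cube n := fun i => x ((0 : Fin (n + 1)).succAbove i)
    set s := x 0
    simp only [gradSq_ins]
    have e1 : od 0 (fun z => u z + v z) y = od 0 u y + od 0 v y := by
      simp only [od]; ring
    have e2 : od 0 (fun z => u z - v z) y = od 0 u y - od 0 v y := by
      simp only [od]; ring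
    rw [e1, e2]
    have h := ih (fun z => u (ins 0 s z)) (fun z => v (ins 0 s z)) y
    nlinarith

lemma gradSq_smul {n : ℕ} (c : ℝ) (u : Cube n → ℝ) (x : Cube n) :
    gradSq n (fun z => c * u z) x = c ^ 2 * gradSq n u x := by
  induction n with
  | zero => simp [gradSq]
  | succ n ih =>
    rw [eq_ins 0 x]
    set y : Cube n := fun i => x ((0 : Fin (n + 1)).succAbove i)
    set s := x 0
    simp only [gradSq_ins]
    have e1 : od 0 (fun z => c * u z) y = c * od 0 u y := by
      simp only [od]; ring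
    rw [e1, ih]
    ring

/-- The even and odd parts and the two sections. -/
lemma section_true {n : ℕ} (u : Cube (n + 1) → ℝ) :
    (fun z => u (ins 0 true z)) = fun z => ev 0 u z + od 0 u z := by
  funext z; simp only [ev, od]; ring

lemma section_false {n : ℕ} (u : Cube (n + 1) → ℝ) :
    (fun z => u (ins 0 false z)) = fun z => ev 0 u z - od 0 u z := by
  funext z; simp only [ev, od]; ring

lemma sections_gradSq {n : ℕ} (u : Cube (n + 1) → ℝ) (y : Cube n) :
    gradSq n (fun z => u (ins 0 true z)) y + gradSq n (fun z => u (ins 0 false z)) y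
      = 2 * gradSq n (ev 0 u) y + 2 * gradSq n (od 0 u) y := by
  rw [section_true, section_false]
  exact gradSq_parallel _ _ _

/-- The Dirichlet energy. -/
noncomputable def En {n : ℕ} (u : Cube n → ℝ) : ℝ := avg (gradSq n u)

lemma En_nonneg {n : ℕ} (u : Cube n → ℝ) : 0 ≤ En u :=
  avg_nonneg (fun x => gradSq_nonneg u x)

lemma En_succ {n : ℕ} (u : Cube (n + 1) → ℝ) :
    En u = avg (fun y => od 0 u y ^ 2) + En (ev 0 u) + En (od 0 u) := by
  unfold En
  rw [avg_split' 0 (gradSq (n + 1) u), ← avg_add, ← avg_add]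
  apply avg_congr
  intro y
  rw [gradSq_ins, gradSq_ins]
  have := sections_gradSq u y
  linarith

lemma Q_En {n : ℕ} (u : Cube n → ℝ) : Qb n (fun k => (k : ℝ)) u u = En u := by
  induction n with
  | zero =>
    simp [Qb, En, gradSq, avg]
  | succ n ih =>
    simp only [Qb]
    rw [En_succ, ih]
    have e : (fun k : ℕ => ((k + 1 : ℕ) : ℝ)) = fun k : ℕ => (k : ℝ) + (fun _ => (1 : ℝ)) k := by
      funext k
      push_cast
      ring
    rw [e, Qb_mult_add, ih, Qb_one]
    have e2 : (fun x => od 0 u x * od 0 u x) = fun x => od 0 u x ^ 2 := by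
      funext x; ring
    rw [e2]
    ring

lemma Qb_En_add {n : ℕ} (u v : Cube n → ℝ) :
    Qb n (fun k => (k : ℝ)) (fun x => u x - v x) (fun x => u x - v x)
      = En u - 2 * Qb n (fun k => (k : ℝ)) u v + En v := by
  have e : (fun x => u x - v x) = fun x => u x + (-1) * v x := by
    funext x; ring
  rw [e, Qb_add_left, Qb_add_right, Qb_add_right, Qb_smul_left, Qb_smul_left, Qb_smul_right,
    Qb_smul_right, Qb_comm _ v u, Q_En, Q_En]
  ring

/-- Level zero. -/
lemma Q_level0 {n : ℕ} (u : Cube n → ℝ) :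
    Qb n (fun k => if k = 0 then 1 else 0) u u = avg u ^ 2 := by
  induction n with
  | zero =>
    have x : Cube 0 := fun i => i.elim0
    rw [avg_zero_dim _ x]
    simp only [Qb]
    have e : (fun i : Fin 0 => i.elim0) = x := Subsingleton.elim _ _
    rw [e]
    simp
    ring
  | succ n ih =>
    simp only [Qb]
    rw [ih, avg_ev]
    have e : (fun k : ℕ => if k + 1 = 0 then (1 : ℝ) else 0) = fun k => (0 : ℝ) * 0 := by
      funext k
      simp
    rw [e]
    have e2 : ∀ (c : ℝ) (m : ℕ → ℝ), (fun k => c * m k) = fun k => c * m k := fun _ _ => rfl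
    have := Qb_mult_smul (n := n) 0 (fun _ => 0) (od 0 u) (od 0 u)
    rw [this]
    ring

/-- Level one. -/
lemma Q_level1 {n : ℕ} (u : Cube n → ℝ) :
    Qb n (fun k => if k = 1 then 1 else 0) u u = W1 u := by
  induction n with
  | zero =>
    simp [Qb, W1]
  | succ n ih =>
    simp only [Qb]
    rw [ih, W1_split 0]
    have e : (fun k : ℕ => if k + 1 = 1 then (1 : ℝ) else 0) = fun k => if k = 0 then 1 else 0 := by
      funext k
      simp
    rw [e, Q_level0]
    ring

/-- The second order energy. -/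
noncomputable def Q2 {n : ℕ} (u : Cube n → ℝ) : ℝ := Qb n (fun k => (k : ℝ) * ((k : ℝ) - 1)) u u

lemma Q2_succ {n : ℕ} (u : Cube (n + 1) → ℝ) :
    Q2 u = Q2 (ev 0 u) + Q2 (od 0 u) + 2 * En (od 0 u) := by
  unfold Q2
  simp only [Qb]
  have e : (fun k : ℕ => (((k + 1 : ℕ) : ℝ)) * (((k + 1 : ℕ) : ℝ) - 1))
      = fun k : ℕ => (k : ℝ) * ((k : ℝ) - 1) + 2 * (k : ℝ) := by
    funext k
    push_cast
    ring
  rw [e, Qb_mult_add, Qb_mult_smul, Q_En]
  ring

end Vale.Agent.Lib.P322
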