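import Vale.Agent.Lib.P322.EntropyH

/-!
The two-point inequality behind the low-noise bound.
-/

namespace Vale.Agent.Lib.P322

open Real

lemma gap_comm (p q : ℝ) : gap p q = gap q p := by
  unfold gap
  rw [add_comm p q]
  ring

lemma gap_self (x : ℝ) : gap x x = 0 := by
  unfold gap
  rw [show (x + x) / 2 = x by ring]
  ring

lemma gap_zero_zero : gap 0 0 = 0 := gap_self 0

/-- The two-term log-sum inequality. -/
lemma log_sum_two {a b c d : ℝ} (ha : 0 ≤ a) (hb : 0 ≤ b) (hc : 0 ≤ c) (hd : 0 ≤ d)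
    (hac : c = 0 → a = 0) (hbd : d = 0 → b = 0) :
    (a + b) * log ((a + b) / (c + d)) ≤ a * log (a / c) + b * log (b / d) := by
  rcases ha.eq_or_lt with ha0 | ha0
  · subst ha0
    rcases hb.eq_or_lt with hb0 | hb0
    · subst hb0; simp
    · have hd0 : 0 < d := by
        rcases hd.eq_or_lt with h | h
        · exact absurd (hbd h.symm) hb0.ne'
        · exact h
      simp only [zero_add, zero_mul]
      apply mul_le_mul_of_nonneg_left _ hb0.le
      apply Real.log_le_log (by positivity)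
      apply div_le_div_of_nonneg_left hb0.le hd0
      linarith
  rcases hb.eq_or_lt with hb0 | hb0
  · subst hb0
    have hc0 : 0 < c := by
      rcases hc.eq_or_lt with h | h
      · exact absurd (hac h.symm) ha0.ne'
      · exact h
    simp only [add_zero, zero_mul]
    apply mul_le_mul_of_nonneg_left _ ha0.le
    apply Real.log_le_log (by positivity)
    apply div_le_div_of_nonneg_left ha0.le hc0
    linarith
  have hc0 : 0 < c := by
    rcases hc.eq_or_lt with h | h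
    · exact absurd (hac h.symm) ha0.ne'
    · exact h
  have hd0 : 0 < d := by
    rcases hd.eq_or_lt with h | h
    · exact absurd (hbd h.symm) hb0.ne'
    · exact h
  have hab : 0 < a + b := by positivity
  have hcd : 0 < c + d := by positivity
  have key : ∀ x y : ℝ, 0 < x → 0 < y →
      x * log ((a + b) / (c + d)) + x - y * ((a + b) / (c + d)) ≤ x * log (x / y) := by
    intro x y hx hy
    have hz : 0 < x * (c + d) / (y * (a + b)) := by positivity
    have hl := Real.one_sub_inv_le_log_of_pos hz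
    have e : log (x * (c + d) / (y * (a + b))) = log (x / y) - log ((a + b) / (c + d)) := by
      rw [Real.log_div hx.ne' hy.ne', Real.log_div hab.ne' hcd.ne',
        Real.log_div (by positivity) (by positivity), Real.log_mul hx.ne' hcd.ne',
        Real.log_mul hy.ne' hab.ne']
      ring
    rw [e, inv_div] at hl
    have h3 := mul_le_mul_of_nonneg_left hl hx.le
    have e3 : x * (1 - y * (a + b) / (x * (c + d))) = x - y * ((a + b) / (c + d)) := by
      field_simp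
    rw [e3] at h3
    nlinarith
  have h1 := key a c ha0 hc0
  have h2 := key b d hb0 hd0
  have e : c * ((a + b) / (c + d)) + d * ((a + b) / (c + d)) = a + b := by
    field_simp
  nlinarith

lemma gap_eq_klg {p q : ℝ} (hp : 0 ≤ p) (hq : 0 ≤ q) : gap p q = klg p q / 2 := by
  rw [klg_eq hp hq]
  unfold gap
  ring

/-- Subadditivity of the Jensen gap of `x log x`. -/
lemma gap_subadd {p₁ q₁ p₂ q₂ : ℝ} (hp₁ : 0 ≤ p₁) (hq₁ : 0 ≤ q₁) (hp₂ : 0 ≤ p₂) (hq₂ : 0 ≤ q₂) :
    gap (p₁ + p₂) (q₁ + q₂) ≤ gap p₁ q₁ + gap p₂ q₂ := by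
  rw [gap_eq_klg (by positivity) (by positivity), gap_eq_klg hp₁ hq₁, gap_eq_klg hp₂ hq₂]
  unfold klg
  have hc1 : 0 ≤ (p₁ + q₁) / 2 := by positivity
  have hc2 : 0 ≤ (p₂ + q₂) / 2 := by positivity
  have e : (p₁ + p₂ + (q₁ + q₂)) / 2 = (p₁ + q₁) / 2 + (p₂ + q₂) / 2 := by ring
  rw [e]
  have h1 := log_sum_two (a := p₁) (b := p₂) hp₁ hp₂ hc1 hc2 (fun h => by linarith)
    (fun h => by linarith)
  have h2 := log_sum_two (a := q₁) (b := q₂) hq₁ hq₂ hc1 hc2 (fun h => by linarith)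
    (fun h => by linarith)
  linarith

lemma mul_log_mul {b x : ℝ} (hb : 0 < b) (hx : 0 ≤ x) :
    (b * x) * log (b * x) = b * (x * log x) + b * x * log b := by
  rcases hx.eq_or_lt with h | h
  · rw [← h]; simp
  · rw [Real.log_mul hb.ne' h.ne']; ring

/-- Scaling of the Jensen gap. -/
lemma gap_smul {b p q : ℝ} (hb : 0 ≤ b) (hp : 0 ≤ p) (hq : 0 ≤ q) :
    gap (b * p) (b * q) = b * gap p q := by
  rcases hb.eq_or_lt with h | h
  · rw [← h]
    simp [gap]
  · unfold gap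
    have e : (b * p + b * q) / 2 = b * ((p + q) / 2) := by ring
    rw [e, mul_log_mul h hp, mul_log_mul h hq, mul_log_mul h (by positivity : 0 ≤ (p + q) / 2)]
    ring

/-- The gap in terms of `phi`. -/
lemma gap_eq_phi {X δ : ℝ} (hX : 0 < X) (h1 : |δ| ≤ X) :
    gap (X * (1 + δ / X)) (X * (1 - δ / X)) = X * phi (δ / X) := by
  have h3 := abs_le.mp h1
  have hd : |δ / X| ≤ 1 := by
    rw [abs_div, abs_of_pos hX, div_le_one hX]; exact h1
  have h4 := abs_le.mp hd
  rw [gap_smul hX.le (by linarith [h4.1]) (by linarith [h4.2])]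
  congr 1
  unfold gap phi
  rw [show (1 + δ / X + (1 - δ / X)) / 2 = 1 by ring]
  simp

/-- The auxiliary calculus inequality for the two-point log-Sobolev inequality. -/
lemma mul_log_diff_le {τ : ℝ} (h0 : 0 ≤ τ) (h1 : τ < 1) :
    (1 + τ) * log (1 + τ) - (1 - τ) * log (1 - τ) ≤ 2 * τ := by
  have hder : ∀ x : ℝ, x ∈ Set.Ioo (0 : ℝ) 1 →
      HasDerivAt (fun u : ℝ => 2 * u - ((1 + u) * log (1 + u) - (1 - u) * log (1 - u)))
        (- log (1 - x ^ 2)) x := by
    intro x hx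
    have hA : 1 + x ≠ 0 := by linarith [hx.1]
    have hB : 1 - x ≠ 0 := by linarith [hx.2]
    have d1 : HasDerivAt (fun x : ℝ => 1 + x) 1 x := by
      simpa using (hasDerivAt_id' x).const_add 1
    have d2 : HasDerivAt (fun x : ℝ => 1 - x) (-1) x := by
      simpa using (hasDerivAt_id' x).const_sub 1
    have d3 := ((hasDerivAt_id' x).const_mul 2).sub ((d1.mul (d1.log hA)).sub (d2.mul (d2.log hB)))
    refine d3.congr_deriv ?_
    rw [show 1 - x ^ 2 = (1 + x) * (1 - x) by ring, Real.log_mul hA hB]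
    field_simp
    ring
  have hmono : MonotoneOn (fun u : ℝ => 2 * u - ((1 + u) * log (1 + u) - (1 - u) * log (1 - u)))
      (Set.Ico 0 1) := by
    apply monotoneOn_of_deriv_nonneg (convex_Ico 0 1)
    · apply Continuous.continuousOn
      have c1 : Continuous (fun u : ℝ => (1 + u) * log (1 + u)) :=
        Real.continuous_mul_log.comp (continuous_const.add continuous_id)
      have c2 : Continuous (fun u : ℝ => (1 - u) * log (1 - u)) :=
        Real.continuous_mul_log.comp (continuous_const.sub continuous_id)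
      exact (continuous_const.mul continuous_id).sub (c1.sub c2)
    · intro x hx
      rw [interior_Ico] at hx
      exact (hder x hx).differentiableAt.differentiableWithinAt
    · intro x hx
      rw [interior_Ico] at hx
      rw [(hder x hx).deriv]
      have : log (1 - x ^ 2) ≤ 0 := by
        apply Real.log_nonpos
        · nlinarith [hx.1, hx.2]
        · nlinarith [sq_nonneg x]
      linarith
  have h := hmono (⟨le_refl 0, by norm_num⟩ : (0 : ℝ) ∈ Set.Ico (0 : ℝ) 1) ⟨h0, h1⟩ h0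
  simp only [] at h
  norm_num at h
  linarith

/-- The one-variable form of the two-point log-Sobolev inequality. -/
lemma lsi_aux {τ : ℝ} (h0 : 0 ≤ τ) (h1 : τ ≤ 1) :
    (1 + τ) ^ 2 * log (1 + τ) + (1 - τ) ^ 2 * log (1 - τ) - (1 + τ ^ 2) * log (1 + τ ^ 2)
      ≤ 2 * τ ^ 2 := by
  have hder : ∀ x : ℝ, x ∈ Set.Ioo (0 : ℝ) 1 →
      HasDerivAt (fun u : ℝ => 2 * u ^ 2 - ((1 + u) ^ 2 * log (1 + u) + (1 - u) ^ 2 * log (1 - u)
          - (1 + u ^ 2) * log (1 + u ^ 2)))
        (4 * x - 2 * ((1 + x) * log (1 + x) - (1 - x) * log (1 - x)) + 2 * x * log (1 + x ^ 2)) x := by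
    intro x hx
    have hA : 1 + x ≠ 0 := by linarith [hx.1]
    have hB : 1 - x ≠ 0 := by linarith [hx.2]
    have hC : 1 + x ^ 2 ≠ 0 := by positivity
    have d1 : HasDerivAt (fun x : ℝ => 1 + x) 1 x := by
      simpa using (hasDerivAt_id' x).const_add 1
    have d2 : HasDerivAt (fun x : ℝ => 1 - x) (-1) x := by
      simpa using (hasDerivAt_id' x).const_sub 1
    have d3 : HasDerivAt (fun x : ℝ => x ^ 2) (2 * x) x := by
      simpa using hasDerivAt_pow 2 x
    have d4 : HasDerivAt (fun x : ℝ => 1 + x ^ 2) (2 * x) x := d3.const_add 1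
    have d5 : HasDerivAt (fun x : ℝ => (1 + x) ^ 2) (2 * (1 + x)) x := by
      have := d1.fun_pow 2
      simpa using this
    have d6 : HasDerivAt (fun x : ℝ => (1 - x) ^ 2) (-(2 * (1 - x))) x := by
      have := d2.fun_pow 2
      simpa using this
    have d7 := (d3.const_mul 2).sub
      (((d5.mul (d1.log hA)).add (d6.mul (d2.log hB))).sub (d4.mul (d4.log hC)))
    refine d7.congr_deriv ?_
    field_simp
    ring
  have hcont : Continuous (fun u : ℝ => 2 * u ^ 2 - ((1 + u) ^ 2 * log (1 + u)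
      + (1 - u) ^ 2 * log (1 - u) - (1 + u ^ 2) * log (1 + u ^ 2))) := by
    have c1 : Continuous (fun u : ℝ => (1 + u) * log (1 + u)) :=
      Real.continuous_mul_log.comp (continuous_const.add continuous_id)
    have c2 : Continuous (fun u : ℝ => (1 - u) * log (1 - u)) :=
      Real.continuous_mul_log.comp (continuous_const.sub continuous_id)
    have c3 : Continuous (fun u : ℝ => (1 + u ^ 2) * log (1 + u ^ 2)) :=
      Real.continuous_mul_log.comp (continuous_const.add (continuous_id.pow 2))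
    have e1 : (fun u : ℝ => (1 + u) ^ 2 * log (1 + u))
        = fun u : ℝ => (1 + u) * ((1 + u) * log (1 + u)) := by
      funext u; ring
    have e2 : (fun u : ℝ => (1 - u) ^ 2 * log (1 - u))
        = fun u : ℝ => (1 - u) * ((1 - u) * log (1 - u)) := by
      funext u; ring
    have c4 : Continuous (fun u : ℝ => (1 + u) ^ 2 * log (1 + u)) := by
      rw [e1]
      exact (continuous_const.add continuous_id).mul c1
    have c5 : Continuous (fun u : ℝ => (1 - u) ^ 2 * log (1 - u)) := by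
      rw [e2]
      exact (continuous_const.sub continuous_id).mul c2
    exact (continuous_const.mul (continuous_id.pow 2)).sub ((c4.add c5).sub c3)
  have hmono : MonotoneOn (fun u : ℝ => 2 * u ^ 2 - ((1 + u) ^ 2 * log (1 + u)
      + (1 - u) ^ 2 * log (1 - u) - (1 + u ^ 2) * log (1 + u ^ 2))) (Set.Icc 0 1) := by
    apply monotoneOn_of_deriv_nonneg (convex_Icc 0 1) hcont.continuousOn
    · intro x hx
      rw [interior_Icc] at hx
      exact (hder x hx).differentiableAt.differentiableWithinAt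
    · intro x hx
      rw [interior_Icc] at hx
      rw [(hder x hx).deriv]
      have h2 := mul_log_diff_le hx.1.le hx.2
      have h3 : 0 ≤ log (1 + x ^ 2) := Real.log_nonneg (by nlinarith [sq_nonneg x])
      have h4 : 0 ≤ 2 * x * log (1 + x ^ 2) := by
        have := hx.1
        positivity
      linarith
  have h := hmono (⟨le_refl 0, by norm_num⟩ : (0 : ℝ) ∈ Set.Icc (0 : ℝ) 1) ⟨h0, h1⟩ h0
  norm_num at h
  linarith

/-- The two-point logarithmic Sobolev inequality, in the form we need. -/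
lemma gap_lsi_of_le {y₁ y₂ : ℝ} (hy₂ : 0 ≤ y₂) (h : y₂ ≤ y₁) :
    gap (y₁ ^ 2) (y₂ ^ 2) ≤ (y₁ - y₂) ^ 2 / 2 := by
  have hy₁ : 0 ≤ y₁ := hy₂.trans h
  rcases (add_nonneg hy₁ hy₂).eq_or_lt with h0 | h0
  · have h1 : y₁ = 0 := by linarith
    have h2 : y₂ = 0 := by linarith
    subst h1; subst h2
    simp [gap]
  set c := (y₁ + y₂) / 2 with hc
  have hc0 : 0 < c := by positivity
  set τ := (y₁ - y₂) / (y₁ + y₂) with hτ
  have hτ0 : 0 ≤ τ := div_nonneg (by linarith) h0.le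
  have hτ1 : τ ≤ 1 := by
    rw [hτ, div_le_one h0]; linarith
  have e1 : y₁ = c * (1 + τ) := by
    rw [hc, hτ]; field_simp; ring
  have e2 : y₂ = c * (1 - τ) := by
    rw [hc, hτ]; field_simp; ring
  have e3 : y₁ ^ 2 = c ^ 2 * (1 + τ) ^ 2 := by rw [e1]; ring
  have e4 : y₂ ^ 2 = c ^ 2 * (1 - τ) ^ 2 := by rw [e2]; ring
  rw [e3, e4, gap_smul (by positivity) (by positivity) (by positivity)]
  have e5 : (y₁ - y₂) ^ 2 / 2 = c ^ 2 * (2 * τ ^ 2) := by
    rw [e1, e2]; ring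
  rw [e5]
  apply mul_le_mul_of_nonneg_left _ (by positivity)
  have h3 := lsi_aux hτ0 hτ1
  have e6 : gap ((1 + τ) ^ 2) ((1 - τ) ^ 2)
      = (1 + τ) ^ 2 * log (1 + τ) + (1 - τ) ^ 2 * log (1 - τ) - (1 + τ ^ 2) * log (1 + τ ^ 2) := by
    unfold gap
    have e7 : ((1 + τ) ^ 2 + (1 - τ) ^ 2) / 2 = 1 + τ ^ 2 := by ring
    rw [e7, Real.log_pow, Real.log_pow]
    push_cast
    ring
  rw [e6]
  exact h3

lemma gap_lsi {y₁ y₂ : ℝ} (hy₁ : 0 ≤ y₁) (hy₂ : 0 ≤ y₂) :
    gap (y₁ ^ 2) (y₂ ^ 2) ≤ (y₁ - y₂) ^ 2 / 2 := by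
  rcases le_total y₂ y₁ with h | h
  · exact gap_lsi_of_le hy₂ h
  · rw [gap_comm]
    have := gap_lsi_of_le hy₁ h
    nlinarith

/-- The quartic part of the second difference. -/
lemma psi_combo {m p q : ℝ} (hA : 0 < 1 + m) (hB : 0 < 1 - m) (hp : |p| ≤ 1) (hq : |q| ≤ 1)
    (hpq : 0 ≤ p * q) :
    (1 + m) * (1 - m) * psi (q - p) ≤ 2 * (1 + m) * psi p + 2 * (1 - m) * psi q := by
  have hp1 := psi_nonneg hp
  have hq1 := psi_nonneg hq
  rcases le_total |p| |q| with hle | hle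
  · have h5 : |q - p| ≤ |q| := by
      apply sq_le_sq.mp
      have h51 : p ^ 2 ≤ q ^ 2 := sq_le_sq.mpr hle
      have h52 : p ^ 2 ≤ p * q := by
        have h53 : |p| * |p| ≤ |p| * |q| := mul_le_mul_of_nonneg_left hle (abs_nonneg p)
        have e1 : |p| * |p| = p ^ 2 := by rw [← sq, sq_abs]
        have e2 : |p| * |q| = p * q := by rw [← abs_mul, abs_of_nonneg hpq]
        rw [e1, e2] at h53
        exact h53
      nlinarith
    have h6 := psi_mono h5 hq
    have h7 := mul_le_mul_of_nonneg_left h6 (mul_pos hA hB).le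
    have h8 : (1 + m) * (1 - m) * psi q ≤ 2 * (1 - m) * psi q := by
      apply mul_le_mul_of_nonneg_right _ hq1
      apply mul_le_mul_of_nonneg_right _ hB.le
      linarith
    have h9 : 0 ≤ 2 * (1 + m) * psi p := by positivity
    linarith
  · have h5 : |q - p| ≤ |p| := by
      apply sq_le_sq.mp
      have h52 : q ^ 2 ≤ p * q := by
        have h53 : |q| * |q| ≤ |q| * |p| := mul_le_mul_of_nonneg_left hle (abs_nonneg q)
        have e1 : |q| * |q| = q ^ 2 := by rw [← sq, sq_abs]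
        have e2 : |q| * |p| = p * q := by rw [← abs_mul, mul_comm q p, abs_of_nonneg hpq]
        rw [e1, e2] at h53
        exact h53
      have h51 : q ^ 2 ≤ p ^ 2 := sq_le_sq.mpr hle
      nlinarith
    have h6 := psi_mono h5 hp
    have h7 := mul_le_mul_of_nonneg_left h6 (mul_pos hA hB).le
    have h8 : (1 + m) * (1 - m) * psi p ≤ 2 * (1 + m) * psi p := by
      apply mul_le_mul_of_nonneg_right _ hp1
      rw [mul_comm (1 + m) (1 - m)]
      apply mul_le_mul_of_nonneg_right _ hA.le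
      linarith
    have h9 : 0 ≤ 2 * (1 - m) * psi q := by positivity
    linarith

/-- The gap of the two end values against the second difference of `phi`. -/
lemma gap_second_diff {m d : ℝ} (h : |m| + |d| ≤ 1) :
    gap (1 - (m + d) ^ 2 + d ^ 2) (1 - (m - d) ^ 2 + d ^ 2)
      ≤ 2 * (phi (m + d) + phi (m - d)) - 4 * phi m - 2 * d ^ 2 := by
  have hd0 := abs_nonneg d
  have hm0 := abs_nonneg m
  by_cases hA : |m| = 1
  · have hd : d = 0 := by
      have : |d| ≤ 0 := by linarith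
      exact abs_nonpos_iff.mp this
    subst hd
    simp only [add_zero, sub_zero]
    rw [gap_self]
    norm_num
    apply le_of_eq
    ring
  have hm1 : |m| < 1 := lt_of_le_of_ne (by linarith) hA
  have hm2 := abs_lt.mp hm1
  have hApos : 0 < 1 + m := by linarith
  have hBpos : 0 < 1 - m := by linarith
  set V := (1 + m) * (1 - m) with hV
  have hVpos : 0 < V := mul_pos hApos hBpos
  have e1 := phi_second_diff h
  have hdA : |d| ≤ 1 + m := by linarith [neg_abs_le m]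
  have hdB : |d| ≤ 1 - m := by linarith [le_abs_self m]
  have hp : |d / (1 + m)| ≤ 1 := by
    rw [abs_div, abs_of_pos hApos, div_le_one hApos]; exact hdA
  have hq : |d / (1 - m)| ≤ 1 := by
    rw [abs_div, abs_of_pos hBpos, div_le_one hBpos]; exact hdB
  set p := d / (1 + m) with hpdef
  set q := d / (1 - m) with hqdef
  have hqp : 2 * m * d / V = q - p := by
    rw [hV, hpdef, hqdef]
    field_simp
    ring
  have habs : |2 * m * d| ≤ V := by
    rw [abs_mul, abs_mul, abs_of_pos (by norm_num : (0 : ℝ) < 2)]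
    have h1 : |d| ≤ 1 - |m| := by linarith
    have h2 : |m| * |d| ≤ |m| * (1 - |m|) := mul_le_mul_of_nonneg_left h1 hm0
    have h3 : V = 1 - |m| ^ 2 := by
      rw [sq_abs, hV]; ring
    rw [h3]
    nlinarith
  have e2 : 1 - (m + d) ^ 2 + d ^ 2 = V * (1 - 2 * m * d / V) := by
    rw [mul_sub, mul_one, mul_div_cancel₀ _ hVpos.ne', hV]; ring
  have e3 : 1 - (m - d) ^ 2 + d ^ 2 = V * (1 + 2 * m * d / V) := by
    rw [mul_add, mul_one, mul_div_cancel₀ _ hVpos.ne', hV]; ring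
  rw [e2, e3, gap_comm, gap_eq_phi hVpos habs, hqp]
  have e4 : 2 * (phi (m + d) + phi (m - d)) - 4 * phi m - 2 * d ^ 2
      = 2 * (1 + m) * phi p + 2 * (1 - m) * phi q - 2 * d ^ 2 := by
    have : (phi (m + d) + phi (m - d)) / 2 - phi m
        = ((1 + m) * phi p + (1 - m) * phi q) / 2 := e1
    linarith
  rw [e4]
  -- split into the quadratic and the higher part
  have q1 : V * ((q - p) ^ 2 / 2) = (1 + m) * p ^ 2 + (1 - m) * q ^ 2 - 2 * d ^ 2 := by
    rw [hV, hpdef, hqdef]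
    field_simp
    ring
  have hpsi : V * psi (q - p) ≤ 2 * (1 + m) * psi p + 2 * (1 - m) * psi q := by
    have hpq : 0 ≤ p * q := by
      have : p * q = d ^ 2 / ((1 + m) * (1 - m)) := by
        rw [hpdef, hqdef]; field_simp
      rw [this]
      positivity
    exact psi_combo hApos hBpos hp hq hpq
  unfold psi at hpsi
  have e5 : phi (q - p) = (q - p) ^ 2 / 2 + (phi (q - p) - (q - p) ^ 2 / 2) := by ring
  have e6 : (1 + m) * p ^ 2 = 2 * (1 + m) * (p ^ 2 / 2) := by ring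
  have e7 : (1 - m) * q ^ 2 = 2 * (1 - m) * (q ^ 2 / 2) := by ring
  rw [e5, mul_add, q1]
  rw [e6, e7]
  linarith

/-- The Bellman function. -/
noncomputable def Theta (b w t : ℝ) : ℝ := H (b * (1 - w ^ 2 + t)) + b * psi w

/-- **The two-point inequality.** -/
theorem two_point {b a₁ a₂ y₁ y₂ : ℝ} (hb0 : 0 ≤ b) (h₁ : |a₁| ≤ 1) (h₂ : |a₂| ≤ 1)
    (hy₁ : 0 ≤ y₁) (hy₂ : 0 ≤ y₂)
    (hN₁ : b * (1 - a₁ ^ 2 + (y₁ ^ 2 + ((a₁ - a₂) / 2) ^ 2)) ≤ 1)
    (hN₂ : b * (1 - a₂ ^ 2 + (y₂ ^ 2 + ((a₁ - a₂) / 2) ^ 2)) ≤ 1) :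
    Theta b ((a₁ + a₂) / 2) (((y₁ + y₂) / 2) ^ 2)
      ≤ (Theta b a₁ (y₁ ^ 2 + ((a₁ - a₂) / 2) ^ 2) + Theta b a₂ (y₂ ^ 2 + ((a₁ - a₂) / 2) ^ 2)) / 2 := by
  set m := (a₁ + a₂) / 2 with hm
  set d := (a₁ - a₂) / 2 with hd
  have ha₁ : a₁ = m + d := by rw [hm, hd]; ring
  have ha₂ : a₂ = m - d := by rw [hm, hd]; ring
  have h1' := abs_le.mp h₁
  have h2' := abs_le.mp h₂
  have hsum : |m| + |d| ≤ 1 := by
    rcases abs_cases m with ⟨a1, a2⟩ | ⟨a1, a2⟩ <;> rcases abs_cases d with ⟨b1, b2⟩ | ⟨b1, b2⟩ <;>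
    rw [a1, b1] <;> linarith [h1'.1, h1'.2, h2'.1, h2'.2]
  have hsq₁ : 0 ≤ 1 - a₁ ^ 2 := by nlinarith
  have hsq₂ : 0 ≤ 1 - a₂ ^ 2 := by nlinarith
  set N₁ := 1 - a₁ ^ 2 + (y₁ ^ 2 + d ^ 2) with hN₁def
  set N₂ := 1 - a₂ ^ 2 + (y₂ ^ 2 + d ^ 2) with hN₂def
  have hN₁0 : 0 ≤ N₁ := by rw [hN₁def]; positivity
  have hN₂0 : 0 ≤ N₂ := by rw [hN₂def]; positivity
  set X := (N₁ + N₂) / 2 with hX
  set N₀ := 1 - m ^ 2 + ((y₁ + y₂) / 2) ^ 2 with hN₀
  have hXN : X = N₀ + ((y₁ - y₂) / 2) ^ 2 := by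
    rw [hX, hN₁def, hN₂def, hN₀, ha₁, ha₂]
    ring
  have hV : 0 ≤ 1 - m ^ 2 := by
    have h1 : |m| ≤ 1 := by linarith [abs_nonneg d]
    have := abs_le.mp h1
    nlinarith
  have hN₀0 : 0 ≤ N₀ := by rw [hN₀]; positivity
  -- the entropy terms
  have hv₁ : b * N₁ ∈ Set.Icc (0 : ℝ) 1 := ⟨by positivity, hN₁⟩
  have hv₂ : b * N₂ ∈ Set.Icc (0 : ℝ) 1 := ⟨by positivity, hN₂⟩
  have hmid := H_midpoint hv₁ hv₂
  have e1 : (b * N₁ + b * N₂) / 2 = b * X := by rw [hX]; ring
  rw [e1, gap_smul hb0 hN₁0 hN₂0] at hmid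
  have hbX : b * X ≤ 1 := by
    rw [← e1]
    linarith [hv₁.2, hv₂.2]
  have hbN₀ : b * N₀ ≤ b * X := by
    apply mul_le_mul_of_nonneg_left _ hb0
    rw [hXN]
    nlinarith [sq_nonneg ((y₁ - y₂) / 2)]
  have hsub := H_sub_ge (mul_nonneg hb0 hN₀0) hbN₀ hbX
  -- the gap of the N's
  have hNgap : gap N₁ N₂ ≤ (y₁ - y₂) ^ 2 / 2
      + (2 * (phi (m + d) + phi (m - d)) - 4 * phi m - 2 * d ^ 2) := by
    have e2 : N₁ = y₁ ^ 2 + (1 - (m + d) ^ 2 + d ^ 2) := by rw [hN₁def, ha₁]; ring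
    have e3 : N₂ = y₂ ^ 2 + (1 - (m - d) ^ 2 + d ^ 2) := by rw [hN₂def, ha₂]; ring
    rw [e2, e3]
    have hnn₁ : 0 ≤ 1 - (m + d) ^ 2 + d ^ 2 := by
      rw [← ha₁]; positivity
    have hnn₂ : 0 ≤ 1 - (m - d) ^ 2 + d ^ 2 := by
      rw [← ha₂]; positivity
    have h3 := gap_subadd (sq_nonneg y₁) (sq_nonneg y₂) hnn₁ hnn₂
    have h4 := gap_lsi hy₁ hy₂
    have h5 := gap_second_diff hsum
    linarith
  have hbgap := mul_le_mul_of_nonneg_left hNgap hb0
  unfold Theta
  have e4 : 1 - m ^ 2 + ((y₁ + y₂) / 2) ^ 2 = N₀ := rfl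
  rw [e4]
  have e5 : psi m = phi m - m ^ 2 / 2 := rfl
  have e6 : psi a₁ = phi (m + d) - (m + d) ^ 2 / 2 := by rw [← ha₁]; rfl
  have e7 : psi a₂ = phi (m - d) - (m - d) ^ 2 / 2 := by rw [← ha₂]; rfl
  rw [e5, e6, e7]
  have e8 : b * (((y₁ - y₂) / 2) ^ 2) = b * X - b * N₀ := by
    rw [hXN]; ring
  have e9 : b * ((y₁ - y₂) ^ 2 / 2 + (2 * (phi (m + d) + phi (m - d)) - 4 * phi m - 2 * d ^ 2))
      = 2 * (b * (((y₁ - y₂) / 2) ^ 2))
        + 2 * (b * phi (m + d)) + 2 * (b * phi (m - d)) - 4 * (b * phi m) - 2 * (b * d ^ 2) := by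
    ring
  rw [e9, e8] at hbgap
  have e10 : (H (b * N₁) + b * (phi (m + d) - (m + d) ^ 2 / 2)
        + (H (b * N₂) + b * (phi (m - d) - (m - d) ^ 2 / 2))) / 2
      = (H (b * N₁) + H (b * N₂)) / 2 + (b * phi (m + d) + b * phi (m - d)) / 2
        - b * (m ^ 2 + d ^ 2) / 2 := by
    ring
  have e11 : H (b * N₀) + b * (phi m - m ^ 2 / 2) = H (b * N₀) + b * phi m - b * m ^ 2 / 2 := by
    ring
  rw [e10, e11]
  have e12 : b * (m ^ 2 + d ^ 2) / 2 = b * m ^ 2 / 2 + b * d ^ 2 / 2 := by ring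
  rw [e12]
  linarith

end Vale.Agent.Lib.P322
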